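import Crest.Agent.R12.TH.VDefs

/-! Row 12, block TH: finite Fourier transforms. -/

set_option autoImplicit false

namespace Crest.Agent.R12.TH

open Crest.Agent.R17 Crest.Agent.R17.D
open Complex MeasureTheory Filter Set
open scoped Real Topology ComplexConjugate UpperHalfPlane MatrixGroups

/-- `prim_iff_coord`, `cb_three`, `eQ_coord_nat` -/
theorem cb_three_eq (x : O) : cb 3 (1 + 3 * x) = eQ x 3 := by
  obtain ⟨a, b, rfl⟩ := exists_coord x
  have h := eQ_coord_nat a b (m := 3) (by norm_num)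
  rw [Nat.cast_ofNat] at h
  rw [cb_three, h, sg_om, ← Complex.exp_int_mul]
  congr 1
  push_cast
  ring

theorem conj_cb_three {n : O} (hn : Prim n) : conj (cb 3 n) = eQ (-n) 9 := by
  obtain ⟨x, hx⟩ := hn
  have e : n = 1 + 3 * x := by linear_combination hx
  have h1 := eQ_coord_nat (-1) 0 (m := 9) (by norm_num)
  have h2 := eQ_mul_cancel (a := 3) (by norm_num) (-x) 3
  have e2 : -n = -1 + 3 * -x := by rw [e]; ring
  simp only [Int.reduceNeg, Int.cast_neg, Int.cast_one, Int.cast_zero, zero_mul, add_zero,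
    Nat.cast_ofNat, zero_div, mul_zero, Complex.exp_zero] at h1
  rw [show (3 : O) * 3 = 9 by norm_num] at h2
  rw [e2, eQ_add, h1, h2, one_mul, e, cb_three_eq, eQ_neg]

theorem cb_lam_eq {n : O} (hn : Prim n) : cb lam n = conj (cb 3 n) := by
  have e : (3 : O) = -lam ^ 2 := by rw [lam_sq, neg_neg]
  have h := cb_pow_add_three lam n (j := 1) one_ne_zero
  rw [conj_cb, e, cb_neg_left, cb_pow_left _ _ two_ne_zero, ← pow_mul, h, pow_one]

/-- `tau_shape` with `ζ = -1`, `i = 2` -/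
theorem tau_three_mul {n : O} (hn : Prim n) : tau (3 * n) = tau 3 * tau0 n := by
  have h := tau_shape (ζ := -1) isUnit_one.neg 2 hn
  have e : (-1 : O) * lam ^ 2 = 3 := by rw [lam_sq]; ring
  have h3 := cb_pow_three lam n
  rw [if_pos ⟨hn.coprime_three,
    (prime_lam.irreducible.coprime_iff_not_dvd).2 hn.not_lam_dvd⟩] at h3
  rw [e, neg_one_mul, cb_neg_left, cb_pow_left _ _ (by norm_num), h3, mul_one] at h
  exact h

theorem iv_spec {Q A : O} (h : IsCoprime A Q) : Q ∣ A * iv Q A - 1 := by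
  have h1 : ∃ D, Q ∣ A * D - 1 := by
    obtain ⟨a, b, hab⟩ := h
    exact ⟨a, -b, by linear_combination hab⟩
  unfold iv
  rw [dif_pos h1]
  exact h1.choose_spec

open Classical in
/-- `rsum_eq_of_system` with `S = res Q`, `g A = if IsCoprime A Q then iv Q A else A` -/
theorem rsum_inv {Q : O} (hQ : Q ≠ 0) {f : O → ℂ} (hf : Per Q f) :
    rsum Q (fun A => if IsCoprime A Q then f (iv Q A) else 0) =
      rsum Q fun D => if IsCoprime D Q then f D else 0 := by
  have hcop : ∀ {a b : O}, Q ∣ a - b → IsCoprime a Q → IsCoprime b Q := fun h ha => twb_cop h ha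
  have hiv : ∀ {A : O}, IsCoprime A Q → IsCoprime (iv Q A) Q := fun {A} hA => by
    obtain ⟨c, hc⟩ := iv_spec hA
    exact ⟨A, -c, by linear_combination hc⟩
  have hF : Per Q fun D => if IsCoprime D Q then f D else 0 := by
    intro a b hab
    by_cases ha : IsCoprime a Q
    · simp only [if_pos ha, if_pos (hcop hab ha), hf a b hab]
    · have hb : ¬ IsCoprime b Q := fun hb => ha (hcop (dvd_sub_comm.1 hab) hb)
      simp only [if_neg ha, if_neg hb]
  rw [rsum_eq_of_system hQ hF (res Q) (fun A => if IsCoprime A Q then iv Q A else A),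
    rsum_eq_sum hQ]
  · refine Finset.sum_congr rfl fun A _ => ?_
    by_cases hA : IsCoprime A Q
    · simp only [if_pos hA, if_pos (hiv hA)]
    · simp only [if_neg hA]
  · intro a
    by_cases ha : IsCoprime a Q
    · obtain ⟨A, hA, h1⟩ := exists_res hQ (iv Q a)
      have hA' := hcop h1 (hiv ha)
      refine ⟨A, hA, ?_⟩
      rw [if_pos hA']
      obtain ⟨c1, h1⟩ := h1
      obtain ⟨c2, h2⟩ := iv_spec ha
      obtain ⟨c3, h3⟩ := iv_spec hA'
      exact ⟨iv Q A * c2 - a * c3 - a * iv Q A * c1, by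
        linear_combination iv Q A * h2 - a * h3 - a * iv Q A * h1⟩
    · obtain ⟨A, hA, h1⟩ := exists_res hQ a
      refine ⟨A, hA, ?_⟩
      rwa [if_neg fun hA' => ha (hcop (dvd_sub_comm.1 h1) hA')]
  · intro i hi j hj hij
    refine res_inj hi hj ?_
    by_cases h1 : IsCoprime i Q <;> by_cases h2 : IsCoprime j Q
    · rw [if_pos h1, if_pos h2] at hij
      obtain ⟨c1, e1⟩ := hij
      obtain ⟨c2, e2⟩ := iv_spec h1
      obtain ⟨c3, e3⟩ := iv_spec h2
      exact ⟨j * c2 - i * c3 - i * j * c1, by linear_combination j * e2 - i * e3 - i * j * e1⟩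
    · rw [if_pos h1, if_neg h2] at hij
      exact absurd (hcop hij (hiv h1)) h2
    · rw [if_neg h1, if_pos h2] at hij
      exact absurd (hcop (dvd_sub_comm.1 hij) (hiv h2)) h1
    · rwa [if_neg h1, if_neg h2] at hij

open Classical in
theorem ara_per {f : O → ℂ} (hf : Per 27 f) : Per 27 fun y => if Prim y then f y else 0 := by
  intro a b hab
  have h3 : (3 : O) ∣ a - b := (show (3 : O) ∣ 27 from ⟨9, by norm_num⟩).trans hab
  by_cases ha : Prim a
  · simp only [if_pos ha, if_pos (ha.congr h3), hf a b hab]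
  · have hb : ¬ Prim b := fun hb => ha (hb.congr (dvd_sub_comm.1 h3))
    simp only [if_neg ha, if_neg hb]

open Classical in
/-- `rsum_tower` for `3 * 9`: the primary classes modulo `27` are `1 + 3 x`, `x` modulo `9` -/
theorem rsum_prim {f : O → ℂ} (hf : Per 27 f) :
    rsum 27 (fun y => if Prim y then f y else 0) = rsum 9 fun x => f (1 + 3 * x) := by
  have e : (27 : O) = 3 * 9 := by norm_num
  have hG : Per 3 fun y => rsum 9 fun z => f (y + 3 * z) := by
    rintro a b ⟨c, hc⟩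
    have h1 : Per 9 fun z => f (b + 3 * z) := by
      rintro x y ⟨w, hw⟩
      exact hf _ _ ⟨w, by linear_combination 3 * hw⟩
    show rsum 9 _ = rsum 9 _
    rw [← rsum_shift (by norm_num) h1 c]
    congr 1
    funext z
    congr 1
    linear_combination hc
  have h := rsum_ite (Q := 3) (by norm_num) hG 1
  have hF := ara_per hf
  rw [← h]
  rw [e] at hF ⊢
  rw [rsum_tower (by norm_num) (by norm_num) hF]
  congr 1
  funext y
  by_cases hy : Prim y
  · rw [if_pos (show (3 : O) ∣ y - 1 from hy)]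
    congr 1
    funext z
    rw [if_pos (hy.congr ⟨-z, by ring⟩)]
  · rw [if_neg (show ¬ (3 : O) ∣ y - 1 from hy)]
    refine Eq.trans ?_ (rsum_zero 9)
    congr 1
    funext z
    rw [if_neg fun h' => hy (Prim.congr h' ⟨z, by ring⟩)]

theorem ara_cop {d : O} (hd : Prim d) : IsCoprime (27 : O) d := by
  rw [show (27 : O) = 3 ^ 3 by norm_num]
  exact hd.coprime_three.symm.pow_left

theorem ara_cb {d : O} (hd : Prim d) : cb 27 d = 1 := by
  rw [show (27 : O) = 3 ^ 3 by norm_num, cb_pow_left _ _ (by norm_num), cb_pow_three,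
    if_pos ⟨hd.coprime_three, hd.coprime_three.symm⟩]

open Classical in
theorem ara_FT {g : O → ℂ} (hg : Per 27 g) {k : O} (hk : ∀ x, g (1 + 3 * x) = eQ (k * x) 9)
    (h : O) : FT 27 (fun y => if Prim y then g y else 0) h =
      if (9 : O) ∣ h + k then 81 * eQ h 27 else 0 := by
  have h1 := rsum_prim (hg.mul (per_eQ h 27))
  have h2 := rsum_eQ (Q := 9) (by norm_num) (h + k)
  have h3 : nm 9 = 81 := by
    have := nm_natCast 9
    rw [Nat.cast_ofNat] at this
    rw [this]; norm_num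
  have h4 : (fun x => g (1 + 3 * x) * eQ (h * (1 + 3 * x)) 27) =
      fun x => eQ h 27 * eQ ((h + k) * x) 9 := by
    funext x
    have h5 := eQ_mul_cancel (a := 3) (by norm_num) (h * x) 9
    rw [show (3 : O) * 9 = 27 by norm_num] at h5
    rw [hk, show h * (1 + 3 * x) = h + 3 * (h * x) by ring, eQ_add, h5, add_mul, eQ_add]
    ring
  unfold FT
  simp only [ite_mul, zero_mul]
  rw [h1, h4, rsum_mul_left, h2, h3]
  split_ifs
  · push_cast; ring
  · rw [mul_zero]

open Classical in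
/-- `FT_crt`; `gc 3 h d` is the Ramanujan sum (`cb_pow_three`) -/
theorem FT_wL {d : O} (hd : Prim d) (h : O) :
    FT (27 * d) (wL d) h = if (9 : O) ∣ h + 3 then 81 * eQ h 27 * gc 3 h d else 0 := by
  have hc : IsCoprime (27 : O) d := ara_cop hd
  have hper : Per 27 fun y => cb 3 y := fun a b hab =>
    cb_per (D := 3) (k := 1) (by simp) ((show (9 : O) ∣ 27 from ⟨3, by norm_num⟩).trans hab)
      ((show (3 : O) ∣ 27 from ⟨9, by norm_num⟩).trans hab)
  have e1 : wL d = fun A => conj (cb 3 d) * ((if Prim A then cb 3 A else 0) * cb A d ^ 3) := by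
    funext A
    unfold wL
    rw [cb_pow_three]
    by_cases h1 : Prim A <;> by_cases h2 : IsCoprime A d <;>
      simp [h1, h2, hd.coprime_three, mul_comm]
  have e2 : (fun y => if Prim (d * y) then cb 3 (d * y) else 0) =
      fun y => cb 3 d * if Prim y then cb 3 y else 0 := by
    funext y
    by_cases hy : Prim y
    · rw [if_pos hy, if_pos (hd.mul hy), cb_mul_right]
    · rw [if_neg hy, if_neg fun h' => hy (hd.of_mul h'), mul_zero]
  have e3 := cb_mul_conj 3 d
  rw [if_pos ⟨hd.coprime_three, hd.coprime_three.symm⟩] at e3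
  have e4 := ara_FT hper (k := 3) (fun x => by
    rw [cb_three_eq, ← eQ_mul_cancel (a := 3) (by norm_num) x 3]; norm_num) h
  rw [e1, gsb_FT_const, FT_crt (by norm_num) hd.ne_zero hc (ara_per hper) (gsb_per 3 d), e2,
    gsb_FT_const, e4]
  simp only [cb_mul_left, ara_cb hd, one_mul]
  show _ * (_ * _ * gc 3 h d) = _
  split_ifs
  · linear_combination 81 * eQ h 27 * gc 3 h d * e3
  · ring

open Classical in
theorem FT_dual {d : O} (hd : Prim d) (h : O) :
    FT (27 * d) (fun D => if Prim D then cb D d ^ 2 else 0) h =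
      if (9 : O) ∣ h then 81 * eQ h 27 * gc 2 h d else 0 := by
  have hc : IsCoprime (27 : O) d := ara_cop hd
  have hper : Per 27 fun _ => (1 : ℂ) := fun _ _ _ => rfl
  have e1 : (fun D => if Prim D then cb D d ^ 2 else 0) =
      fun D => (if Prim D then (1 : ℂ) else 0) * cb D d ^ 2 := by
    funext D
    split_ifs <;> simp
  have e2 : (fun y => if Prim (d * y) then (1 : ℂ) else 0) = fun y => if Prim y then 1 else 0 := by
    funext y
    by_cases hy : Prim y
    · rw [if_pos hy, if_pos (hd.mul hy)]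
    · rw [if_neg hy, if_neg fun h' => hy (hd.of_mul h')]
  have e4 := ara_FT hper (k := 0) (fun x => by simp) h
  rw [add_zero] at e4
  rw [e1, FT_crt (by norm_num) hd.ne_zero hc (ara_per hper) (gsb_per 2 d), e2, e4]
  simp only [cb_mul_left, ara_cb hd, one_mul]
  show _ * gc 2 h d = _
  split_ifs
  · rfl
  · rw [zero_mul]

open Classical in
/-- `Prim.induction_sqfree`, `sum_pdiv_mul`, `gc_mul`, `gc_prime_three` -/
theorem sum_ram {r : O} (hr : PSq r) (n : O) :
    ∑ d ∈ pdiv r, gc 3 n d = if r ∣ n then (nm r : ℂ) else 0 := by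
  refine hr.1.induction_sqfree
    (P := fun r => ∑ d ∈ pdiv r, gc 3 n d = if r ∣ n then (nm r : ℂ) else 0) hr.2 ?_
    fun p m hp hp' hm _ hpm ih => ?_
  · have : pdiv 1 = {(1 : O)} := by
      ext d
      rw [mem_pdiv one_ne_zero, Finset.mem_singleton]
      exact ⟨fun h => h.1.eq_one_of_isUnit (isUnit_of_dvd_one h.2),
        fun h => by rw [h]; exact ⟨Pr.one_mem, dvd_rfl⟩⟩
    rw [this, Finset.sum_singleton, gc_unit _ _ isUnit_one]
    simp
  · have hc : IsCoprime p m := hp.irreducible.coprime_iff_not_dvd.2 hpm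
    have h1 : pdiv p = {1, p} := by
      ext d
      rw [mem_pdiv hp.ne_zero, Finset.mem_insert, Finset.mem_singleton]
      constructor
      · rintro ⟨h1, h2⟩
        rcases hp.irreducible.dvd_iff.1 h2 with h3 | h3
        · exact Or.inl (h1.eq_one_of_isUnit h3)
        · exact Or.inr (h1.eq_of_associated hp' h3.symm)
      · rintro (rfl | rfl)
        · exact ⟨Pr.one_mem, one_dvd _⟩
        · exact ⟨hp', dvd_rfl⟩
    have h2 : ∑ d ∈ pdiv p, gc 3 n d = if p ∣ n then (nm p : ℂ) else 0 := by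
      rw [h1, Finset.sum_pair hp.ne_one.symm, gc_unit _ _ isUnit_one,
        gc_prime_three hp hp'.coprime_three three_ne_zero dvd_rfl]
      split_ifs <;> ring
    have h3 : ∑ d ∈ pdiv (p * m), gc 3 n d =
        (∑ d ∈ pdiv p, gc 3 n d) * ∑ d ∈ pdiv m, gc 3 n d := by
      rw [sum_pdiv_mul hp.ne_zero hm.ne_zero hc, Finset.sum_mul_sum]
      refine Finset.sum_congr rfl fun d₁ h₁ => Finset.sum_congr rfl fun d₂ h₂ => ?_
      obtain ⟨a1, a2⟩ := pra_of_mem_pdiv h₁
      obtain ⟨b1, b2⟩ := pra_of_mem_pdiv h₂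
      have hc' : IsCoprime d₁ d₂ := (hc.of_isCoprime_of_dvd_left a2).of_isCoprime_of_dvd_right b2
      rw [gc_mul 3 a1.ne_zero b1.ne_zero hc', cb_pow_three, cb_pow_three,
        if_pos ⟨a1.coprime_three, hc'.symm⟩, if_pos ⟨b1.coprime_three, hc'⟩, one_mul, one_mul]
    rw [h3, h2, ih, nm_mul]
    by_cases a : p ∣ n <;> by_cases b : m ∣ n
    · rw [if_pos a, if_pos b, if_pos (hc.mul_dvd a b), ofReal_mul]
    · rw [if_neg b, mul_zero, if_neg fun h => b ((dvd_mul_left m p).trans h)]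
    · rw [if_neg a, zero_mul, if_neg fun h => a ((dvd_mul_right p m).trans h)]
    · rw [if_neg a, zero_mul, if_neg fun h => a ((dvd_mul_right p m).trans h)]

theorem gc_three_neg_three {d : O} (hd : Prim d) (n : O) : gc 3 (-(3 * n)) d = gc 3 n d := by
  have h3 : IsCoprime (-3 : O) d := hd.coprime_three.symm.neg_left
  rw [show -(3 * n) = -3 * n by ring, gc_mul_arg 3 hd.ne_zero h3, ← map_pow, cb_pow_three,
    if_pos ⟨hd.coprime_three, h3⟩, map_one, one_mul]

theorem arb_sqrt_bt : √bt = 3 * k0 := by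
  have h3 : √3 * √3 = (3 : ℝ) := Real.mul_self_sqrt (by norm_num)
  have h0 : (0 : ℝ) < √3 := by positivity
  rw [Real.sqrt_eq_iff_mul_self_eq bt_pos.le (by have := k0_pos; positivity)]
  unfold k0 bt
  field_simp
  nlinarith [h3]

/-- `3 k0 = √bt` -/
theorem qw_neg (b : Bool) (h : O) : qw b (-h) = sgn b * (√(bt * nm h) : ℝ) * aw b h := by
  rw [Real.sqrt_mul bt_pos.le, arb_sqrt_bt]
  cases b
  · simp only [qw, sgn, aw, pw, map_neg, sg_eq_al h]
    simp
    ring
  · simp only [qw, sgn, aw, pw, map_neg, sg_eq_al h, map_mul, Complex.conj_ofReal]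
    simp
    ring

theorem aw_mul (b : Bool) (m n : O) : aw b (m * n) = aw b m * aw b n := by
  cases b <;> simp [aw, pw, al_mul]

theorem aw_nat (b : Bool) {m : ℕ} (hm : m ≠ 0) : aw b (m : O) = 1 := by
  have h : al (m : O) = 1 := by
    have : (m : ℂ) ≠ 0 := Nat.cast_ne_zero.2 hm
    simp [al, this]
  cases b <;> simp [aw, pw, h]

theorem norm_aw_le (b : Bool) (n : O) : ‖aw b n‖ ≤ 1 := by
  cases b <;> simp [aw, pw, norm_al_le]

theorem aL_eq (b : Bool) (j : ℕ) {d : O} (hd : Prim d) (n : Pr) :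
    aL b j d (-(3 * n)) = (sgn b * (√(bt * nm (3 * n)) : ℝ)) ^ j * tau 3 * cL b j d n := by
  have hn : Prim (n : O) := n.2
  have h9 : (9 : O) ∣ -(3 * (n : O)) + 3 := by
    obtain ⟨w, hw⟩ := hn
    exact ⟨-w, by linear_combination (-3) * hw⟩
  have h3 : aw b (3 : O) = 1 := by exact_mod_cast aw_nat b (m := 3) three_ne_zero
  have he : eQ (-(3 * (n : O))) 27 = cb lam n := by
    rw [cb_lam_eq hn, conj_cb_three hn, ← eQ_mul_cancel (a := 3) (by norm_num) (-(n : O)) 9]
    congr 1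
    · ring
    · norm_num
  rw [aL, FT_wL hd, if_pos h9, qw_neg, aw_mul, h3, D.tau_neg, tau_three_mul hn, he,
    gc_three_neg_three hd, cL, Tb]
  simp only [mul_pow]
  ring

theorem aL_eq_zero (b : Bool) (j : ℕ) {d h : O} (hd : Prim d) (hh : ∀ n : Pr, h ≠ -(3 * n)) :
    aL b j d h = 0 := by
  have h9 : ¬ (9 : O) ∣ h + 3 := by
    rintro ⟨w, hw⟩
    refine hh ⟨1 - 3 * w, ⟨-w, by ring⟩⟩ ?_
    show h = -(3 * (1 - 3 * w))
    linear_combination hw
  rw [aL, FT_wL hd, if_neg h9, zero_div, mul_zero]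

/-- `gc_sqfree`, `gsb_conj_gc` -/
theorem aR_eq (b : Bool) (j : ℕ) {d : O} (hd : PSq d) (k : O) :
    aR b j d (-(9 * k)) = (sgn (!b) * (√(bt * nm (9 * k)) : ℝ)) ^ j * UU d * cR b j d k := by
  have h9 : aw (!b) (9 : O) = 1 := by exact_mod_cast aw_nat (!b) (m := 9) (by norm_num)
  have he : eQ (9 * k) 27 = eQ k 3 := by
    rw [← eQ_mul_cancel (a := 9) (by norm_num) k 3]
    congr 1
    norm_num
  have hc : conj (cb 3 d) * conj (cb (9 * k) d) ^ 2 = cb 3 d * cb k d := by
    have e1 : cb 3 d ^ 4 = cb 3 d := by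
      simpa using cb_pow_add_three 3 d (j := 1) one_ne_zero
    have e2 : cb (9 * k) d ^ 4 = cb (9 * k) d := by
      simpa using cb_pow_add_three (9 * k) d (j := 1) one_ne_zero
    rw [conj_cb, conj_cb, ← pow_mul, show 2 * 2 = 4 from rfl, e2,
      show (9 : O) * k = 3 * 3 * k by ring, cb_mul_left, cb_mul_left]
    linear_combination cb k d * e1
  rw [aR, if_pos ⟨-k, by ring⟩, neg_neg, qw_neg, aw_mul, h9, D.tau_neg, he,
    gc_sqfree hd.2 (by norm_num), gsb_conj_gc hd.1.ne_zero, cR, UU]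
  simp only [mul_pow]
  linear_combination (sgn (!b) ^ j * ((√(bt * nm (9 * k)) : ℝ) : ℂ) ^ j * aw (!b) k ^ j *
    tau (9 * k) * eQ k 3 * conj (g3 d) * ((√(nm d) : ℝ) : ℂ)) * hc

theorem aR_eq_zero (b : Bool) (j : ℕ) {d h : O} (hh : ∀ k : O, h ≠ -(9 * k)) : aR b j d h = 0 := by
  have h9 : ¬ (9 : O) ∣ h := by
    rintro ⟨w, hw⟩
    exact hh (-w) (by linear_combination hw)
  rw [aR, if_neg h9, mul_zero]

theorem arb_norm_le (b : Bool) (j : ℕ) {f : O → ℂ} {B : ℝ} (hf : ∀ h, ‖f h‖ ≤ B) :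
    ∃ C : ℝ, ∀ h, ‖qw b h ^ j * tau h * f h‖ ≤ C * nm h ^ ((j : ℝ) / 2 + 1 / 6) := by
  obtain ⟨C, hC⟩ := tau_bound
  have hk := k0_pos
  refine ⟨(3 * k0) ^ j * C * B, fun h => ?_⟩
  rcases eq_or_ne h 0 with rfl | h0
  · have : (j : ℝ) / 2 + 1 / 6 ≠ 0 := by positivity
    rw [nm_zero, Real.zero_rpow this, D.tau_zero]
    simp
  have hp := nm_pos h0
  have e1 : ‖qw b h‖ ^ j = (3 * k0) ^ j * nm h ^ ((j : ℝ) / 2) := by
    rw [pa_norm_qw, mul_pow, nm_eq, ← Real.rpow_natCast ‖sg h‖ 2,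
      ← Real.rpow_mul (norm_nonneg _), ← Real.rpow_natCast ‖sg h‖ j]
    congr 2
    push_cast
    ring
  rw [norm_mul, norm_mul, norm_pow, e1, Real.rpow_add hp]
  have h1 : 0 ≤ (3 * k0) ^ j * nm h ^ ((j : ℝ) / 2) := by positivity
  calc _ ≤ (3 * k0) ^ j * nm h ^ ((j : ℝ) / 2) * (C * nm h ^ (1 / 6 : ℝ)) * B :=
        mul_le_mul (mul_le_mul_of_nonneg_left (hC h) h1) (hf h) (norm_nonneg _)
          (mul_nonneg h1 ((norm_nonneg _).trans (hC h)))
    _ = _ := by ring

theorem norm_aL_le (b : Bool) (j : ℕ) {d : O} (hd : d ≠ 0) :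
    ∃ C : ℝ, ∀ h, ‖aL b j d h‖ ≤ C * nm h ^ ((j : ℝ) / 2 + 1 / 6) := by
  have hw : ∀ y, ‖wL d y‖ ≤ 1 := fun y => by
    unfold wL
    split_ifs
    · rw [norm_mul, RCLike.norm_conj]
      exact mul_le_one₀ (norm_cb_le _ _) (norm_nonneg _) (norm_cb_le _ _)
    · simp
  refine arb_norm_le b j (f := fun h => FT (27 * d) (wL d) h / 81) (B := nm (27 * d) * 1 / 81)
    fun h => ?_
  rw [norm_div, Complex.norm_ofNat]
  exact div_le_div_of_nonneg_right (norm_FT_le (mul_ne_zero (by norm_num) hd) hw h) (by norm_num)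

theorem norm_aR_le (b : Bool) (j : ℕ) {d : O} (hd : d ≠ 0) :
    ∃ C : ℝ, ∀ h, ‖aR b j d h‖ ≤ C * nm h ^ ((j : ℝ) / 2 + 1 / 6) := by
  classical
  unfold aR
  refine arb_norm_le (!b) j (B := nm d) fun h => ?_
  split_ifs
  · rw [norm_mul, norm_mul, norm_eQ, one_mul, RCLike.norm_conj]
    calc _ ≤ 1 * nm d :=
          mul_le_mul (norm_cb_le _ _) (norm_gc_le 2 _ hd) (norm_nonneg _) zero_le_one
      _ = _ := one_mul _
  · simpa using nm_nonneg d

theorem norm_UU {d : O} (hd : PSq d) : ‖UU d‖ = √(nm d) := by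
  rw [UU, norm_mul, norm_mul, RCLike.norm_conj, norm_cb hd.1.coprime_three hd.1.coprime_three.symm,
    norm_g3 hd.2 hd.1.coprime_three, Complex.norm_real, Real.norm_of_nonneg (Real.sqrt_nonneg _),
    one_mul, one_mul]

theorem norm_cR_le (b : Bool) (j : ℕ) (d k : O) : ‖cR b j d k‖ ≤ ‖tau (9 * k)‖ := by
  rw [cR, norm_mul, norm_mul, norm_mul, norm_eQ, mul_one, norm_pow, mul_assoc]
  exact mul_le_of_le_one_right (norm_nonneg _) (mul_le_one₀ (norm_cb_le _ _) (by positivity)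
    (pow_le_one₀ (norm_nonneg _) (norm_aw_le _ _)))

theorem adm_cL (b : Bool) (j : ℕ) {d : O} (hd : d ≠ 0) : Adm (cL b j d) (fun n => nm n) 3 := by
  refine ⟨fun n _ => nm_pos (Prim.ne_zero n.2), ?_⟩
  have hs := Summable.Pr ((summable_nm_rpow (σ := 17 / 6) (by norm_num)).mul_left (nm d))
  refine Summable.of_nonneg_of_le
    (fun n => mul_nonneg (norm_nonneg _) (Real.rpow_nonneg (nm_nonneg _) _)) (fun n => ?_) hs
  have hp : 0 < nm (n : O) := nm_pos (Prim.ne_zero n.2)
  have h1 : ‖cL b j d n‖ ≤ nm (n : O) ^ (1 / 6 : ℝ) * nm d := by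
    rw [cL, Tb, norm_mul, norm_mul, norm_mul, norm_pow]
    refine mul_le_mul ?_ (norm_gc_le 3 _ hd) (norm_nonneg _) (by positivity)
    calc _ ≤ 1 * nm (n : O) ^ (1 / 6 : ℝ) * 1 :=
          mul_le_mul (mul_le_mul (norm_cb_le _ _) (norm_tau0_le _) (norm_nonneg _) zero_le_one)
            (pow_le_one₀ (norm_nonneg _) (norm_aw_le _ _)) (by positivity) (by positivity)
      _ = _ := by ring
  calc _ ≤ nm (n : O) ^ (1 / 6 : ℝ) * nm d * nm (n : O) ^ (-(3 : ℝ)) :=
        mul_le_mul_of_nonneg_right h1 (by positivity)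
    _ = nm d * nm (n : O) ^ (-(17 / 6 : ℝ)) := by
      rw [show -(17 / 6 : ℝ) = 1 / 6 + -3 by norm_num, Real.rpow_add hp]
      ring

theorem adm_cR (b : Bool) (j : ℕ) (d : O) : Adm (cR b j d) nm 3 := by
  obtain ⟨C, hC⟩ := tau_bound
  refine ⟨fun n hn => nm_pos ?_, ?_⟩
  · rintro rfl
    simp [cR, D.tau_zero] at hn
  have hs := (summable_nm_rpow (σ := 17 / 6) (by norm_num)).mul_left (C * nm 9 ^ (1 / 6 : ℝ))
  refine Summable.of_nonneg_of_le
    (fun n => mul_nonneg (norm_nonneg _) (Real.rpow_nonneg (nm_nonneg _) _)) (fun n => ?_) hs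
  rcases eq_or_ne n 0 with rfl | hn
  · simp [Real.zero_rpow (show -(3 : ℝ) ≠ 0 by norm_num),
      Real.zero_rpow (show -(17 / 6 : ℝ) ≠ 0 by norm_num)]
  have hp : 0 < nm n := nm_pos hn
  calc _ ≤ C * nm (9 * n) ^ (1 / 6 : ℝ) * nm n ^ (-(3 : ℝ)) :=
        mul_le_mul_of_nonneg_right ((norm_cR_le b j d n).trans (hC _)) (by positivity)
    _ = C * nm 9 ^ (1 / 6 : ℝ) * nm n ^ (-(17 / 6 : ℝ)) := by
      rw [show -(17 / 6 : ℝ) = 1 / 6 + -3 by norm_num, Real.rpow_add hp, nm_mul,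
        Real.mul_rpow (nm_nonneg _) hp.le]
      ring

end Crest.Agent.R12.TH
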