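import Crest.Agent.R17.D.Main

/-! Row 12, block TH (owner helper14): definitions for the value `tau 1 = tau 3 = -2/3`.
The theta function restricted to the real half plane is `SL₂(ℤ)`-invariant; integrate it against the
Gaussian theta series of `ℤ²` (unfolding), take the Mellin transform in the Gaussian parameter. -/

set_option autoImplicit false

namespace Crest.Agent.R12.TH

open Crest.Agent.R17 Crest.Agent.R17.D
open Complex MeasureTheory Filter Set
open scoped Real Topology ComplexConjugate UpperHalfPlane MatrixGroups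

/-- `ψ(y) = ∑_{k ≠ 0} exp (-π k² y)` -/
noncomputable def ps (y : ℝ) : ℝ := HurwitzZeta.evenKernel 0 y - 1

/-- `ψ(y) - y^{-1/2}` -/
noncomputable def gg (y : ℝ) : ℝ := ps y - y ^ (-(1 / 2) : ℝ)

/-- `κ = 2 Λ(2/3)` -/
noncomputable def kap : ℂ := mellin (fun y => (gg y : ℂ)) (1 / 3)

/-- the profile whose pseudo-Eisenstein series is constant -/
noncomputable def GT (t Q : ℝ) : ℝ := ps (t * Q) - t⁻¹ * ps (Q / t)

/-- the quadratic form of a point -/
noncomputable def QZ (z : ℍ) (r : ℤ × ℤ) : ℝ := normSq (r.1 * (z : ℂ) + r.2) / z.im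

/-- the theta function on the real half plane -/
noncomputable def ph (z : ℍ) : ℂ := theta (z.re : ℝ) z.im

/-- the strip -/
noncomputable def st (z : ℍ) : ℂ := (Ico (0 : ℝ) 1).indicator (fun _ => (1 : ℂ)) z.re

open Classical in
/-- theta coefficients on the rational integers -/
noncomputable def tq (h : O) : ℂ := if cj h = h then tau h else 0

/-- the horocycle average without the constant term -/
noncomputable def bq (v : ℝ) : ℂ := ∑' h : O, tq h * JJ h v

/-- the Gaussian period -/
noncomputable def AT (t : ℝ) : ℂ := ∫ v in Ioi (0 : ℝ), bq v * (ps (t / v) : ℝ) / (v : ℂ) ^ 2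

/-- `∑_{m ≡ 1 (3)} a(m) |m|^{-s}` over rational integers -/
noncomputable def ZZ (a : O → ℂ) (s : ℝ) : ℂ :=
  ∑' m : ℤ, if 3 ∣ m - 1 then a m * ((|(m : ℝ)| ^ (-s) : ℝ) : ℂ) else 0

/-- the `3`-adic factor -/
noncomputable def PP3 (X : ℝ) : ℂ := ∑' j : ℕ, tau (3 ^ j) * (X : ℂ) ^ j

/-- `s (s - 1) Λ(s)` -/
noncomputable def xi1 (s : ℂ) : ℂ := s * (s - 1) * completedRiemannZeta₀ s + 1

end Crest.Agent.R12.TH
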