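import Crest.Agent.R12.TH.MV

/-! Row 12, block TH: the dual integral. -/

set_option autoImplicit false

namespace Crest.Agent.R12.TH

open Crest.Agent.R17 Crest.Agent.R17.D
open Complex MeasureTheory Filter Set
open scoped Real Topology ComplexConjugate UpperHalfPlane MatrixGroups

theorem polyOn_RR (j : ℕ) : PolyOn (1 / 6) (RR j) := by
  have hj : (0 : ℝ) ≤ j := Nat.cast_nonneg j
  exact gc_polyOn_mul (gc_polyOn_mono (polyOn_Gamma_ratio ((j : ℝ) / 2 + 1 / 6)) (by linarith))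
    (gc_polyOn_mono (polyOn_Gamma_ratio ((j : ℝ) / 2 - 1 / 6)) (by linarith))

theorem norm_RR_half (j : ℕ) {s : ℂ} (hs : s.re = 1 / 2) : ‖RR j s‖ = 1 := by
  have hj : (0 : ℝ) ≤ j := Nat.cast_nonneg j
  rw [RR, norm_mul, norm_Gamma_ratio_half (by linarith) hs, norm_Gamma_ratio_half (by linarith) hs,
    mul_one]

theorem dua_ratio {α : ℝ} (hα : -(1 / 2) < α) (m : ℕ) : ∃ C : ℝ, 0 < C ∧ ∀ s : ℂ,
    s.re = (m + 1) / 2 → ‖Gamma (s + α) * (Gamma (1 - s + α))⁻¹‖ ≤ C * (1 + |s.im|) ^ m := by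
  have hm : (0 : ℝ) ≤ m := Nat.cast_nonneg m
  refine ⟨(2 * m + 2 + |α|) ^ m, by positivity, fun s hs => ?_⟩
  rw [norm_Gamma_ratio_nat m hs (by rw [hs]; linarith), ← mul_pow]
  refine (Finset.prod_le_prod (fun _ _ => norm_nonneg _) fun i hi => ?_).trans_eq
    (by rw [Finset.prod_const, Finset.card_range])
  have hi' : (i : ℝ) ≤ m := by exact_mod_cast (Finset.mem_range.1 hi).le
  have hi0 : (0 : ℝ) ≤ i := Nat.cast_nonneg i
  refine (norm_le_abs_re_add_abs_im _).trans ?_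
  have e1 : (s + α - (i + 1)).re = s.re + α - (i + 1) := by simp
  have e2 : (s + α - (i + 1)).im = s.im := by simp
  have h1 : |s.re + α - (i + 1)| ≤ 2 * m + 2 + |α| := by
    rw [abs_le, hs]
    constructor <;> linarith [le_abs_self α, neg_abs_le α]
  rw [e1, e2]
  nlinarith [abs_nonneg s.im, abs_nonneg α]

/-- `norm_Gamma_ratio_nat` -/
theorem norm_RR_nat (j m : ℕ) : ∃ C : ℝ, 0 < C ∧ ∀ s : ℂ, s.re = (m + 1) / 2 →
    ‖RR j s‖ ≤ C * (1 + |s.im|) ^ (2 * m) := by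
  have hj : (0 : ℝ) ≤ j := Nat.cast_nonneg j
  obtain ⟨C₁, h₁, H₁⟩ := dua_ratio (α := (j : ℝ) / 2 + 1 / 6) (by linarith) m
  obtain ⟨C₂, h₂, H₂⟩ := dua_ratio (α := (j : ℝ) / 2 - 1 / 6) (by linarith) m
  refine ⟨C₁ * C₂, by positivity, fun s hs => ?_⟩
  rw [RR, norm_mul]
  refine (mul_le_mul (H₁ s hs) (H₂ s hs) (norm_nonneg _) (by positivity)).trans_eq ?_
  ring

theorem dua_ker (j : ℕ) {L σ₁ σ₂ : ℝ} (hL : 0 < L) (h : 1 / 6 < σ₁) :
    DifferentiableOn ℂ (fun s => RR j s * (L : ℂ) ^ s) (strip σ₁ σ₂) ∧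
      ExpOn σ₁ σ₂ fun s => RR j s * (L : ℂ) ^ s := by
  obtain ⟨h1, h2⟩ := polyOn_RR j
  obtain ⟨C, A, -, -, h3⟩ := h2 σ₁ σ₂ h
  refine ⟨(h1.mono fun s hs => h.trans_le hs.1).mul ?_, (ExpOn.of_poly h3).mul ?_⟩
  · simpa using (gc_diff_cpow hL 1 0).differentiableOn
  · simpa using expOn_cpow hL σ₁ σ₂ 1 0

theorem dua_LNt (a : ℝ) (s : ℂ) : LNt a (1 - s) = LNt a (s + -1) := by
  rw [← LNt_neg]
  congr 1
  ring

theorem dua_shift (j : ℕ) {a L σ₀ σ₁ σ₂ : ℝ} (ha : 0 < a) (hL : 0 < L) (h : 1 / 6 < σ₁)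
    (h0 : σ₀ < σ₁) (h12 : σ₁ ≤ σ₂) {c : O → ℂ} (hc : Adm c nm σ₀) :
    DI (RR j) a L σ₁ c = DI (RR j) a L σ₂ c := by
  obtain ⟨h1, h2⟩ := dua_ker j (σ₂ := σ₂) hL h
  obtain ⟨h3, h4⟩ := hc.diffOn_DD fun n hn => one_le_nm fun h => by
    simpa [h] using hc.1 n hn
  have h5 := (VI_shift_LNt ha (-1) h12 (h1.mul (h3.mono fun s hs => h0.trans_le hs.1))
    (h2.mul (ExpOn.of_bdd fun s hs => h4 s (h0.le.trans hs.1)))).2.2
  simpa only [DI, dua_LNt, mul_assoc, Pi.mul_apply] using h5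

theorem DI_add (j : ℕ) {a L : ℝ} (ha : 0 < a) (hL : 0 < L) {c₁ c₂ : O → ℂ} (h₁ : Adm c₁ nm 3)
    (h₂ : Adm c₂ nm 3) :
    DI (RR j) a L 3 (fun k => c₁ k + c₂ k) = DI (RR j) a L 3 c₁ + DI (RR j) a L 3 c₂ := by
  obtain ⟨h1, h2⟩ := dua_ker j (σ₁ := 3) (σ₂ := 3) hL (by norm_num)
  have hK : VInt 3 fun s => LNt a (1 - s) * RR j s * (L : ℂ) ^ s := by
    simpa only [dua_LNt, mul_assoc] using (VI_shift_LNt ha (-1) le_rfl h1 h2).1
  rw [DI, DI, DI, ← VI_add (h₁.VI_mul_DD hK).1 (h₂.VI_mul_DD hK).1]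
  refine VI_congr fun s hs => ?_
  rw [← mul_add, DD, DD, DD, ← (h₁.summable_DD hs).of_norm.tsum_add (h₂.summable_DD hs).of_norm]
  simp only [add_mul]

/-- shifting the line to the right (`VI_shift_LNt` with `LNt_neg`, `w = -1`; `Adm.diffOn_DD`) -/
theorem DI_right (j : ℕ) {a L σ : ℝ} (ha : 0 < a) (hL : 0 < L) (hσ : 3 ≤ σ) {c : O → ℂ}
    (h : Adm c nm (5 / 2)) : DI (RR j) a L 3 c = DI (RR j) a L σ c := by
  exact dua_shift j ha hL (by norm_num) (by norm_num) hσ h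

/-- shifting a finite sum to the critical line (`adm_of_finite`) -/
theorem DI_left (j : ℕ) {a L : ℝ} (ha : 0 < a) (hL : 0 < L) {c : O → ℂ} (h0 : c 0 = 0)
    (S : Finset O) (hS : ∀ k, k ∉ S → c k = 0) : DI (RR j) a L 3 c = DI (RR j) a L (1 / 2) c := by
  refine (dua_shift j ha hL (by norm_num) (by norm_num : (0 : ℝ) < 1 / 2) (by norm_num)
    (adm_of_finite S hS (fun n hn => nm_pos fun h => hn (by rw [h, h0])) 0)).symm

theorem dualb_DA {σ U M : ℝ} (hσ : 3 ≤ σ) (hU : 0 < U) (hM : 0 ≤ M) {c : O → ℂ}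
    (hc : ∀ k, ‖c k‖ ≤ M * nm k ^ (1 : ℝ)) (h0 : ∀ k, nm k ≤ U → c k = 0) {s : ℂ} (hs : s.re = σ) :
    ‖DD c nm s‖ ≤ M * U ^ (3 - σ) * ∑' k : O, nm k ^ (-2 : ℝ) := by
  have h2 := (summable_nm_rpow (σ := 2) (by norm_num)).mul_left (M * U ^ (3 - σ))
  have hl : ∀ k, c k ≠ 0 → 0 < nm k := fun k hk => hU.trans (not_le.1 fun h => hk (h0 k h))
  rw [← tsum_mul_left]
  refine tsum_of_norm_bounded h2.hasSum fun k => ?_
  rw [sumA_norm_term hl, hs]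
  by_cases hk : c k = 0
  · rw [hk, norm_zero, zero_mul]
    have := nm_nonneg k
    positivity
  have h1 := hl k hk
  have h3 : nm k ^ (3 - σ) ≤ U ^ (3 - σ) :=
    Real.rpow_le_rpow_of_nonpos hU (not_le.1 fun h => hk (h0 k h)).le (by linarith)
  calc ‖c k‖ * nm k ^ (-σ) ≤ M * nm k ^ (1 : ℝ) * nm k ^ (-σ) := by gcongr; exact hc k
    _ = M * nm k ^ (3 - σ) * nm k ^ (-2 : ℝ) := by
        rw [mul_assoc, mul_assoc, ← Real.rpow_add h1, ← Real.rpow_add h1]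
        congr 2
        ring
    _ ≤ _ := by gcongr

/-- `∫ a exp (-a² t²/2) (1 + |t|)^{2m} dt ≤ C a^{-2m}`; on `σ = (m+1)/2`:
`a^{-2m} L^σ = a² (L/a⁴)^σ`; `∑_{N k > U} N k^{1-σ} ≤ U^{3-σ} ∑ N k^{-2}` -/
theorem DI_tail (j m : ℕ) (hm : 5 ≤ m) : ∃ C : ℝ, 0 < C ∧ ∀ (a L U M : ℝ) (c : O → ℂ), 0 < a →
    a ≤ 1 → 0 < L → 0 < U → 0 ≤ M → (∀ k, ‖c k‖ ≤ M * nm k ^ (1 : ℝ)) → (∀ k, nm k ≤ U → c k = 0) →
    ‖DI (RR j) a L ((m + 1) / 2) c‖ ≤ C * M * U ^ 3 * (L / a ^ 4 / U) ^ ((m + 1) / 2 : ℝ) := by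
  obtain ⟨C1, hC1, hR⟩ := norm_RR_nat j m
  obtain ⟨σ, hσ⟩ : ∃ σ : ℝ, σ = (m + 1) / 2 := ⟨_, rfl⟩
  have hm' : (5 : ℝ) ≤ m := by exact_mod_cast hm
  have hσ3 : 3 ≤ σ := by rw [hσ]; linarith
  have hg : Integrable fun u : ℝ => Real.exp (-(1 / 2) * u ^ 2) * (1 + |u|) ^ (2 * m) := by
    simpa only [sub_zero, Real.rpow_natCast] using
      integrable_gauss_poly (c := 1 / 2) (A := (2 * m : ℕ)) one_half_pos (Nat.cast_nonneg _) 0
  obtain ⟨I0, hI0⟩ : ∃ I0, I0 = ∫ u : ℝ, Real.exp (-(1 / 2) * u ^ 2) * (1 + |u|) ^ (2 * m) := ⟨_, rfl⟩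
  have hI : 0 ≤ I0 := hI0 ▸ integral_nonneg fun u => by positivity
  obtain ⟨S2, hS2⟩ : ∃ S2, S2 = ∑' k : O, nm k ^ (-2 : ℝ) := ⟨_, rfl⟩
  have hS : 0 ≤ S2 := hS2 ▸ tsum_nonneg fun k => Real.rpow_nonneg (nm_nonneg k) _
  obtain ⟨B, hB⟩ : ∃ B, B = √(2 * π) * Real.exp ((1 - σ) ^ 2 / 2) * C1 * S2 := ⟨_, rfl⟩
  have hB0 : 0 ≤ B := by rw [hB]; positivity
  refine ⟨1 / (2 * π) * B * I0 + 1, by positivity, fun a L U M c ha ha1 hL hU hM hc h0 => ?_⟩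
  rw [← hσ]
  have h := norm_VI_le (σ := σ) (F := fun s => LNt a (1 - s) * RR j s * (L : ℂ) ^ s * DD c nm s)
    ((hg.comp_mul_left' ha.ne').const_mul (B * M * (a * a⁻¹ ^ (2 * m) * L ^ σ * U ^ (3 - σ)))) fun y => by
      have hre : ((σ : ℂ) + y * I).re = σ := by simp
      have e1 : (1 - ((σ : ℂ) + y * I)).re = 1 - σ := by simp
      have e2 : (1 - ((σ : ℂ) + y * I)).im = -y := by simp
      have b1 := hR (σ + y * I) (hre.trans hσ)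
      have b2 := dualb_DA hσ3 hU hM hc h0 hre
      have e3 : ((σ : ℂ) + y * I).im = y := by simp
      have b3 : a ^ 2 * (1 - σ) ^ 2 / 2 ≤ (1 - σ) ^ 2 / 2 := by
        have : a ^ 2 ≤ 1 := pow_le_one₀ ha.le ha1
        nlinarith [sq_nonneg (1 - σ)]
      have b4 : 1 + |y| ≤ a⁻¹ * (1 + |a * y|) := by
        rw [abs_mul, abs_of_pos ha, mul_add, inv_mul_cancel_left₀ ha.ne', mul_one]
        linarith [(one_le_inv₀ ha).2 ha1]
      have e4 : -(a ^ 2 / 2) * (-y) ^ 2 = -(1 / 2) * (a * y) ^ 2 := by ring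
      rw [e3] at b1
      rw [← hS2] at b2
      rw [norm_mul, norm_mul, norm_mul, norm_LNt ha.le, e1, e2, e4, norm_cpow_eq_rpow_re_of_pos hL, hre]
      calc _ ≤ √(2 * π) * a * Real.exp ((1 - σ) ^ 2 / 2) * Real.exp (-(1 / 2) * (a * y) ^ 2) *
            (C1 * (a⁻¹ * (1 + |a * y|)) ^ (2 * m)) * L ^ σ * (M * U ^ (3 - σ) * S2) := by
            gcongr
            exact b1.trans (by gcongr)
        _ = _ := by
            rw [hB, mul_pow a⁻¹]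
            ring
  rw [integral_const_mul, Measure.integral_comp_mul_left
    (fun u : ℝ => Real.exp (-(1 / 2) * u ^ 2) * (1 + |u|) ^ (2 * m)), ← hI0,
    abs_of_pos (inv_pos.2 ha), smul_eq_mul] at h
  refine h.trans ?_
  have e1 : (a ^ 4) ^ σ = a ^ (2 * m) * a ^ 2 := by
    rw [← Real.rpow_natCast a 4, ← Real.rpow_mul ha.le, ← pow_add, ← Real.rpow_natCast, hσ]
    congr 1
    push_cast
    ring
  have e2 : U ^ 3 * (L / a ^ 4 / U) ^ σ = a⁻¹ ^ (2 * m) * L ^ σ * U ^ (3 - σ) * a⁻¹ ^ 2 := by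
    rw [Real.div_rpow (by positivity) hU.le, Real.div_rpow hL.le (by positivity), e1,
      Real.rpow_sub hU, Real.rpow_ofNat, inv_pow, inv_pow]
    field_simp
  have b5 : 1 ≤ a⁻¹ ^ 2 := one_le_pow₀ ((one_le_inv₀ ha).2 ha1)
  calc _ = 1 / (2 * π) * B * I0 * M * (a⁻¹ ^ (2 * m) * L ^ σ * U ^ (3 - σ) * 1) := by
        field_simp
    _ ≤ (1 / (2 * π) * B * I0 + 1) * M * (a⁻¹ ^ (2 * m) * L ^ σ * U ^ (3 - σ) * a⁻¹ ^ 2) := by
        gcongr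
        linarith
    _ = _ := by rw [← e2, mul_assoc _ (U ^ 3)]

/-- `norm_VI_mul_sq_le`, `mean_value`, `sum_LW_O` -/
theorem DI_head (j : ℕ) {δ : ℝ} (hδ : 0 < δ) : ∃ C : ℝ, 0 < C ∧
    ∀ (a L U M : ℝ) (c : O → ℂ) (S : Finset O), 0 < a → a ≤ 1 → 0 < L → 1 ≤ U → 0 ≤ M →
    (∀ k, k ∉ S → c k = 0) → (∀ k ∈ S, k ≠ 0 ∧ nm k ≤ U) →
    ∑ k ∈ S, ‖c k‖ ^ 2 * nm k ^ (-(1 + δ)) ≤ M ^ 2 →
    ‖DI (RR j) a L (1 / 2) c‖ ≤ C * M * U ^ δ * √L * (1 + √(a * U)) := by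
  obtain ⟨C, hC, hLW⟩ := sum_LW_O hδ
  refine ⟨2 * π * Real.exp 1 * √C, by positivity, fun a L U M c S ha ha1 hL hU hM h0 hS hM2 => ?_⟩
  have hS0 : ∀ k ∈ S, k ≠ 0 := fun k hk => (hS k hk).1
  have hadm := adm_of_finite (l := nm) S h0 (fun k hk => nm_pos (hS0 k (by
    by_contra h
    exact hk (h0 k h)))) (1 / 2)
  obtain ⟨m1, m2⟩ := mean_value ha S hS0 fun k => c k * (nm k : ℂ) ^ (-((1 / 2 : ℝ) : ℂ))
  have eF : ∀ y : ℝ, DD c nm (((1 / 2 : ℝ) : ℂ) + y * I) =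
      ∑ k ∈ S, c k * (nm k : ℂ) ^ (-((1 / 2 : ℝ) : ℂ)) * (nm k : ℂ) ^ (-(y * I)) := fun y => by
    rw [DD, tsum_eq_sum (s := S) fun k hk => by rw [h0 k hk, zero_mul]]
    refine Finset.sum_congr rfl fun k hk => ?_
    rw [neg_add, cpow_add _ _ (ofReal_ne_zero.2 (nm_pos (hS0 k hk)).ne'), mul_assoc]
  obtain ⟨B, hB⟩ : ∃ B, B = √(2 * π) * Real.exp 1 * √L := ⟨_, rfl⟩
  have hB0 : 0 ≤ B := by rw [hB]; positivity
  have ha2 : 0 < a ^ 2 / 2 := by positivity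
  have hline : Continuous fun y : ℝ => ((1 / 2 : ℝ) : ℂ) + y * I := by fun_prop
  have h := norm_VI_mul_sq_le (σ := 1 / 2) (K := fun s => LNt a (1 - s) * RR j s * (L : ℂ) ^ s)
    (F := DD c nm) (φ := fun y => B * (a * Real.exp (-(a ^ 2 / 2) * y ^ 2)))
    ((((differentiable_LNt a).continuous.comp (continuous_const.sub hline)).mul
      ((polyOn_RR j).1.continuousOn.comp_continuous hline fun y => by norm_num)).mul
      (hline.const_cpow (.inl (ofReal_ne_zero.2 hL.ne')))).aestronglyMeasurable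
    hadm.continuous_DD.aestronglyMeasurable
    (fun y => by
      have hre : (((1 / 2 : ℝ) : ℂ) + y * I).re = 1 / 2 := by simp
      have e1 : (1 - (((1 / 2 : ℝ) : ℂ) + y * I)).re = 1 / 2 := by norm_num
      have e2 : (1 - (((1 / 2 : ℝ) : ℂ) + y * I)).im = -y := by simp
      have b3 : a ^ 2 * (1 / 2) ^ 2 / 2 ≤ 1 := by
        have : a ^ 2 ≤ 1 := pow_le_one₀ ha.le ha1
        linarith
      rw [norm_mul, norm_mul, norm_LNt ha.le, e1, e2, neg_sq, norm_RR_half j hre,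
        norm_cpow_eq_rpow_re_of_pos hL, hre, ← Real.sqrt_eq_rpow]
      calc _ ≤ √(2 * π) * a * Real.exp 1 * Real.exp (-(a ^ 2 / 2) * y ^ 2) * 1 * √L := by gcongr
        _ = _ := by
          rw [hB]
          ring)
    (((integrable_exp_neg_mul_sq ha2).const_mul a).const_mul B)
    (by simpa only [eF, mul_assoc B] using m1.const_mul B)
  have e1 : a * √(π / (a ^ 2 / 2)) = √(2 * π) := by
    rw [← Real.sqrt_sq ha.le, ← Real.sqrt_mul (sq_nonneg a), Real.sqrt_sq ha.le]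
    congr 1
    field_simp
  simp only [eF, mul_assoc B] at h
  rw [integral_const_mul, integral_const_mul, integral_const_mul, integral_gaussian, e1] at h
  have hU0 : 0 < U := one_pos.trans_le hU
  have b1 : ∑ k ∈ S, ‖c k * (nm k : ℂ) ^ (-((1 / 2 : ℝ) : ℂ))‖ ^ 2 * ∑ m ∈ S, LW a (nm k) (nm m) ≤
      M ^ 2 * (U ^ δ * (C * U ^ δ * (1 + a * U))) := by
    refine le_trans ?_ (mul_le_mul_of_nonneg_right hM2 (by positivity))
    rw [Finset.sum_mul]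
    refine Finset.sum_le_sum fun k hk => ?_
    have hk0 := nm_pos (hS0 k hk)
    have e : ‖c k * (nm k : ℂ) ^ (-((1 / 2 : ℝ) : ℂ))‖ ^ 2 =
        ‖c k‖ ^ 2 * nm k ^ (-(1 + δ)) * nm k ^ δ := by
      rw [norm_mul, norm_cpow_eq_rpow_re_of_pos hk0, mul_pow, mul_assoc, ← Real.rpow_add hk0,
        ← Real.rpow_natCast (nm k ^ _), ← Real.rpow_mul hk0.le]
      congr 2
      simp
    have b2 := hLW a (nm k) U S ha ha1 hk0 hU hS
    have b3 := (hS k hk).2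
    rw [e, mul_assoc]
    refine mul_le_mul_of_nonneg_left ?_ (by positivity)
    refine mul_le_mul (by gcongr) (b2.trans (by gcongr))
      (Finset.sum_nonneg fun m _ => (Real.exp_pos _).le) (by positivity)
  refine (sq_le_sq₀ (norm_nonneg _) (by positivity)).1 (h.trans ?_)
  have b4 : 1 + a * U ≤ (1 + √(a * U)) ^ 2 := by
    nlinarith [Real.sq_sqrt (show 0 ≤ a * U by positivity), Real.sqrt_nonneg (a * U)]
  have s1 : √(2 * π) ^ 2 = 2 * π := Real.sq_sqrt (by positivity)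
  have s2 : √C ^ 2 = C := Real.sq_sqrt hC.le
  calc _ ≤ B * √(2 * π) * (B * (√(2 * π) * (M ^ 2 * (U ^ δ * (C * U ^ δ * (1 + √(a * U)) ^ 2))))) := by
        gcongr
        exact m2.trans (mul_le_mul_of_nonneg_left (b1.trans (by gcongr)) (by positivity))
    _ = (√(2 * π) ^ 2 * Real.exp 1 * M * U ^ δ * √L * (1 + √(a * U))) ^ 2 * C := by
        rw [hB]
        ring
    _ = _ := by
        rw [s1]
        linear_combination (-(2 * π * Real.exp 1 * M * U ^ δ * √L * (1 + √(a * U))) ^ 2) * s2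

theorem DIb_pt {δ M : ℝ} (hδ1 : δ ≤ 1) (hM : 0 ≤ M) {c : O → ℂ} (h0 : c 0 = 0)
    (h : ∀ S : Finset O, ∑ k ∈ S, ‖c k‖ ^ 2 * nm k ^ (-(1 + δ)) ≤ M ^ 2) (k : O) :
    ‖c k‖ ≤ M * nm k ^ (1 : ℝ) := by
  rw [Real.rpow_one]
  by_cases hk : k = 0
  · simp [hk, h0]
  have h1 := h {k}
  rw [Finset.sum_singleton] at h1
  have hn := one_le_nm hk
  have hn0 : 0 < nm k := by linarith
  have h2 : nm k ^ (-(2 : ℝ)) ≤ nm k ^ (-(1 + δ)) :=
    Real.rpow_le_rpow_of_exponent_le hn (by linarith)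
  have h3 : ‖c k‖ ^ 2 * nm k ^ (-(2 : ℝ)) ≤ M ^ 2 :=
    (mul_le_mul_of_nonneg_left h2 (sq_nonneg _)).trans h1
  rw [Real.rpow_neg hn0.le, Real.rpow_two, ← div_eq_mul_inv, div_le_iff₀ (by positivity),
    ← mul_pow] at h3
  exact (pow_le_pow_iff_left₀ (norm_nonneg _) (by positivity) two_ne_zero).1 h3

theorem DIb_adm {M : ℝ} {c : O → ℂ} (h0 : c 0 = 0) (h : ∀ k, ‖c k‖ ≤ M * nm k ^ (1 : ℝ)) :
    Adm c nm (5 / 2) := by
  refine ⟨fun k hk => nm_pos (by rintro rfl; exact hk h0), ?_⟩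
  refine Summable.of_nonneg_of_le
    (fun k => mul_nonneg (norm_nonneg _) (Real.rpow_nonneg (nm_nonneg k) _)) (fun k => ?_)
    ((summable_nm_rpow (σ := 3 / 2) (by norm_num)).mul_left M)
  by_cases hk : k = 0
  · simp [hk, h0]
  have hn0 := nm_pos hk
  calc ‖c k‖ * nm k ^ (-(5 / 2 : ℝ)) ≤ M * nm k ^ (1 : ℝ) * nm k ^ (-(5 / 2 : ℝ)) :=
        mul_le_mul_of_nonneg_right (h k) (Real.rpow_nonneg hn0.le _)
    _ = M * nm k ^ (-(3 / 2 : ℝ)) := by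
        rw [mul_assoc, ← Real.rpow_add hn0]; norm_num

/-- split at `U = L a⁻⁴ Z^δ` -/
theorem DI_bound (j : ℕ) (A : ℝ) {ε : ℝ} (hε : 0 < ε) : ∃ δ C : ℝ, 0 < δ ∧ 0 < C ∧
    ∀ (Z a L M : ℝ) (c : O → ℂ), 2 ≤ Z → Z⁻¹ ≤ a → a ≤ 1 → Z ^ (-A) ≤ L → L ≤ Z ^ A → 0 ≤ M →
    c 0 = 0 → (∀ S : Finset O, ∑ k ∈ S, ‖c k‖ ^ 2 * nm k ^ (-(1 + δ)) ≤ M ^ 2) →
    ‖DI (RR j) a L 3 c‖ ≤ C * M * Z ^ ε * √L * (1 + √(L / a ^ 3)) := by
  classical
  set B : ℝ := |A| with hB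
  have hB0 : 0 ≤ B := abs_nonneg A
  set T : ℝ := B + 4 + ε with hT
  have hT0 : 0 < T := by positivity
  set δ : ℝ := min 1 (ε / 2 / T) with hδdef
  have hδ : 0 < δ := lt_min one_pos (by positivity)
  have hδ1 : δ ≤ 1 := min_le_left _ _
  have hδT : T * δ ≤ ε / 2 := by
    have : δ ≤ ε / 2 / T := min_le_right _ _
    rwa [le_div_iff₀ hT0, mul_comm] at this
  obtain ⟨m0, hm0⟩ := exists_nat_ge (2 * (3 * T + B / 2) / ε)
  set m : ℕ := m0 + 5 with hmdef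
  have hm5 : 5 ≤ m := by omega
  have hmσ : 3 * T + B / 2 ≤ ε * (((m : ℝ) + 1) / 2) := by
    rw [div_le_iff₀ hε] at hm0
    have : (m : ℝ) = m0 + 5 := by rw [hmdef]; push_cast; ring
    rw [this]
    nlinarith
  have hσ3 : (3 : ℝ) ≤ ((m : ℝ) + 1) / 2 := by
    have : (5 : ℝ) ≤ m := by exact_mod_cast hm5
    linarith
  obtain ⟨C1, hC1, H1⟩ := DI_head j hδ
  obtain ⟨C2, hC2, H2⟩ := DI_tail j m hm5
  refine ⟨δ, 2 * C1 + C2, hδ, by positivity, ?_⟩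
  intro Z a L M c hZ ha1 ha2 hL1 hL2 hM h0 hc
  have hZ1 : 1 ≤ Z := by linarith
  have hZ0 : 0 < Z := by linarith
  have ha : 0 < a := lt_of_lt_of_le (inv_pos.2 hZ0) ha1
  have hL : 0 < L := lt_of_lt_of_le (Real.rpow_pos_of_pos hZ0 _) hL1
  have hL1' : Z ^ (-B) ≤ L :=
    (Real.rpow_le_rpow_of_exponent_le hZ1 (neg_le_neg (le_abs_self A))).trans hL1
  have hL2' : L ≤ Z ^ B := hL2.trans (Real.rpow_le_rpow_of_exponent_le hZ1 (le_abs_self A))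
  have hZε : 1 ≤ Z ^ ε := Real.one_le_rpow hZ1 hε.le
  have hZε2 : 1 ≤ Z ^ (ε / 2) := Real.one_le_rpow hZ1 (by positivity)
  set U0 : ℝ := L / a ^ 4 * Z ^ ε with hU0
  set U : ℝ := max 1 U0 with hU
  have hU1 : 1 ≤ U := le_max_left _ _
  have hUpos : 0 < U := by linarith
  have hUT : U ≤ Z ^ T := by
    refine max_le (Real.one_le_rpow hZ1 hT0.le) ?_
    have h1 : 1 / a ^ 4 ≤ Z ^ (4 : ℝ) := by
      rw [show (4 : ℝ) = ((4 : ℕ) : ℝ) by norm_num, Real.rpow_natCast, ← one_div_pow]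
      refine pow_le_pow_left₀ (by positivity) ?_ 4
      rw [one_div]
      exact inv_le_of_inv_le₀ hZ0 ha1
    calc U0 = L * (1 / a ^ 4) * Z ^ ε := by rw [hU0]; ring
      _ ≤ Z ^ B * Z ^ (4 : ℝ) * Z ^ ε := by gcongr
      _ = Z ^ T := by rw [hT, Real.rpow_add hZ0, Real.rpow_add hZ0]
  have hpt := DIb_pt hδ1 hM h0 hc
  set c₁ : O → ℂ := fun k => if nm k ≤ U then c k else 0 with hc₁
  set c₂ : O → ℂ := fun k => if nm k ≤ U then 0 else c k with hc₂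
  set S : Finset O := (finite_nm_le U).toFinset.erase 0 with hS
  have hsum : c = fun k => c₁ k + c₂ k := by
    funext k
    simp only [hc₁, hc₂]
    split_ifs <;> simp
  have h10 : c₁ 0 = 0 := by simp [hc₁, h0]
  have h20 : c₂ 0 = 0 := by simp [hc₂, h0]
  have hSmem : ∀ k ∈ S, k ≠ 0 ∧ nm k ≤ U := by
    intro k hk
    rw [hS, Finset.mem_erase, Set.Finite.mem_toFinset] at hk
    exact hk
  have hS1 : ∀ k, k ∉ S → c₁ k = 0 := by
    intro k hk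
    by_cases hk0 : k = 0
    · rw [hk0, h10]
    · have : ¬ nm k ≤ U := fun h => hk (by
        rw [hS, Finset.mem_erase, Set.Finite.mem_toFinset]; exact ⟨hk0, h⟩)
      simp [hc₁, this]
  have hpt2 : ∀ k, ‖c₂ k‖ ≤ M * nm k ^ (1 : ℝ) := by
    intro k
    simp only [hc₂]
    split_ifs
    · rw [norm_zero]; exact mul_nonneg hM (Real.rpow_nonneg (nm_nonneg k) _)
    · exact hpt k
  have hA1 : Adm c₁ nm 3 := adm_of_finite S hS1 (fun k hk => nm_pos (by rintro rfl; exact hk h10)) 3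
  have hA2 : Adm c₂ nm (5 / 2) := DIb_adm h20 hpt2
  have hA2' : Adm c₂ nm 3 :=
    (hA2.mono (fun k hk => one_le_nm (by rintro rfl; exact hk h20)) (by norm_num)).1
  have e1 : DI (RR j) a L 3 c = DI (RR j) a L (1 / 2) c₁ + DI (RR j) a L (((m : ℝ) + 1) / 2) c₂ := by
    conv_lhs => rw [hsum]
    rw [DI_add j ha hL hA1 hA2', DI_left j ha hL h10 S hS1, DI_right j ha hL hσ3 hA2]
  have b1 := H1 a L U M c₁ S ha ha2 hL hU1 hM hS1 hSmem (by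
    refine le_trans (le_of_eq (Finset.sum_congr rfl fun k hk => ?_)) (hc S)
    simp only [hc₁, if_pos (hSmem k hk).2])
  have b2 := H2 a L U M c₂ ha ha2 hL hUpos hM hpt2 (fun k hk => by simp [hc₂, hk])
  have hW : 0 ≤ √(L / a ^ 3) := Real.sqrt_nonneg _
  have g1 : U ^ δ ≤ Z ^ (ε / 2) := by
    calc U ^ δ ≤ (Z ^ T) ^ δ := Real.rpow_le_rpow hUpos.le hUT hδ.le
      _ = Z ^ (T * δ) := by rw [← Real.rpow_mul hZ0.le]
      _ ≤ Z ^ (ε / 2) := Real.rpow_le_rpow_of_exponent_le hZ1 hδT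
  have g2 : 1 + √(a * U) ≤ 2 * Z ^ (ε / 2) * (1 + √(L / a ^ 3)) := by
    have h1 : √(a * U) ≤ 1 + √(L / a ^ 3) * Z ^ (ε / 2) := by
      rcases le_total 1 U0 with h | h
      · rw [hU, max_eq_right h]
        have : a * U0 = L / a ^ 3 * (Z ^ (ε / 2)) ^ 2 := by
          rw [hU0, ← Real.rpow_natCast (Z ^ (ε / 2)) 2, ← Real.rpow_mul hZ0.le]
          have : ε / 2 * ((2 : ℕ) : ℝ) = ε := by push_cast; ring
          rw [this]
          field_simp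
        rw [this, Real.sqrt_mul (by positivity), Real.sqrt_sq (by positivity)]
        linarith
      · rw [hU, max_eq_left h, mul_one]
        have : √a ≤ 1 := Real.sqrt_le_one.2 ha2
        have : 0 ≤ √(L / a ^ 3) * Z ^ (ε / 2) := by positivity
        linarith
    nlinarith [mul_nonneg hW (le_trans zero_le_one hZε2)]
  have g3 : U ^ 3 * (L / a ^ 4 / U) ^ (((m : ℝ) + 1) / 2) ≤ √L := by
    have h1 : L / a ^ 4 / U ≤ Z ^ (-ε) := by
      rw [div_le_iff₀ hUpos, Real.rpow_neg hZ0.le, inv_mul_eq_div, le_div_iff₀ (by positivity)]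
      exact le_max_right _ _
    have h2 : (L / a ^ 4 / U) ^ (((m : ℝ) + 1) / 2) ≤ Z ^ (-(ε * (((m : ℝ) + 1) / 2))) := by
      calc (L / a ^ 4 / U) ^ (((m : ℝ) + 1) / 2) ≤ (Z ^ (-ε)) ^ (((m : ℝ) + 1) / 2) :=
            Real.rpow_le_rpow (by positivity) h1 (by positivity)
        _ = _ := by rw [← Real.rpow_mul hZ0.le, neg_mul]
    have h3 : U ^ 3 ≤ Z ^ (3 * T) := by
      calc U ^ 3 ≤ (Z ^ T) ^ 3 := pow_le_pow_left₀ hUpos.le hUT 3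
        _ = Z ^ (3 * T) := by
          rw [← Real.rpow_natCast (Z ^ T) 3, ← Real.rpow_mul hZ0.le]
          congr 1; push_cast; ring
    have h4 : Z ^ (-(B / 2)) ≤ √L := by
      refine Real.le_sqrt_of_sq_le (le_trans (le_of_eq ?_) hL1')
      rw [← Real.rpow_natCast (Z ^ (-(B / 2))) 2, ← Real.rpow_mul hZ0.le]
      congr 1; push_cast; ring
    calc U ^ 3 * (L / a ^ 4 / U) ^ (((m : ℝ) + 1) / 2)
        ≤ Z ^ (3 * T) * Z ^ (-(ε * (((m : ℝ) + 1) / 2))) := by gcongr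
      _ = Z ^ (3 * T + -(ε * (((m : ℝ) + 1) / 2))) := by rw [Real.rpow_add hZ0]
      _ ≤ Z ^ (-(B / 2)) := Real.rpow_le_rpow_of_exponent_le hZ1 (by linarith)
      _ ≤ √L := h4
  have hsL : 0 ≤ √L := Real.sqrt_nonneg _
  have eZ : Z ^ (ε / 2) * Z ^ (ε / 2) = Z ^ ε := by rw [← Real.rpow_add hZ0]; congr 1; ring
  have f1 : ‖DI (RR j) a L (1 / 2) c₁‖ ≤ 2 * C1 * M * Z ^ ε * √L * (1 + √(L / a ^ 3)) := by
    calc _ ≤ C1 * M * U ^ δ * √L * (1 + √(a * U)) := b1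
      _ ≤ C1 * M * Z ^ (ε / 2) * √L * (2 * Z ^ (ε / 2) * (1 + √(L / a ^ 3))) := by gcongr
      _ = _ := by rw [← eZ]; ring
  have f2 : ‖DI (RR j) a L (((m : ℝ) + 1) / 2) c₂‖ ≤ C2 * M * Z ^ ε * √L * (1 + √(L / a ^ 3)) := by
    calc _ ≤ C2 * M * U ^ 3 * (L / a ^ 4 / U) ^ (((m : ℝ) + 1) / 2) := b2
      _ = C2 * M * (U ^ 3 * (L / a ^ 4 / U) ^ (((m : ℝ) + 1) / 2)) := by ring
      _ ≤ C2 * M * √L := by gcongr
      _ = C2 * M * 1 * √L * 1 := by ring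
      _ ≤ C2 * M * Z ^ ε * √L * (1 + √(L / a ^ 3)) := by gcongr; linarith
  rw [e1]
  refine (norm_add_le _ _).trans ((add_le_add f1 f2).trans (le_of_eq ?_))
  ring

end Crest.Agent.R12.TH
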