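import Crest.Agent.R12.TH.VDefs
import Crest.Agent.R17.C.Theta

/-! Row 12, block TH: Mellin transforms of Bessel series of polynomial growth
(copy `R17/D/FE.lean` with the exponent `θ` in place of `1`). -/

set_option autoImplicit false

namespace Crest.Agent.R12.TH

open Crest.Agent.R17 Crest.Agent.R17.D
open Complex MeasureTheory Filter Set
open scoped Real Topology ComplexConjugate UpperHalfPlane MatrixGroups

variable {a : O → ℂ} {C θ : ℝ}

theorem sera_term (h0 : a 0 = 0) (ha : ∀ h, ‖a h‖ ≤ C * nm h ^ θ) {A : ℝ} (hA : 1 ≤ A) :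
    ∃ K : ℝ, 0 ≤ K ∧ ∀ (h : O) (v : ℝ), 0 < v →
      ‖a h * JJ h v‖ ≤ K * v ^ (1 - A) * nm h ^ (-(A / 2 - θ)) := by
  obtain ⟨C', hC'⟩ := JJ_decay hA
  refine ⟨|C| * |C'|, by positivity, fun h v hv => ?_⟩
  have hn0 := nm_nonneg h
  by_cases hh : h = 0
  · rw [hh, h0, zero_mul, norm_zero]
    have := nm_nonneg 0
    positivity
  have hn := nm_pos hh
  have h1 : ‖a h‖ ≤ |C| * nm h ^ θ :=
    (ha h).trans (mul_le_mul_of_nonneg_right (le_abs_self C) (by positivity))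
  have h2 : ‖JJ h v‖ ≤ |C'| * v ^ (1 - A) * nm h ^ (-(A / 2)) := (hC' h v hh hv).trans (by
    gcongr
    exact le_abs_self C')
  rw [norm_mul]
  refine (mul_le_mul h1 h2 (norm_nonneg _) (by positivity)).trans (le_of_eq ?_)
  rw [show -(A / 2 - θ) = -(A / 2) + θ by ring, Real.rpow_add hn]
  ring

theorem serg_continuousOn (h0 : a 0 = 0) (ha : ∀ h, ‖a h‖ ≤ C * nm h ^ θ) :
    ContinuousOn (fun v => ∑' h : O, a h * JJ h v) (Ioi 0) := by
  obtain ⟨K, hK, h⟩ := sera_term h0 ha (A := max (2 * θ + 4) 1) (le_max_right _ _)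
  have h1 := le_max_left (2 * θ + 4) 1
  have h2 := le_max_right (2 * θ + 4) 1
  generalize max (2 * θ + 4) 1 = A at h h1 h2
  intro v hv
  have hv' : (0 : ℝ) < v / 2 := half_pos hv
  have key : ContinuousOn (fun v => ∑' h : O, a h * JJ h v) (Ioi (v / 2)) := by
    refine continuousOn_tsum (u := fun h : O => K * (v / 2) ^ (1 - A) * nm h ^ (-(A / 2 - θ)))
      (fun h => ?_) ((summable_nm_rpow (by linarith)).mul_left _) fun n x hx => ?_
    · by_cases hh : h = 0
      · simp only [hh, h0, zero_mul]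
        exact continuousOn_const
      · exact (continuousOn_const.mul (feb_cont hh)).mono fun x hx => hv'.trans hx
    · refine (h n x (hv'.trans hx)).trans (mul_le_mul_of_nonneg_right
        (mul_le_mul_of_nonneg_left ?_ hK) (Real.rpow_nonneg (nm_nonneg n) _))
      exact Real.rpow_le_rpow_of_nonpos hv' (le_of_lt hx) (by linarith)
  exact (key.continuousAt (Ioi_mem_nhds (half_lt_self hv))).continuousWithinAt

theorem serg_decay (h0 : a 0 = 0) (ha : ∀ h, ‖a h‖ ≤ C * nm h ^ θ) (A : ℝ) :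
    (fun v => ∑' h : O, a h * JJ h v) =O[atTop] fun v : ℝ => v ^ (-A) := by
  have h1 : A + 1 ≤ max (max (A + 1) (2 * θ + 4)) 1 := le_max_of_le_left (le_max_left _ _)
  have h2 : 2 * θ + 4 ≤ max (max (A + 1) (2 * θ + 4)) 1 := le_max_of_le_left (le_max_right _ _)
  obtain ⟨K, hK, h⟩ := sera_term h0 ha (le_max_right (max (A + 1) (2 * θ + 4)) 1)
  generalize max (max (A + 1) (2 * θ + 4)) 1 = B at h h1 h2
  have hs := summable_nm_rpow (σ := B / 2 - θ) (by linarith)
  refine Asymptotics.IsBigO.of_bound (K * ∑' n : O, nm n ^ (-(B / 2 - θ))) ?_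
  filter_upwards [eventually_ge_atTop 1] with v hv
  have hv0 : 0 < v := by linarith
  have h1 : v ^ (1 - B) ≤ v ^ (-A) := Real.rpow_le_rpow_of_exponent_le hv (by linarith)
  rw [Real.norm_of_nonneg (by positivity), mul_right_comm, ← tsum_mul_left]
  refine tsum_of_norm_bounded (hs.mul_left _).hasSum fun n => (h n v hv0).trans ?_
  exact mul_le_mul_of_nonneg_right (mul_le_mul_of_nonneg_left h1 hK)
    (Real.rpow_nonneg (nm_nonneg n) _)

theorem serg_mellin (h0 : a 0 = 0) (ha : ∀ h, ‖a h‖ ≤ C * nm h ^ θ) {s : ℂ} (hs0 : 0 < s.re)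
    (hs : θ + 1 < s.re) :
    mellin (fun v => ∑' h : O, a h * JJ h v) (2 * s) =
      (2 * √bt : ℝ)⁻¹ * gth s * ∑' h : O, a h * ((√(nm h) : ℝ) : ℂ)⁻¹ * (nm h : ℂ) ^ (-s) := by
  have : Countable O := crd.surjective.countable
  have hI : ∀ h : O, Integrable (fun t : ℝ => a h * ((t : ℂ) ^ (2 * s - 1) • JJ h t))
      (volume.restrict (Ioi 0)) := fun h => by
    by_cases hh : h = 0
    · simp only [hh, h0, zero_mul]
      exact integrable_zero _ _ _
    · exact Integrable.const_mul (mellin_JJ hh hs0).1 _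
  have hS : Summable fun h : O => ∫ t in Ioi (0 : ℝ), ‖a h * ((t : ℂ) ^ (2 * s - 1) • JJ h t)‖ := by
    set I₀ := ∫ t in Ioi (0 : ℝ), t ^ (2 * s.re - 1) * ‖JJ 1 t‖ with hI₀
    have hI0 : 0 ≤ I₀ := setIntegral_nonneg measurableSet_Ioi fun t ht => by
      have : 0 < t := ht
      positivity
    refine Summable.of_nonneg_of_le (fun h => integral_nonneg fun t => norm_nonneg _) (fun h => ?_)
      ((summable_nm_rpow (σ := s.re - θ) (by linarith)).mul_left (|C| * I₀))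
    have hn0 := nm_nonneg h
    by_cases hh : h = 0
    · simp only [hh, h0, zero_mul, norm_zero, integral_zero]
      have := nm_nonneg 0
      positivity
    have hn := nm_pos hh
    simp only [norm_mul]
    rw [integral_const_mul, feb_scale hh s, ← hI₀]
    have h1 : ‖a h‖ ≤ |C| * nm h ^ θ :=
      (ha h).trans (mul_le_mul_of_nonneg_right (le_abs_self C) (by positivity))
    have h2 : (√(nm h))⁻¹ ≤ 1 := inv_le_one_of_one_le₀ (Real.one_le_sqrt.2 (one_le_nm hh))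
    calc ‖a h‖ * (nm h ^ (-s.re) * ((√(nm h))⁻¹ * I₀))
        ≤ |C| * nm h ^ θ * (nm h ^ (-s.re) * (1 * I₀)) := by gcongr
      _ = _ := by
        rw [show -(s.re - θ) = -s.re + θ by ring, Real.rpow_add hn]
        ring
  have h1 := hasSum_integral_of_summable_integral_norm hI hS
  have h2 : mellin (fun v => ∑' h : O, a h * JJ h v) (2 * s) =
      ∫ t in Ioi (0 : ℝ), ∑' h : O, a h * ((t : ℂ) ^ (2 * s - 1) • JJ h t) := by
    unfold mellin
    congr 1
    funext t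
    rw [smul_eq_mul, ← tsum_mul_left]
    exact tsum_congr fun h => by rw [smul_eq_mul]; ring
  rw [h2, ← h1.tsum_eq, ← tsum_mul_left]
  refine tsum_congr fun h => ?_
  by_cases hh : h = 0
  · simp [hh, h0]
  rw [integral_const_mul]
  have h3 := (mellin_JJ hh hs0).2
  unfold mellin at h3
  rw [h3]
  push_cast
  ring

/-- the form used below: `a h = (√(bt N h))^j · x h` -/
theorem serg_mellin' (j : ℕ) {x : O → ℂ} (h0 : x 0 = 0) (hx : ∀ h, ‖x h‖ ≤ C * nm h ^ (1 / 6 : ℝ))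
    {s : ℂ} (hs : 2 < s.re) :
    mellin (fun v => ∑' h : O, ((√(bt * nm h) : ℝ) : ℂ) ^ j * x h * JJ h v) (2 * s + j - 1) =
      1 / 2 * G2 j s * ∑' h : O, x h * ((bt * nm h : ℝ) : ℂ) ^ (-s) := by
  have hb := bt_pos
  have hj : (0 : ℝ) ≤ j := j.cast_nonneg
  have hre : (s + (((j : ℝ) - 1) / 2 : ℝ)).re = s.re + ((j : ℝ) - 1) / 2 := by rw [add_re, ofReal_re]
  have key := serg_mellin (a := fun h => ((√(bt * nm h) : ℝ) : ℂ) ^ j * x h) (C := √bt ^ j * C)
    (θ := (j : ℝ) / 2 + 1 / 6) (by simp [h0]) (fun h => by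
      have hn := nm_nonneg h
      rw [norm_mul, norm_pow, Complex.norm_of_nonneg (Real.sqrt_nonneg _), Real.sqrt_mul hb.le,
        mul_pow, Real.rpow_add' hn (by positivity), Real.sqrt_eq_rpow (nm h), ← Real.rpow_mul_natCast hn,
        show 1 / 2 * (j : ℝ) = j / 2 by ring]
      refine (mul_le_mul_of_nonneg_left (hx h) (by positivity)).trans (le_of_eq ?_)
      ring) (s := s + (((j : ℝ) - 1) / 2 : ℝ)) (by rw [hre]; linarith) (by rw [hre]; linarith)
  rw [show 2 * s + j - 1 = 2 * (s + (((j : ℝ) - 1) / 2 : ℝ)) by push_cast; ring, key, gth, G2,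
    show s + (((j : ℝ) - 1) / 2 : ℝ) + 2 / 3 = s + ((j : ℝ) / 2 + 1 / 6 : ℝ) by push_cast; ring,
    show s + (((j : ℝ) - 1) / 2 : ℝ) + 1 / 3 = s + ((j : ℝ) / 2 - 1 / 6 : ℝ) by push_cast; ring,
    ← tsum_mul_left, ← tsum_mul_left]
  refine tsum_congr fun h => ?_
  by_cases hh : h = 0
  · simp [hh, h0]
  have hn := nm_pos hh
  have hc : 0 < √(bt * nm h) := Real.sqrt_pos.2 (by positivity)
  have hc' := ofReal_ne_zero.2 hc.ne'
  have e4 : ∀ w : ℂ, ((27 / (4 * π ^ 2) : ℝ) : ℂ) ^ w = (bt : ℂ) ^ (-w) := fun w => by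
    have : (27 / (4 * π ^ 2) : ℝ) = bt⁻¹ := by rw [bt, inv_div]
    rw [this, ofReal_inv, inv_cpow _ _ (by rw [arg_ofReal_of_nonneg hb.le]; exact Real.pi_pos.ne),
      cpow_neg]
  have e5 : ∀ w : ℂ, ((bt * nm h : ℝ) : ℂ) ^ w = ((√(bt * nm h) : ℝ) : ℂ) ^ (((2 : ℝ) : ℂ) * w) :=
    fun w => by rw [cpow_mul_ofReal_nonneg hc.le, Real.rpow_two, Real.sq_sqrt (by positivity)]
  have e6 : (bt : ℂ) ^ (-(s + (((j : ℝ) - 1) / 2 : ℝ))) * (nm h : ℂ) ^ (-(s + (((j : ℝ) - 1) / 2 : ℝ))) *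
      ((√(bt * nm h) : ℝ) : ℂ) ^ j = ((bt * nm h : ℝ) : ℂ) ^ (-s) * (√bt : ℝ) * (√(nm h) : ℝ) := by
    rw [← mul_cpow_ofReal_nonneg hb.le hn.le, ← ofReal_mul, e5, e5, mul_assoc, ← ofReal_mul,
      ← Real.sqrt_mul hb.le, ← cpow_natCast, ← cpow_add _ _ hc',
      show ((2 : ℝ) : ℂ) * -(s + (((j : ℝ) - 1) / 2 : ℝ)) + j = ((2 : ℝ) : ℂ) * -s + 1 by
        push_cast; ring, cpow_add _ _ hc', cpow_one]
  have h1 := ofReal_ne_zero.2 (Real.sqrt_pos.2 hb).ne'
  have h2 := ofReal_ne_zero.2 (Real.sqrt_pos.2 hn).ne'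
  rw [e4, ofReal_inv, ofReal_mul, ofReal_ofNat]
  generalize Gamma (s + ((j : ℝ) / 2 + 1 / 6 : ℝ)) = g₁, Gamma (s + ((j : ℝ) / 2 - 1 / 6 : ℝ)) = g₂,
    -(s + (((j : ℝ) - 1) / 2 : ℝ)) = w at e6 ⊢
  field_simp
  linear_combination (x h * g₁ * g₂) * e6

/-- `WeakFEPair` with `f̃ x = f (x / N)`, `g̃ v = ε v^{2j - 2/3} g v + p`, `k = 2/3`, `ε = 1`, `f₀ = 0`,
`g₀ = p`; `L = Λ₀` (`hasMellin`, `functional_equation`, `R17.C.bdd_Λ₀`; for `p = 0` the pair is strong:
`IsStrongFEPair.symm_Λ_eq`) -/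
theorem mellin_FE_pole {f g : ℝ → ℂ} (hf : ContinuousOn f (Ioi 0)) (hg : ContinuousOn g (Ioi 0))
    (df : ∀ A : ℝ, f =O[atTop] fun v : ℝ => v ^ (-A)) (dg : ∀ A : ℝ, g =O[atTop] fun v : ℝ => v ^ (-A))
    {N : ℝ} (hN : 0 < N) {ε p : ℂ} {j : ℕ}
    (h : ∀ v : ℝ, 0 < v → f (N * v)⁻¹ = ε * (v : ℂ) ^ (2 * j) * g v + p * ((v ^ (2 / 3 : ℝ) : ℝ) : ℂ)) :
    ∃ L : ℂ → ℂ, EntBdd L ∧
      (∀ w : ℂ, 2 / 3 < w.re → mellin f w = (N : ℂ) ^ (-w) * (L w + p / (w - 2 / 3))) ∧
      ∀ w : ℂ, w.re < 0 ∨ p = 0 → ε * mellin g (2 * j - w) = L w + p / (w - 2 / 3) := by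
  have hcp : ContinuousOn (fun v : ℝ => (v : ℂ) ^ (2 * j - 2 / 3 : ℂ)) (Ioi 0) := fun v hv =>
    (continuousAt_ofReal_cpow_const v _ (Or.inr (ne_of_gt hv))).continuousWithinAt
  let P : WeakFEPair ℂ :=
    { f := fun x => f (N⁻¹ * x)
      g := fun v => ε • (v : ℂ) ^ (2 * j - 2 / 3 : ℂ) • g v + p
      k := 2 / 3
      ε := 1
      f₀ := 0
      g₀ := p
      hf_int := (hf.comp (continuous_const.mul continuous_id).continuousOn fun x hx =>
        mul_pos (inv_pos.2 hN) hx).locallyIntegrableOn measurableSet_Ioi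
      hg_int := (((hcp.smul hg).const_smul ε).add continuousOn_const).locallyIntegrableOn
        measurableSet_Ioi
      hk := by norm_num
      hε := one_ne_zero
      h_feq := fun x hx => by
        have hx0 : (0 : ℝ) < x := hx
        have e : (x : ℂ) ^ (2 * j) = ((x ^ (2 / 3 : ℝ) : ℝ) : ℂ) * (x : ℂ) ^ (2 * j - 2 / 3 : ℂ) := by
          rw [ofReal_cpow hx0.le, ← cpow_add _ _ (ofReal_ne_zero.2 hx0.ne'), ← cpow_natCast]
          congr 1
          push_cast
          ring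
        rw [one_div, ← mul_inv, h x hx0, e]
        simp only [smul_eq_mul]
        ring
      hf_top := fun r => by
        have h1 := (df (-r)).comp_tendsto (tendsto_id.const_mul_atTop (inv_pos.2 hN))
        simp only [sub_zero]
        refine h1.trans (Asymptotics.IsBigO.of_bound (N⁻¹ ^ r) ?_)
        filter_upwards [eventually_gt_atTop 0] with x hx
        simp only [Function.comp, id, neg_neg]
        rw [Real.mul_rpow (inv_pos.2 hN).le hx.le, norm_mul, Real.norm_of_nonneg (by positivity)]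
      hg_top := fun r => by
        simp only [add_sub_cancel_right]
        obtain ⟨C, hC⟩ := (dg (2 * j - 2 / 3 - r)).bound
        refine Asymptotics.IsBigO.of_bound (‖ε‖ * C) ?_
        filter_upwards [hC, eventually_gt_atTop 0] with x h1 hx
        have e : (2 * j - 2 / 3 : ℂ).re = 2 * j - 2 / 3 := by simp
        rw [Real.norm_of_nonneg (by positivity)] at h1 ⊢
        rw [norm_smul, norm_smul, norm_cpow_eq_rpow_re_of_pos hx, e, mul_assoc]
        refine mul_le_mul_of_nonneg_left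
          ((mul_le_mul_of_nonneg_left h1 (by positivity)).trans_eq ?_) (norm_nonneg _)
        rw [mul_left_comm, ← Real.rpow_add hx]
        congr 2
        ring }
  have hk : ((P.k : ℝ) : ℂ) = 2 / 3 := by simp [P]
  have hΛ : ∀ w, P.Λ w = P.Λ₀ w + p / (w - 2 / 3) := fun w => by
    rw [WeakFEPair.Λ, hk, ← neg_sub (2 / 3 : ℂ) w, div_neg]
    simp only [P, smul_eq_mul]
    ring
  refine ⟨P.Λ₀, ⟨P.differentiable_Λ₀, R17.C.bdd_Λ₀ P⟩, fun w hw => ?_, fun w hw => ?_⟩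
  · have h1 := (P.hasMellin (s := w) hw).2
    have h2 := mellin_comp_mul_left (fun x => P.f x - P.f₀) w hN
    rw [h1, hΛ] at h2
    simpa only [P, sub_zero, inv_mul_cancel_left₀ hN.ne', smul_eq_mul] using h2
  · have h1 := P.functional_equation (P.k - w)
    rw [sub_sub_cancel, hΛ] at h1
    have h2 : P.symm.Λ (P.k - w) =
        mellin (fun v : ℝ => ε • (v : ℂ) ^ (2 * j - 2 / 3 : ℂ) • g v) (P.k - w) := by
      rcases hw with hw | hw
      · have := (P.symm.hasMellin (s := P.k - w) (by simp; linarith)).2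
        rw [← this]
        simp only [P, WeakFEPair.symm_f, WeakFEPair.symm_f₀, add_sub_cancel_right]
      · rw [IsStrongFEPair.symm_Λ_eq ⟨rfl, hw⟩]
        simp only [P, hw, add_zero]
    rw [h1, h2, mellin_const_smul, mellin_cpow_smul, hk]
    simp only [P, smul_eq_mul, one_mul]
    congr 2
    ring

end Crest.Agent.R12.TH
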