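import Crest.Agent.R12.TH.Mel

/-! Row 12, block TH: the value of the theta coefficients. -/

set_option autoImplicit false

namespace Crest.Agent.R12.TH

open Crest.Agent.R17 Crest.Agent.R17.D
open Complex MeasureTheory Filter Set
open scoped Real Topology ComplexConjugate UpperHalfPlane MatrixGroups

theorem val_coef {e : ℕ → ℂ} {n : ℕ}
    (h : ∀ X : ℝ, 0 < X → X < 1 / 3 → ∑ k ∈ Finset.range n, e k * (X : ℂ) ^ k = 0) :
    ∀ k, k < n → e k = 0 := by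
  have hP : (∑ k ∈ Finset.range n, Polynomial.monomial k (e k) : Polynomial ℂ) = 0 := by
    refine Polynomial.eq_zero_of_infinite_isRoot _ ?_
    refine Set.Infinite.mono (s := (fun x : ℝ => (x : ℂ)) '' Ioo 0 (1 / 3)) ?_
      ((Set.Ioo_infinite (by norm_num)).image ofReal_injective.injOn)
    rintro _ ⟨x, hx, rfl⟩
    simp only [mem_ofPred_eq, Polynomial.IsRoot, Polynomial.eval_finsetSum, Polynomial.eval_monomial]
    exact h x hx.1 hx.2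
  intro k hk
  have h1 := congrArg (fun P : Polynomial ℂ => P.coeff k) hP
  simpa [Polynomial.finsetSum_coeff, Polynomial.coeff_monomial, hk] using h1

/-- linear algebra -/
theorem poly_rigid {n₀ n₁ n₂ n₃ n₄ n₅ n₆ n₇ : ℂ}
    (h : ∀ X : ℝ, 0 < X → X < 1 / 3 →
      (n₀ + n₁ * X + n₂ * X ^ 2 + n₃ * X ^ 3 + n₄ * X ^ 4 + n₅ * X ^ 5 + n₆ * X ^ 6 + n₇ * X ^ 7) *
          ((1 + (3 * X : ℂ)⁻¹) * (1 - (3 * X : ℂ)⁻¹ ^ 3 / 3)) =
        (n₀ + n₁ * (3 * X : ℂ)⁻¹ + n₂ * (3 * X : ℂ)⁻¹ ^ 2 + n₃ * (3 * X : ℂ)⁻¹ ^ 3 +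
          n₄ * (3 * X : ℂ)⁻¹ ^ 4 + n₅ * (3 * X : ℂ)⁻¹ ^ 5 + n₆ * (3 * X : ℂ)⁻¹ ^ 6 +
          n₇ * (3 * X : ℂ)⁻¹ ^ 7) * ((1 + X) * (1 - (X : ℂ) ^ 3 / 3))) :
    n₁ = n₀ ∧ n₂ = 0 ∧ n₃ = -n₀ / 3 ∧ n₄ = -n₀ / 3 ∧ n₅ = 0 ∧ n₆ = 0 ∧ n₇ = 0 := by
  have key := val_coef (n := 15) (e := fun k => [-n₇, -3 * n₆ - n₇, -9 * n₅ - 3 * n₆,
    -9 * n₀ - 27 * n₄ - 9 * n₅ + n₇ / 3, -27 * n₀ - 9 * n₁ - 81 * n₃ - 27 * n₄ + n₆ + n₇ / 3,
    -27 * n₁ - 252 * n₂ - 81 * n₃ + 3 * n₅ + n₆,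
    729 * n₀ - 729 * n₁ - 270 * n₂ - 9 * n₃ + 9 * n₄ + 3 * n₅, 0,
    -2187 * n₀ + 2187 * n₁ + 810 * n₂ + 27 * n₃ - 27 * n₄ - 9 * n₅,
    243 * n₁ + 2268 * n₂ + 729 * n₃ - 27 * n₅ - 9 * n₆,
    729 * n₀ + 243 * n₁ + 2187 * n₃ + 729 * n₄ - 27 * n₆ - 9 * n₇,
    729 * n₀ + 2187 * n₄ + 729 * n₅ - 27 * n₇, 2187 * n₅ + 729 * n₆, 2187 * n₆ + 729 * n₇,
    2187 * n₇].getD k 0) fun X h0 h1 => by
      have h2 := h X h0 h1
      have hX : (X : ℂ) ≠ 0 := ofReal_ne_zero.2 h0.ne'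
      have h3 : (3 * X : ℂ) * (3 * X : ℂ)⁻¹ = 1 := mul_inv_cancel₀ (mul_ne_zero three_ne_zero hX)
      generalize (3 * X : ℂ)⁻¹ = Y at h2 h3
      simp only [Finset.sum_range_succ, Finset.sum_range_zero, List.getD_cons_zero, List.getD_cons_succ]
      have hY : Y = (3 * X : ℂ)⁻¹ := eq_inv_of_mul_eq_one_right h3
      subst hY
      field_simp at h2
      linear_combination (1 / 3 : ℂ) * h2
  have e0 := key 0 (by norm_num)
  have e1 := key 1 (by norm_num)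
  have e2 := key 2 (by norm_num)
  have e3 := key 3 (by norm_num)
  have e4 := key 4 (by norm_num)
  have e5 := key 5 (by norm_num)
  have e6 := key 6 (by norm_num)
  simp only [List.getD_cons_zero, List.getD_cons_succ] at e0 e1 e2 e3 e4 e5 e6
  have h7 : n₇ = 0 := by linear_combination -e0
  have h6 : n₆ = 0 := by linear_combination -(1 / 3) * e1 - (1 / 3) * h7
  have h5 : n₅ = 0 := by linear_combination -(1 / 9) * e2 - (1 / 3) * h6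
  subst h5 h6 h7
  have h4 : n₄ = -n₀ / 3 := by linear_combination -(1 / 27) * e3
  subst h4
  refine ⟨?_, ?_, ?_, rfl, rfl, rfl, rfl⟩
  · linear_combination -(1 / 738) * e4 + (15 / 9922) * e5 - (7 / 4961) * e6
  · linear_combination (1 / 246) * e4 - (182 / 44649) * e5 + (1 / 9922) * e6
  · linear_combination -(1 / 82) * e4 - (5 / 29766) * e5 + (7 / 44649) * e6

/-- the numerator of `PP3` -/
noncomputable def NP (X : ℂ) : ℂ :=
  tau 1 + tau 3 * X + tau (3 ^ 2) * X ^ 2 + (tau (3 ^ 3) - 10 / 3 * tau 1) * X ^ 3 +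
    (tau (3 ^ 4) - 10 / 3 * tau 3) * X ^ 4 + (tau (3 ^ 5) - 10 / 3 * tau (3 ^ 2)) * X ^ 5 +
    (tau (3 ^ 6) - 10 / 3 * tau (3 ^ 3) + tau 1) * X ^ 6 +
    (tau (3 ^ 7) - 10 / 3 * tau (3 ^ 4) + tau 3) * X ^ 7

theorem val_cpow (s : ℝ) : (3 : ℂ) ^ (-(s : ℂ)) = (((3 : ℝ) ^ (-s) : ℝ) : ℂ) := by
  rw [ofReal_cpow (by norm_num)]
  push_cast
  rfl

theorem val_entire : ∃ H : ℂ → ℂ, (∀ s, H (1 - s) = H s) ∧ H (2 / 3) = 4 / 9 * kap ∧
    ∀ s : ℂ, H s * ((1 + (3 : ℂ) ^ (-s)) * (1 - ((3 : ℂ) ^ (-s)) ^ 3 / 3)) =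
      6 * NP ((3 : ℂ) ^ (-s)) * (xi1 s * xi1 (3 * s - 1)) := by
  obtain ⟨β, hβ⟩ := period
  obtain ⟨M, hd, hs, hM⟩ := mel_sym aesm_AT (fun r hr => norm_AT_le hr) hβ
  refine ⟨fun s => s * (s - 1) * (3 * s - 1) * (3 * s - 2) * M s + β * ((3 * s - 1) * (3 * s - 2)) -
    2 * kap * (s * (s - 1)), fun s => ?_, ?_, ?_⟩
  · simp only [hs]
    ring
  · ring
  have hX : Differentiable ℂ fun s : ℂ => (3 : ℂ) ^ (-s) := fun s =>
    differentiableAt_id.neg.const_cpow (Or.inl three_ne_zero)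
  have hx := differentiable_xi1
  have h1 : Differentiable ℂ fun s : ℂ => (s * (s - 1) * (3 * s - 1) * (3 * s - 2) * M s +
      β * ((3 * s - 1) * (3 * s - 2)) - 2 * kap * (s * (s - 1))) *
      ((1 + (3 : ℂ) ^ (-s)) * (1 - ((3 : ℂ) ^ (-s)) ^ 3 / 3)) := by fun_prop
  have h2 : Differentiable ℂ fun s : ℂ =>
      6 * NP ((3 : ℂ) ^ (-s)) * (xi1 s * xi1 (3 * s - 1)) := by
    unfold NP
    fun_prop
  have h3 : Tendsto ((↑) : ℝ → ℂ) (𝓝[≠] 6) (𝓝[≠] ((6 : ℝ) : ℂ)) := by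
    rw [tendsto_nhdsWithin_iff]
    exact ⟨tendsto_nhdsWithin_of_tendsto_nhds continuous_ofReal.continuousAt,
      eventually_nhdsWithin_iff.mpr (Eventually.of_forall fun t ht h => ht (ofReal_injective h))⟩
  refine congrFun (AnalyticOnNhd.eq_of_frequently_eq (fun z _ => h1.analyticAt z)
    (fun z _ => h2.analyticAt z) (h3.frequently ?_))
  refine ((Eventually.filter_mono nhdsWithin_le_nhds) ?_).frequently
  refine (eventually_gt_nhds (show (5 : ℝ) < 6 by norm_num)).mp (Eventually.of_forall fun t ht => ?_)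
  have e1 := mellin_AT_eq ht
  have hlt : (3 : ℝ) ^ (-t) < 1 / 2 := by
    calc (3 : ℝ) ^ (-t) ≤ (3 : ℝ) ^ (-1 : ℝ) :=
          Real.rpow_le_rpow_of_exponent_le (by norm_num) (by linarith)
      _ < 1 / 2 := by rw [Real.rpow_neg_one]; norm_num
  have e2 := PP3_eq (X := (3 : ℝ) ^ (-t)) (by positivity) hlt
  have e3 := hM t (by simpa using (by linarith : 1 < t))
  have ne : ∀ c : ℝ, c < t → (t : ℂ) - c ≠ 0 := fun c hc => by
    rw [← ofReal_sub]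
    exact ofReal_ne_zero.2 (by linarith)
  have n0 : (t : ℂ) ≠ 0 := by simpa using ne 0 (by linarith)
  have n1 : (t : ℂ) - 1 ≠ 0 := by simpa using ne 1 (by linarith)
  have n2 : (t : ℂ) - 1 / 3 ≠ 0 := by simpa using ne (1 / 3) (by linarith)
  have n3 : (t : ℂ) - 2 / 3 ≠ 0 := by simpa using ne (2 / 3) (by linarith)
  have n4 : 3 * (t : ℂ) - 1 ≠ 0 := fun h => n2 (by linear_combination h / 3)
  have n5 : 3 * (t : ℂ) - 1 ≠ 1 := fun h => n3 (by linear_combination h / 3)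
  have e4 : t * (t - 1) * (3 * t - 1) * (3 * t - 2) * M t + β * ((3 * t - 1) * (3 * t - 2)) -
      2 * kap * (t * (t - 1)) = t * (t - 1) * (3 * t - 1) * (3 * t - 2) * mellin AT t := by
    have i0 := mul_inv_cancel₀ n0
    have i1 := mul_inv_cancel₀ n1
    have i2 := mul_inv_cancel₀ n2
    have i3 := mul_inv_cancel₀ n3
    rw [e3]
    simp only [div_eq_mul_inv] at i2 i3 ⊢
    linear_combination (-(2 * kap * (t * (t - 1)) * (3 * t - 2))) * i2 +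
      (2 * kap * (t * (t - 1)) * (3 * t - 1)) * i3 - (β * t * (3 * t - 1) * (3 * t - 2)) * i1 +
      (β * (t - 1) * (3 * t - 1) * (3 * t - 2)) * i0
  beta_reduce
  rw [e4, val_cpow, xi1_eq n0 (sub_ne_zero.1 n1), xi1_eq n4 n5, NP, ← e2]
  linear_combination (t * (t - 1) * (3 * t - 1) * (3 * t - 2) *
    (1 - (((3 : ℝ) ^ (-t) : ℝ) : ℂ) ^ 3 / 3)) * e1

theorem tau_vals : tau 1 = -(2 / 3) ∧ tau 3 = -(2 / 3) := by
  obtain ⟨H, hs, h23, hH⟩ := val_entire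
  obtain ⟨r1, r2, r3, r4, r5, r6, r7⟩ := poly_rigid (n₀ := tau 1) (n₁ := tau 3) (n₂ := tau (3 ^ 2))
    (n₃ := tau (3 ^ 3) - 10 / 3 * tau 1) (n₄ := tau (3 ^ 4) - 10 / 3 * tau 3)
    (n₅ := tau (3 ^ 5) - 10 / 3 * tau (3 ^ 2)) (n₆ := tau (3 ^ 6) - 10 / 3 * tau (3 ^ 3) + tau 1)
    (n₇ := tau (3 ^ 7) - 10 / 3 * tau (3 ^ 4) + tau 3) fun X h0 h1 => by
      obtain ⟨s, hs1, rfl⟩ : ∃ s : ℝ, 1 < s ∧ X = (3 : ℝ) ^ (-s) := by
        refine ⟨-Real.logb 3 X, ?_, by rw [neg_neg, Real.rpow_logb (by norm_num) (by norm_num) h0]⟩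
        rw [lt_neg, Real.logb_lt_iff_lt_rpow (by norm_num) h0, Real.rpow_neg_one]
        linarith
      have a1 := hH s
      have a2 := hH (1 - s)
      have e : (3 : ℂ) ^ (-(1 - (s : ℂ))) = (3 * (((3 : ℝ) ^ (-s) : ℝ) : ℂ))⁻¹ := by
        rw [← val_cpow, mul_inv, ← cpow_neg, ← cpow_neg_one, ← cpow_add _ _ three_ne_zero]
        congr 1
        ring
      rw [hs, e, xi1_one_sub, show 3 * (1 - (s : ℂ)) - 1 = 1 - (3 * s - 1) by ring,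
        xi1_one_sub] at a2
      rw [val_cpow] at a1
      have hne : xi1 s * xi1 (3 * s - 1) ≠ 0 := mul_ne_zero (xi1_ne_zero (by simpa using hs1))
        (xi1_ne_zero (by simp; linarith))
      refine mul_left_cancel₀ (mul_ne_zero (by norm_num : (6 : ℂ) ≠ 0) hne) ?_
      unfold NP at a1 a2
      generalize (3 * (((3 : ℝ) ^ (-s) : ℝ) : ℂ))⁻¹ = Y at a2 ⊢
      generalize (((3 : ℝ) ^ (-s) : ℝ) : ℂ) = X at a1 ⊢
      linear_combination ((1 + X) * (1 - X ^ 3 / 3)) * a2 - ((1 + Y) * (1 - Y ^ 3 / 3)) * a1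
  have a := hH ((2 / 3 : ℝ) : ℂ)
  rw [val_cpow, NP, r7, r6, r5, r4, r3, r2, r1] at a
  push_cast at a
  have hX3 : (((3 : ℝ) ^ (-(2 / 3 : ℝ)) : ℝ) : ℂ) ^ 3 = 1 / 9 := by
    rw [← ofReal_pow, ← Real.rpow_natCast, ← Real.rpow_mul (by norm_num)]
    norm_num
  have hX1 : 1 + (((3 : ℝ) ^ (-(2 / 3 : ℝ)) : ℝ) : ℂ) ≠ 0 := by
    rw [← ofReal_one, ← ofReal_add]
    exact ofReal_ne_zero.2 (by positivity)
  rw [h23, show (3 : ℂ) * (2 / 3) - 1 = 1 by norm_num, xi1_eq (by norm_num) (by norm_num),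
    show xi1 1 = 1 by simp [xi1]] at a
  have hk := mellin_gg.2
  have h1 : tau 1 = -(2 / 3) := by
    refine mul_left_cancel₀ (mul_ne_zero kap_ne_zero hX1) ?_
    generalize (((3 : ℝ) ^ (-(2 / 3 : ℝ)) : ℝ) : ℂ) = X at a hX3 ⊢
    rw [hk] at a ⊢
    linear_combination (81 / 52) * a + ((18 / 13) * completedRiemannZeta (2 / 3) * (1 + X) *
      (tau 1 / 2 + 1 / 3)) * hX3
  exact ⟨h1, r1.trans h1⟩

theorem tau_three : tau 3 = -(2 / 3) := tau_vals.2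

end Crest.Agent.R12.TH
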