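import Crest.Agent.R12.TH.Refl
import Crest.Agent.R12.TH.Ser
import Crest.Agent.R12.TH.Val

/-! Row 12, block TH: functional equation and Voronoi formula. -/

set_option autoImplicit false

namespace Crest.Agent.R12.TH

open Crest.Agent.R17 Crest.Agent.R17.D
open Complex MeasureTheory Filter Set
open scoped Real Topology ComplexConjugate UpperHalfPlane MatrixGroups

theorem fea_mellin {ι : Type} (j : ℕ) {a : O → ℂ} {C : ℝ}
    (ha : ∀ h, ‖a h‖ ≤ C * nm h ^ ((j : ℝ) / 2 + 1 / 6)) {φ : ι → O} (hφ : Function.Injective φ)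
    (h0 : ∀ h, (∀ n, h ≠ φ n) → a h = 0) {c : ι → ℂ} {l : ι → ℝ} {m : ℝ} {ε K : ℂ} (hm : 0 < m)
    (hl : ∀ n, nm (φ n) = m * l n)
    (he : ∀ n, a (φ n) = (ε * (√(bt * nm (φ n)) : ℝ)) ^ j * K * c n) {s : ℂ} (hs : 2 < s.re) :
    mellin (fun v => ∑' h : O, a h * JJ h v) (2 * s + j - 1) =
      1 / 2 * G2 j s * (ε ^ j * K * ((m * bt : ℝ) : ℂ) ^ (-s) * DD c l s) := by
  have hb := bt_pos
  have ha0 : a 0 = 0 := by
    have := ha 0
    rw [nm_eq_zero.2 rfl, Real.zero_rpow (by positivity), mul_zero] at this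
    exact norm_le_zero_iff.1 this
  have hr : ∀ h : O, h ≠ 0 → 0 < √(bt * nm h) := fun h hh =>
    Real.sqrt_pos.2 (mul_pos hb (nm_pos hh))
  have hr' : ∀ h : O, h ≠ 0 → ((√(bt * nm h) : ℝ) : ℂ) ^ j ≠ 0 := fun h hh =>
    pow_ne_zero _ (ofReal_ne_zero.2 (hr h hh).ne')
  have e1 : ∀ h, a h = ((√(bt * nm h) : ℝ) : ℂ) ^ j * (a h / ((√(bt * nm h) : ℝ) : ℂ) ^ j) := by
    intro h
    by_cases hh : h = 0
    · rw [hh, ha0, zero_div, mul_zero]
    · rw [mul_div_cancel₀ _ (hr' h hh)]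
  have hx : ∀ h, ‖a h / ((√(bt * nm h) : ℝ) : ℂ) ^ j‖ ≤ C / √bt ^ j * nm h ^ (1 / 6 : ℝ) := by
    intro h
    by_cases hh : h = 0
    · rw [hh, ha0, zero_div, norm_zero, nm_eq_zero.2 rfl, Real.zero_rpow (by norm_num), mul_zero]
    · have hn := nm_pos hh
      have e2 : √(nm h) ^ j = nm h ^ ((j : ℝ) / 2) := by
        rw [Real.sqrt_eq_rpow, ← Real.rpow_natCast, ← Real.rpow_mul hn.le]
        congr 1
        ring
      rw [norm_div, norm_pow, norm_real, Real.norm_of_nonneg (Real.sqrt_nonneg _),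
        div_le_iff₀ (pow_pos (hr h hh) j), Real.sqrt_mul hb.le, mul_pow, e2]
      refine (ha h).trans (le_of_eq ?_)
      have : √bt ≠ 0 := (Real.sqrt_pos.2 hb).ne'
      rw [Real.rpow_add hn]
      field_simp
  have key := serg_mellin' j (x := fun h => a h / ((√(bt * nm h) : ℝ) : ℂ) ^ j)
    (by simp only [ha0, zero_div]) hx hs
  simp only [← e1] at key
  rw [key, ← hφ.tsum_eq, DD, ← tsum_mul_left (a := ε ^ j * K * _)]
  · refine congrArg _ (tsum_congr fun n => ?_)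
    have hl0 : 0 ≤ l n := by
      have := nm_nonneg (φ n)
      rw [hl] at this
      exact nonneg_of_mul_nonneg_right this hm
    have e3 : ((bt * nm (φ n) : ℝ) : ℂ) ^ (-s) =
        ((m * bt : ℝ) : ℂ) ^ (-s) * (l n : ℂ) ^ (-s) := by
      rw [← mul_cpow_ofReal_nonneg (by positivity) hl0, ← ofReal_mul, hl]
      congr 2
      ring
    rw [e3]
    by_cases hh : φ n = 0
    · have h1 : l n = 0 := by
        have := hl n
        rw [hh, nm_eq_zero.2 rfl] at this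
        exact (mul_eq_zero.1 this.symm).resolve_left hm.ne'
      have h2 : -s ≠ 0 := fun h => by
        rw [neg_eq_zero.1 h, zero_re] at hs
        linarith
      simp only [h1, ofReal_zero, zero_cpow h2, mul_zero]
    · rw [he n, mul_pow]
      have := hr' _ hh
      field_simp
  · intro h hh
    by_contra hn
    exact hh (by simp only [h0 h fun n e => hn ⟨n, e.symm⟩, zero_div, zero_mul])

/-- `serg_mellin'`, `aL_eq`, `aL_eq_zero` -/
theorem mellin_L (b : Bool) (j : ℕ) {d : O} (hd : Prim d) {s : ℂ} (hs : 2 < s.re) :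
    mellin (fun v => ∑' h : O, aL b j d h * JJ h v) (2 * s + j - 1) =
      1 / 2 * G2 j s * (sgn b ^ j * tau 3 * ((9 * bt : ℝ) : ℂ) ^ (-s) *
        DD (cL b j d) (fun n => nm n) s) := by
  obtain ⟨C, hC⟩ := norm_aL_le b j hd.ne_zero
  refine fea_mellin j hC (φ := fun n : Pr => -(3 * (n : O)))
    (fun n n' h => Subtype.ext (mul_left_cancel₀ (by norm_num) (neg_injective h)))
    (fun h hh => aL_eq_zero b j hd hh) (by norm_num) (fun n => ?_) (fun n => ?_) hs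
  · have := nm_natCast 3
    rw [Nat.cast_ofNat] at this
    rw [nm_neg, nm_mul, this]
    norm_num
  · rw [aL_eq b j hd, nm_neg]

theorem mellin_R (b : Bool) (j : ℕ) {d : O} (hd : PSq d) {s : ℂ} (hs : 2 < s.re) :
    mellin (fun v => ∑' h : O, aR b j d h * JJ h v) (2 * s + j - 1) =
      1 / 2 * G2 j s * (sgn (!b) ^ j * UU d * ((81 * bt : ℝ) : ℂ) ^ (-s) * DD (cR b j d) nm s) := by
  obtain ⟨C, hC⟩ := norm_aR_le b j hd.1.ne_zero
  refine fea_mellin j hC (φ := fun k : O => -(9 * k))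
    (fun n n' h => mul_left_cancel₀ (by norm_num) (neg_injective h))
    (fun h hh => aR_eq_zero b j hh) (by norm_num) (fun n => ?_) (fun n => ?_) hs
  · have := nm_natCast 9
    rw [Nat.cast_ofNat] at this
    rw [nm_neg, nm_mul, this]
    norm_num
  · rw [aR_eq b j hd, nm_neg]

theorem G2_ne_zero (j : ℕ) {s : ℂ} (hs : 1 / 6 < s.re) : G2 j s ≠ 0 := by
  have hj : (0 : ℝ) ≤ j := Nat.cast_nonneg j
  refine mul_ne_zero (Gamma_ne_zero_of_re_pos ?_) (Gamma_ne_zero_of_re_pos ?_) <;>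
    rw [add_re, ofReal_re] <;> linarith

theorem inv_G2 (j : ℕ) : Differentiable ℂ (fun s => (G2 j s)⁻¹) ∧
    ∀ σ₁ σ₂ : ℝ, ExpOn σ₁ σ₂ fun s => (G2 j s)⁻¹ := by
  simp only [G2, mul_inv]
  exact ⟨(differentiable_one_div_Gamma.comp (differentiable_id.add_const _)).mul
    (differentiable_one_div_Gamma.comp (differentiable_id.add_const _)),
    fun σ₁ σ₂ => (gc_expOn_inv_Gamma σ₁ σ₂ _).mul (gc_expOn_inv_Gamma σ₁ σ₂ _)⟩

/-- the residue -/
theorem res_const :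
    (81 : ℝ) ^ (-(2 / 3) : ℝ) * (9 * bt) ^ (5 / 6 : ℝ) / Real.Gamma (2 / 3) = cP * rho0 := by
  have hπ : 0 < 2 * π := by positivity
  have h3 : (0 : ℝ) < 3 := by norm_num
  have e1 : (81 : ℝ) ^ (-(2 / 3) : ℝ) = 3 ^ (-(8 / 3) : ℝ) := by
    rw [show (81 : ℝ) = 3 ^ (4 : ℝ) by norm_num, ← Real.rpow_mul h3.le]
    norm_num
  have e2 : (9 * bt) ^ (5 / 6 : ℝ) = (2 * π) ^ (2 / 3 : ℝ) * (2 * π) * 3 ^ (-(5 / 6) : ℝ) := by
    rw [show 9 * bt = (2 * π) ^ (2 : ℝ) * 3⁻¹ by rw [bt, Real.rpow_two]; ring,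
      Real.mul_rpow (by positivity) (by positivity), ← Real.rpow_mul hπ.le,
      Real.inv_rpow h3.le, Real.rpow_neg h3.le, ← Real.rpow_add_one hπ.ne']
    norm_num
  have e3 : (3 : ℝ) ^ (-(8 / 3) : ℝ) * 3 ^ (-(5 / 6) : ℝ) = (27 * √3)⁻¹ := by
    rw [← Real.rpow_add h3, Real.sqrt_eq_rpow, show (27 : ℝ) = 3 ^ (3 : ℝ) by norm_num,
      ← Real.rpow_add h3, ← Real.rpow_neg h3.le]
    norm_num
  rw [e1, e2, cP, rho0]
  calc _ = (3 : ℝ) ^ (-(8 / 3) : ℝ) * 3 ^ (-(5 / 6) : ℝ) * ((2 * π) ^ (2 / 3 : ℝ) * (2 * π)) /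
        Real.Gamma (2 / 3) := by ring
    _ = _ := by
      rw [e3]
      ring

theorem feb_expOn_aff {L : ℂ → ℂ} (hL : EntBdd L) (j : ℕ) (q : ℂ) (σ₁ σ₂ : ℝ) :
    ExpOn σ₁ σ₂ fun s => (s - 5 / 6) * L (2 * s + j - 1) + q := by
  obtain ⟨B, hB⟩ := hL.2 (2 * σ₁ + j - 1) (2 * σ₂ + j - 1)
  refine ExpOn.of_poly (B := (|σ₁| + |σ₂| + 1) * |B| + ‖q‖) (A := 1) fun s hs => ?_
  have h1 : ‖L (2 * s + j - 1)‖ ≤ |B| := by
    refine (hB _ ?_ ?_).trans (le_abs_self B)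
    · simp only [sub_re, add_re, mul_re, re_ofNat, im_ofNat, zero_mul, sub_zero, natCast_re, one_re]
      linarith [hs.1]
    · simp only [sub_re, add_re, mul_re, re_ofNat, im_ofNat, zero_mul, sub_zero, natCast_re, one_re]
      linarith [hs.2]
  have h2 : |s.re| ≤ |σ₁| + |σ₂| := by
    rw [abs_le]
    constructor
    · linarith [hs.1, neg_abs_le σ₁, abs_nonneg σ₂]
    · linarith [hs.2, le_abs_self σ₂, abs_nonneg σ₁]
  have h3 : ‖s - 5 / 6‖ ≤ (|σ₁| + |σ₂| + 1) * (1 + |s.im|) := by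
    have h4 : ‖s - 5 / 6‖ ≤ ‖s‖ + 5 / 6 := by
      refine (norm_sub_le _ _).trans (le_of_eq ?_)
      simp
    have h5 := norm_le_abs_re_add_abs_im s
    nlinarith [abs_nonneg σ₁, abs_nonneg σ₂, abs_nonneg s.im]
  rw [Real.rpow_one]
  calc ‖(s - 5 / 6) * L (2 * s + j - 1) + q‖ ≤ ‖s - 5 / 6‖ * ‖L (2 * s + j - 1)‖ + ‖q‖ := by
        rw [← norm_mul]; exact norm_add_le _ _
    _ ≤ (|σ₁| + |σ₂| + 1) * (1 + |s.im|) * |B| + ‖q‖ * (1 + |s.im|) := by
        gcongr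
        nlinarith [norm_nonneg q, abs_nonneg s.im]
    _ = _ := by ring

theorem feb_norm_pw (b : Bool) (y : ℂ) : ‖pw b y‖ = ‖y‖ := by
  cases b <;> simp [pw]

theorem feb_norm_sgn (b : Bool) : ‖sgn b‖ = 1 := by
  cases b <;> simp [sgn]

theorem feb_sgn_ne (b : Bool) : sgn b ≠ 0 := by
  cases b <;> simp [sgn]

theorem feb_nm_nine (d : O) : nm (9 * d) = 81 * nm d := by
  have := nm_natCast 9
  rw [nm_mul]
  norm_num at this
  rw [this]

theorem feb_zero {a : O → ℂ} {C θ : ℝ} (hθ : 0 < θ) (ha : ∀ h, ‖a h‖ ≤ C * nm h ^ θ) : a 0 = 0 := by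
  have := ha 0
  rw [nm_zero, Real.zero_rpow hθ.ne', mul_zero] at this
  exact norm_le_zero_iff.1 this

theorem feb_pow {n : ℝ} (hn : 0 < n) (j : ℕ) (s : ℂ) :
    ((9 * bt : ℝ) : ℂ) ^ (1 - s) * ((81 * n : ℝ) : ℂ) ^ (-(2 * (1 - s) + j - 1)) *
        ((81 * bt : ℝ) : ℂ) ^ (-s) =
      1 / 3 * ((81 * n : ℝ) : ℂ)⁻¹ ^ j * ((3 * n / bt : ℝ) : ℂ) ^ (2 * s - 1) := by
  have hb := bt_pos
  have h3 : (0 : ℝ) < 3 := by norm_num
  have e9 : Real.log (9 * bt) = 2 * Real.log 3 + Real.log bt := by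
    rw [Real.log_mul (by norm_num) hb.ne', show (9 : ℝ) = 3 ^ 2 by norm_num, Real.log_pow]; norm_num
  have e81 : Real.log (81 * bt) = 4 * Real.log 3 + Real.log bt := by
    rw [Real.log_mul (by norm_num) hb.ne', show (81 : ℝ) = 3 ^ 4 by norm_num, Real.log_pow]; norm_num
  have e81n : Real.log (81 * n) = 4 * Real.log 3 + Real.log n := by
    rw [Real.log_mul (by norm_num) hn.ne', show (81 : ℝ) = 3 ^ 4 by norm_num, Real.log_pow]; norm_num
  have eq : Real.log (3 * n / bt) = Real.log 3 + Real.log n - Real.log bt := by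
    rw [Real.log_div (by positivity) hb.ne', Real.log_mul (by norm_num) hn.ne']
  have f1 : (1 / 3 : ℂ) = cexp (-(Real.log 3 : ℝ)) := by
    rw [Complex.exp_neg, ← ofReal_exp, Real.exp_log h3]; norm_num
  have f2 : ((81 * n : ℝ) : ℂ)⁻¹ ^ j = cexp (-(j * (Real.log (81 * n) : ℝ))) := by
    rw [Complex.exp_neg, Complex.exp_nat_mul, ← ofReal_exp, Real.exp_log (by positivity), inv_pow]
  rw [f1, f2, rfa_cpow (by positivity : 0 < 9 * bt), rfa_cpow (by positivity : 0 < 81 * n),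
    rfa_cpow (by positivity : 0 < 81 * bt), rfa_cpow (by positivity : 0 < 3 * n / bt), e9, e81, e81n, eq,
    ← Complex.exp_add, ← Complex.exp_add, ← Complex.exp_add, ← Complex.exp_add]
  congr 1
  push_cast
  ring

theorem feb_RR (j : ℕ) (s : ℂ) : RR j s = G2 j s * (G2 j (1 - s))⁻¹ := by
  unfold RR G2
  rw [mul_inv]
  ring

open Classical in
/-- `G s = 2 (G2 j s)⁻¹ (sgn^j tau 3)⁻¹ (9 bt)^s N^{-w} ((s - 5/6) L w + p/2)`, `w = 2 s + j - 1`,
`N = N(9 d)`, `u = -(1/2) aw^{2j} UU d` -/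
theorem FE_d (b : Bool) (j : ℕ) {d : O} (hd : PSq d) : ∃ (G : ℂ → ℂ) (u : ℂ),
    Differentiable ℂ G ∧ (∀ σ₁ σ₂, ExpOn σ₁ σ₂ G) ∧ ‖u‖ ≤ √(nm d) ∧
    G (5 / 6) = (if j = 0 ∧ d = 1 then ((cP * rho0 : ℝ) : ℂ) else 0) ∧
    (∀ s : ℂ, s.re = 3 → G s = (s - 5 / 6) * DD (cL b j d) (fun n => nm n) s) ∧
    ∀ s : ℂ, s.re = 3 → G (1 - s) =
      (1 - s - 5 / 6) * (u * (QQ d : ℂ) ^ (2 * s - 1) * RR j s * DD (cR b j d) nm s) := by
  have hd0 : d ≠ 0 := hd.1.ne_zero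
  have hn : 0 < nm d := nm_pos hd0
  have hb := bt_pos
  obtain ⟨C₁, hC₁⟩ := norm_aL_le b j hd0
  obtain ⟨C₂, hC₂⟩ := norm_aR_le b j hd0
  have hθ : (0 : ℝ) < (j : ℝ) / 2 + 1 / 6 := by positivity
  have z₁ := feb_zero hθ hC₁
  have z₂ := feb_zero hθ hC₂
  have hN : 0 < 81 * nm d := by positivity
  obtain ⟨p, hp⟩ : ∃ p : ℂ, p = if j = 0 ∧ d = 1 then -(2 / 3) else 0 := ⟨_, rfl⟩
  obtain ⟨ε, hε⟩ : ∃ ε : ℂ, ε = (-(pw (!b) (sg (9 * d)) ^ 2)) ^ j := ⟨_, rfl⟩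
  obtain ⟨L, hL, hA, hB⟩ := mellin_FE_pole (serg_continuousOn z₁ hC₁) (serg_continuousOn z₂ hC₂)
    (serg_decay z₁ hC₁) (serg_decay z₂ hC₂) hN (ε := ε) (p := p) (j := j) (fun v hv => by
      have := refl_fun b j hd hv
      rw [feb_nm_nine, ← hε, ← hp] at this
      exact this)
  have ht : tau 3 ≠ 0 := by rw [tau_three]; norm_num
  have hk : sgn b ^ j * tau 3 ≠ 0 := mul_ne_zero (pow_ne_zero _ (feb_sgn_ne b)) ht
  have hpole : ∀ s : ℂ, s ≠ 5 / 6 → (s - 5 / 6) * L (2 * s + j - 1) + p / 2 =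
      (s - 5 / 6) * (L (2 * s + j - 1) + p / (2 * s + j - 1 - 2 / 3)) := by
    intro s hs
    have hs' : s - 5 / 6 ≠ 0 := sub_ne_zero.2 hs
    by_cases h : j = 0 ∧ d = 1
    · have e : 2 * s + (j : ℂ) - 1 - 2 / 3 = 2 * (s - 5 / 6) := by rw [h.1]; push_cast; ring
      rw [e]
      generalize s - 5 / 6 = x at hs'
      field_simp
    · rw [hp, if_neg h]; simp
  refine ⟨fun s => 2 * (sgn b ^ j * tau 3)⁻¹ * ((G2 j s)⁻¹ * (((9 * bt : ℝ) : ℂ) ^ s *
      (((81 * nm d : ℝ) : ℂ) ^ (-(2 * s + j - 1)) * ((s - 5 / 6) * L (2 * s + j - 1) + p / 2)))),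
    (sgn b ^ j * tau 3)⁻¹ * (1 / 3 * ((81 * nm d : ℝ) : ℂ)⁻¹ ^ j) * ε * (sgn (!b) ^ j * UU d),
    ?_, ?_, ?_, ?_, ?_, ?_⟩
  · refine ((inv_G2 j).1.mul ((rfa_diff (by positivity)).mul (Differentiable.mul ?_ ?_))).const_mul _
    · exact Differentiable.const_cpow (by fun_prop) (Or.inl (by exact_mod_cast hN.ne'))
    · have := hL.1
      fun_prop
  · intro σ₁ σ₂
    refine (ExpOn.of_bdd (F := fun _ => 2 * (sgn b ^ j * tau 3)⁻¹) fun _ _ => le_rfl).mul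
      (((inv_G2 j).2 σ₁ σ₂).mul ((rfa_expOn (by positivity) σ₁ σ₂).mul
        (ExpOn.mul ?_ (feb_expOn_aff hL j _ σ₁ σ₂))))
    have := expOn_cpow hN σ₁ σ₂ (-2) (1 - j)
    convert this using 3 with s
    push_cast
    ring
  · have e1 : ‖ε‖ = (81 * nm d) ^ j := by
      rw [hε, norm_pow, norm_neg, norm_pow, feb_norm_pw, ← nm_eq, feb_nm_nine]
    simp only [norm_mul, norm_inv, norm_pow, feb_norm_sgn, one_pow, one_mul, e1, norm_UU hd,
      tau_three, norm_real, Real.norm_of_nonneg hN.le]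
    have e2 : (81 * nm d)⁻¹ ^ j * (81 * nm d) ^ j = 1 := by
      rw [← mul_pow, inv_mul_cancel₀ hN.ne', one_pow]
    have e3 : ‖(-(2 / 3) : ℂ)‖⁻¹ * ‖(1 / 3 : ℂ)‖ = 1 / 2 := by simp; norm_num
    calc ‖(-(2 / 3) : ℂ)‖⁻¹ * (‖(1 / 3 : ℂ)‖ * (81 * nm d)⁻¹ ^ j) * (81 * nm d) ^ j * √(nm d)
        = (‖(-(2 / 3) : ℂ)‖⁻¹ * ‖(1 / 3 : ℂ)‖) * ((81 * nm d)⁻¹ ^ j * (81 * nm d) ^ j) * √(nm d) := by
          ring
      _ ≤ √(nm d) := by
          rw [e2, e3]
          linarith [Real.sqrt_nonneg (nm d)]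
  · by_cases h : j = 0 ∧ d = 1
    · rw [if_pos h, ← res_const]
      rw [if_pos h] at hp
      obtain ⟨rfl, rfl⟩ := h
      have g1 : G2 0 (5 / 6) = (Real.Gamma (2 / 3) : ℝ) := by
        unfold G2
        have a1 : (5 / 6 : ℂ) + ((((0 : ℕ) : ℝ) / 2 + 1 / 6 : ℝ) : ℂ) = 1 := by push_cast; ring
        have a2 : (5 / 6 : ℂ) + ((((0 : ℕ) : ℝ) / 2 - 1 / 6 : ℝ) : ℂ) = ((2 / 3 : ℝ) : ℂ) := by
          push_cast; ring
        rw [a1, a2, Complex.Gamma_one, one_mul, Complex.Gamma_ofReal]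
      have g2 : ((9 * bt : ℝ) : ℂ) ^ (5 / 6 : ℂ) = (((9 * bt) ^ (5 / 6 : ℝ) : ℝ) : ℂ) := by
        rw [ofReal_cpow (by positivity)]; push_cast; rfl
      have g3 : ((81 * nm 1 : ℝ) : ℂ) ^ (-(2 * (5 / 6 : ℂ) + (0 : ℕ) - 1)) =
          (((81 : ℝ) ^ (-(2 / 3) : ℝ) : ℝ) : ℂ) := by
        rw [ofReal_cpow (by positivity), nm_one, mul_one]
        congr 1
        push_cast; ring
      simp only [g1, g2, g3, hp, tau_three, pow_zero, sub_self, zero_mul, zero_add, one_mul]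
      push_cast
      ring
    · rw [if_neg h]
      rw [if_neg h] at hp
      simp [hp]
  · intro s hs
    have hs1 : s ≠ 5 / 6 := fun h => by
      rw [h] at hs
      norm_num at hs
    have m1 := mellin_L b j hd.1 (s := s) (by rw [hs]; norm_num)
    have m2 := hA (2 * s + j - 1) (by
      simp only [sub_re, add_re, mul_re, re_ofNat, im_ofNat, zero_mul, sub_zero, natCast_re, one_re, hs]
      have : (0 : ℝ) ≤ j := Nat.cast_nonneg j
      linarith)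
    have hG := G2_ne_zero j (s := s) (by rw [hs]; norm_num)
    have hc : ((9 * bt : ℝ) : ℂ) ^ s ≠ 0 := by
      rw [rfa_cpow (by positivity)]; exact Complex.exp_ne_zero _
    have hsg := feb_sgn_ne b
    simp only
    rw [hpole s hs1, mul_left_comm _ (s - 5 / 6), ← m2, m1, cpow_neg]
    field_simp
  · intro s hs
    have hs1 : 1 - s ≠ 5 / 6 := fun h => by
      have := congrArg re h
      simp only [sub_re, one_re, hs] at this
      norm_num at this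
    have m1 := mellin_R b j hd (s := s) (by rw [hs]; norm_num)
    have m2 := hB (2 * (1 - s) + j - 1) (by
      by_cases h : j = 0 ∧ d = 1
      · left
        simp only [sub_re, add_re, mul_re, re_ofNat, im_ofNat, zero_mul, sub_zero, natCast_re, one_re,
          hs, h.1]
        norm_num
      · right
        rw [hp, if_neg h])
    rw [show 2 * (j : ℂ) - (2 * (1 - s) + j - 1) = 2 * s + j - 1 by ring, m1] at m2
    have e := feb_pow hn j s
    simp only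
    rw [hpole _ hs1, ← m2, feb_RR]
    unfold QQ
    linear_combination (sgn b ^ j * tau 3)⁻¹ * (G2 j (1 - s))⁻¹ * (1 - s - 5 / 6) * ε * G2 j s *
      sgn (!b) ^ j * UU d * DD (cR b j d) nm s * e

theorem feb_YQ {Y Q : ℝ} (hY : 0 < Y) (hQ : 0 < Q) (s : ℂ) :
    (Y : ℂ) ^ (1 - s) * (Q : ℂ) ^ (2 * s - 1) = ((Y / Q : ℝ) : ℂ) * ((Q ^ 2 / Y : ℝ) : ℂ) ^ s := by
  have e : Y / Q = Real.exp (Real.log Y - Real.log Q) := by
    rw [Real.exp_sub, Real.exp_log hY, Real.exp_log hQ]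
  rw [e, rfa_cpow hY, rfa_cpow hQ, rfa_cpow (by positivity : 0 < Q ^ 2 / Y),
    Real.log_div (by positivity) hY.ne', Real.log_pow, ofReal_exp,
    ← Complex.exp_add, ← Complex.exp_add]
  congr 1
  push_cast
  ring

open Classical in
/-- VORONOI (copy `Adm.SS_eq_reflect_pole`: `Adm.SS_eq_VI`, `VI_shift_LNt_pole`, `VI_const_sub`) -/
theorem vor_d (b : Bool) (j : ℕ) {d : O} (hd : PSq d) : ∃ u : ℂ, ‖u‖ ≤ √(nm d) ∧
    ∀ a Y : ℝ, 0 < a → 0 < Y → SS (cL b j d) (fun n => nm n) a Y 0 =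
      (if j = 0 ∧ d = 1 then ((cP * rho0 * Y ^ (5 / 6 : ℝ) : ℝ) : ℂ) * LNt a (5 / 6) else 0) +
        u * ((Y / QQ d : ℝ) : ℂ) * DI (RR j) a (QQ d ^ 2 / Y) 3 (cR b j d) := by
  obtain ⟨G, u, hG, hE, hu, h56, hL, hR⟩ := FE_d b j hd
  refine ⟨u, hu, fun a Y ha hY => ?_⟩
  have hd0 : d ≠ 0 := hd.1.ne_zero
  have hQ : 0 < QQ d := by
    have := nm_pos hd0
    have := bt_pos
    unfold QQ; positivity
  have h1 := (VI_shift_LNt_pole (G := fun s => (Y : ℂ) ^ s * G s) (ρ := 5 / 6) (σ₁ := 1 - 3) (σ₂ := 3)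
    ha (I * (0 : ℝ)) (by norm_num) (by norm_num)
    ((rfa_diff hY).differentiableOn.mul hG.differentiableOn) ((rfa_expOn hY _ _).mul (hE _ _))).2.2
  have h2 := VI_const_sub 3 1 fun s => LNt a (s + I * (0 : ℝ)) * ((Y : ℂ) ^ s * G s / (s - 5 / 6))
  rw [one_re] at h2
  rw [((adm_cL b j hd0).SS_eq_VI ha hY 0).2,
    VI_congr (G := fun s => LNt a (s + I * (0 : ℝ)) * ((Y : ℂ) ^ s * G s / (s - 5 / 6)))
      (fun s hs => ?_), h1, ← h2, add_comm]
  · congr 1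
    · rw [h56]
      split_ifs
      · rw [ofReal_mul (cP * rho0), ofReal_cpow hY.le]
        push_cast
        rw [mul_zero, add_zero]
        ring
      · simp
    · unfold DI
      rw [← VI_const_mul]
      refine VI_congr fun s hs => ?_
      have hs1 : 1 - s - 5 / 6 ≠ 0 := fun h => by
        have := congrArg re h
        simp only [sub_re, one_re, hs] at this
        norm_num at this
      have e := feb_YQ hY hQ s
      rw [hR s hs, ofReal_zero, mul_zero, add_zero, mul_left_comm _ (1 - s - 5 / 6),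
        mul_div_cancel_left₀ _ hs1]
      linear_combination LNt a (1 - s) * u * RR j s * DD (cR b j d) nm s * e
  · have : s - 5 / 6 ≠ 0 := fun h0 => by
      have := congrArg re h0
      simp only [sub_re, zero_re, hs] at this
      norm_num at this
    rw [hL s hs, mul_left_comm _ (s - 5 / 6), mul_div_cancel_left₀ _ this, mul_assoc]

end Crest.Agent.R12.TH
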