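import Crest.Agent.R12.TH.FE
import Crest.Agent.R12.TH.Dual

/-! Row 12, block TH: `StI0`. -/

set_option autoImplicit false

namespace Crest.Agent.R12.TH

open Crest.Agent.R17 Crest.Agent.R17.D
open Complex MeasureTheory Filter Set
open scoped Real Topology ComplexConjugate UpperHalfPlane MatrixGroups

theorem i0_range {q : ℝ} (hq : 0 < q) : ∃ A : ℝ, ∀ Z x Y : ℝ, 2 ≤ Z → 1 ≤ x → x ≤ Z → Z⁻¹ ≤ Y →
    Y ≤ Z → Z ^ (-A) ≤ (q * x) ^ 2 / Y ∧ (q * x) ^ 2 / Y ≤ Z ^ A := by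
  obtain ⟨n, hn⟩ := pow_unbounded_of_one_lt (max (q ^ 2) (q ^ 2)⁻¹) (one_lt_two (α := ℝ))
  refine ⟨((n + 3 : ℕ) : ℝ), fun Z x Y hZ hx hxZ hY hYZ => ?_⟩
  have hZ0 : 0 < Z := by linarith
  have hY0 : 0 < Y := lt_of_lt_of_le (inv_pos.2 hZ0) hY
  have h2 : (2 : ℝ) ^ n ≤ Z ^ n := pow_le_pow_left₀ (by norm_num) hZ n
  have hq1 : q ^ 2 ≤ Z ^ n := ((le_max_left _ _).trans hn.le).trans h2
  have hq2 : (q ^ 2)⁻¹ ≤ Z ^ n := ((le_max_right _ _).trans hn.le).trans h2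
  have hZ1 : 1 ≤ Z := by linarith
  have hYi : Y⁻¹ ≤ Z := by rwa [inv_le_comm₀ hY0 hZ0]
  rw [Real.rpow_neg hZ0.le, Real.rpow_natCast]
  constructor
  · rw [inv_le_comm₀ (by positivity) (by positivity)]
    have e : ((q * x) ^ 2 / Y)⁻¹ = (q ^ 2)⁻¹ * ((x ^ 2)⁻¹ * Y) := by field_simp
    have hx2 : (x ^ 2)⁻¹ ≤ 1 := inv_le_one_of_one_le₀ (one_le_pow₀ hx)
    have h3 : Z ≤ Z ^ 3 := le_self_pow₀ hZ1 (by norm_num)
    rw [e, pow_add]
    refine mul_le_mul hq2 ?_ (by positivity) (by positivity)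
    calc (x ^ 2)⁻¹ * Y ≤ 1 * Z := by gcongr
      _ ≤ Z ^ 3 := by linarith
  · have e : (q * x) ^ 2 / Y = q ^ 2 * (x ^ 2 * Y⁻¹) := by ring
    rw [e, pow_add]
    refine mul_le_mul hq1 ?_ (by positivity) (by positivity)
    calc x ^ 2 * Y⁻¹ ≤ Z ^ 2 * Z := by gcongr
      _ = Z ^ 3 := by ring

theorem i0_num {q x Y a : ℝ} (hq : 0 < q) (hx : 0 < x) (hY : 0 < Y) (ha : 0 < a) :
    √x * (Y / (q * x)) * (√((q * x) ^ 2 / Y) * (1 + √((q * x) ^ 2 / Y / a ^ 3))) =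
      √(x * Y) + q * (x * √(x / a ^ 3)) := by
  obtain ⟨y, hy, rfl⟩ : ∃ y, 0 < y ∧ Y = y ^ 2 := ⟨√Y, Real.sqrt_pos.2 hY, (Real.sq_sqrt hY.le).symm⟩
  have ha3 : 0 < √(a ^ 3) := Real.sqrt_pos.2 (by positivity)
  rw [Real.sqrt_div' _ (by positivity : (0 : ℝ) ≤ a ^ 3), Real.sqrt_div' _ (by positivity : (0 : ℝ) ≤ a ^ 3),
    ← div_pow, Real.sqrt_sq (by positivity), Real.sqrt_mul hx.le, Real.sqrt_sq hy.le]
  field_simp

open Classical in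
/-- one divisor -/
theorem I0_d (b : Bool) (j : ℕ) {ε : ℝ} (hε : 0 < ε) : ∃ C : ℝ, 0 < C ∧ ∀ (Z a Y : ℝ) (d : O), 2 ≤ Z →
    Z⁻¹ ≤ a → a ≤ 1 → Z⁻¹ ≤ Y → Y ≤ Z → PSq d → nm d ≤ Z →
    ‖SS (cL b j d) (fun n => nm n) a Y 0 -
      (if j = 0 ∧ d = 1 then ((cP * rho0 * Y ^ (5 / 6 : ℝ) : ℝ) : ℂ) * LNt a (5 / 6) else 0)‖ ≤
      C * Z ^ ε * (√(nm d * Y) + nm d * √(nm d / a ^ 3)) := by
  have hq : 0 < 3 / bt := div_pos (by norm_num) bt_pos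
  obtain ⟨A, hA⟩ := i0_range hq
  obtain ⟨δ, C, hδ, hC, h⟩ := DI_bound j A hε
  have hs := summable_tau9_sq hδ
  set T := ∑' k : O, ‖tau (9 * k)‖ ^ 2 * nm k ^ (-(1 + δ)) with hT
  have hnn : ∀ k : O, 0 ≤ nm k ^ (-(1 + δ)) := fun k => Real.rpow_nonneg (nm_nonneg k) _
  have hT0 : 0 ≤ T := tsum_nonneg fun k => mul_nonneg (sq_nonneg _) (hnn k)
  refine ⟨C * (√T + 1) * (1 + 3 / bt), by positivity, fun Z a Y d hZ ha ha1 hY hYZ hd hdZ => ?_⟩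
  have hZ0 : 0 < Z := by linarith
  have ha0 : 0 < a := lt_of_lt_of_le (inv_pos.2 hZ0) ha
  have hY0 : 0 < Y := lt_of_lt_of_le (inv_pos.2 hZ0) hY
  have hd1 : 1 ≤ nm d := one_le_nm hd.1.ne_zero
  have hd0 : 0 < nm d := by linarith
  obtain ⟨u, hu, hv⟩ := vor_d b j hd
  have hQ : QQ d = 3 / bt * nm d := by unfold QQ; ring
  obtain ⟨hL1, hL2⟩ := hA Z (nm d) Y hZ hd1 hdZ hY hYZ
  have h0 : cR b j d 0 = 0 := by
    obtain ⟨C', hC'⟩ := tau_bound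
    have := (norm_cR_le b j d 0).trans (hC' _)
    rw [mul_zero, nm_zero, Real.zero_rpow (by norm_num), mul_zero] at this
    exact norm_le_zero_iff.1 this
  have hM : ∀ S : Finset O, ∑ k ∈ S, ‖cR b j d k‖ ^ 2 * nm k ^ (-(1 + δ)) ≤ √T ^ 2 := fun S => by
    rw [Real.sq_sqrt hT0]
    refine le_trans (Finset.sum_le_sum fun k _ => ?_)
      (hs.sum_le_tsum S fun k _ => mul_nonneg (sq_nonneg _) (hnn k))
    exact mul_le_mul_of_nonneg_right (pow_le_pow_left₀ (norm_nonneg _) (norm_cR_le b j d k) 2) (hnn k)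
  have hb := h Z a _ _ _ hZ ha ha1 hL1 hL2 (Real.sqrt_nonneg T) h0 hM
  rw [hv a Y ha0 hY0, add_sub_cancel_left, norm_mul, norm_mul, Complex.norm_real, hQ,
    Real.norm_of_nonneg (by positivity)]
  have hZε : 0 < Z ^ ε := Real.rpow_pos_of_pos hZ0 ε
  calc _ ≤ √(nm d) * (Y / (3 / bt * nm d)) * (C * √T * Z ^ ε * √((3 / bt * nm d) ^ 2 / Y) *
        (1 + √((3 / bt * nm d) ^ 2 / Y / a ^ 3))) := by gcongr
    _ = C * √T * Z ^ ε * (√(nm d * Y) + 3 / bt * (nm d * √(nm d / a ^ 3))) := by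
        rw [← i0_num hq hd0 hY0 ha0]; ring
    _ ≤ C * (√T + 1) * Z ^ ε * ((1 + 3 / bt) * √(nm d * Y) + (1 + 3 / bt) * (nm d * √(nm d / a ^ 3))) := by
        gcongr
        · linarith
        · exact le_mul_of_one_le_left (Real.sqrt_nonneg _) (by linarith)
        · linarith
    _ = _ := by ring

open Classical in
/-- `sum_ram`, `card_pdiv_le` -/
theorem I0_core (b : Bool) (j : ℕ) {ε : ℝ} (hε : 0 < ε) : ∃ C : ℝ, ∀ (Z a Y : ℝ) (r : O), 2 ≤ Z →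
    Z⁻¹ ≤ a → a ≤ 1 → Z⁻¹ ≤ Y → Y ≤ Z → PSq r → nm r ≤ Z →
    ‖(∑' n : Pr, if r ∣ (n : O) then Tb n * aw b n ^ j * LN a Y 0 (nm n) else 0) -
        (if j = 0 then ((cP * rho0 / nm r * Y ^ (5 / 6 : ℝ) : ℝ) : ℂ) * LNt a (5 / 6) else 0)‖ ≤
      C * Z ^ ε * (√(Y / nm r) + √(nm r / a ^ 3)) := by
  obtain ⟨C, hC, h⟩ := I0_d b j (half_pos hε)
  obtain ⟨C', hC', h'⟩ := card_pdiv_le (half_pos hε)
  refine ⟨C' * C, fun Z a Y r hZ ha ha1 hY hYZ hr hrZ => ?_⟩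
  have hZ0 : 0 < Z := by linarith
  have ha0 : 0 < a := lt_of_lt_of_le (inv_pos.2 hZ0) ha
  have hY0 : 0 < Y := lt_of_lt_of_le (inv_pos.2 hZ0) hY
  have hr0 := hr.1.ne_zero
  have hN : 0 < nm r := nm_pos hr0
  have hN' : (nm r : ℂ) ≠ 0 := ofReal_ne_zero.2 hN.ne'
  have hsum : ∀ d ∈ pdiv r, Summable fun n : Pr => cL b j d n * LN a Y 0 (nm n) := fun d hd =>
    ((adm_cL b j ((mem_pdiv hr0).1 hd).1.ne_zero).summable_SS ha0 hY0 0).of_norm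
  have e1 : (∑' n : Pr, if r ∣ (n : O) then Tb n * aw b n ^ j * LN a Y 0 (nm n) else 0) =
      (nm r : ℂ)⁻¹ * ∑ d ∈ pdiv r, SS (cL b j d) (fun n => nm n) a Y 0 := by
    unfold SS
    rw [← Summable.tsum_finsetSum hsum, ← tsum_mul_left]
    refine tsum_congr fun n => ?_
    have : ∑ d ∈ pdiv r, cL b j d n * LN a Y 0 (nm n) =
        Tb n * aw b n ^ j * LN a Y 0 (nm n) * ∑ d ∈ pdiv r, gc 3 n d := by
      rw [Finset.mul_sum]
      exact Finset.sum_congr rfl fun d _ => by unfold cL; ring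
    rw [this, sum_ram hr]
    split_ifs
    · field_simp
    · simp
  have e2 : (if j = 0 then ((cP * rho0 / nm r * Y ^ (5 / 6 : ℝ) : ℝ) : ℂ) * LNt a (5 / 6) else 0) =
      (nm r : ℂ)⁻¹ * ∑ d ∈ pdiv r,
        (if j = 0 ∧ d = 1 then ((cP * rho0 * Y ^ (5 / 6 : ℝ) : ℝ) : ℂ) * LNt a (5 / 6) else 0) := by
    by_cases hj : j = 0
    · simp only [hj, true_and, if_true]
      rw [Finset.sum_ite_eq' (pdiv r) 1, if_pos ((mem_pdiv hr0).2 ⟨prim_one, one_dvd r⟩)]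
      push_cast
      field_simp
    · simp [hj]
  rw [e1, e2, ← mul_sub, ← Finset.sum_sub_distrib, norm_mul, norm_inv, Complex.norm_real,
    Real.norm_of_nonneg hN.le]
  have hb : ∀ d ∈ pdiv r, ‖SS (cL b j d) (fun n => nm n) a Y 0 -
      (if j = 0 ∧ d = 1 then ((cP * rho0 * Y ^ (5 / 6 : ℝ) : ℝ) : ℂ) * LNt a (5 / 6) else 0)‖ ≤
      C * Z ^ (ε / 2) * (√(nm r * Y) + nm r * √(nm r / a ^ 3)) := fun d hd => by
    obtain ⟨hd1, hd2⟩ := (mem_pdiv hr0).1 hd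
    have hdr := nm_le_of_dvd hd2 hr0
    have hd0 := nm_nonneg d
    refine (h Z a Y d hZ ha ha1 hY hYZ ⟨hd1, hr.2.squarefree_of_dvd hd2⟩ (hdr.trans hrZ)).trans ?_
    gcongr
  have hc : ((pdiv r).card : ℝ) ≤ C' * Z ^ (ε / 2) :=
    (h' r hr0).trans (by gcongr)
  have e3 : √(nm r * Y) = nm r * √(Y / nm r) := by
    rw [show nm r * Y = nm r ^ 2 * (Y / nm r) by field_simp, Real.sqrt_mul (sq_nonneg _),
      Real.sqrt_sq hN.le]
  have e4 : Z ^ ε = Z ^ (ε / 2) * Z ^ (ε / 2) := by rw [← Real.rpow_add hZ0, add_halves]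
  calc _ ≤ (nm r)⁻¹ * (C' * Z ^ (ε / 2) * (C * Z ^ (ε / 2) * (√(nm r * Y) + nm r * √(nm r / a ^ 3)))) := by
        gcongr
        refine (norm_sum_le _ _).trans ((Finset.sum_le_card_nsmul _ _ _ hb).trans ?_)
        rw [nsmul_eq_mul]
        gcongr
    _ = _ := by rw [e3, e4]; field_simp

end Crest.Agent.R12.TH

namespace Crest.Agent.R12

open Crest.Agent.R17 TH
open scoped ComplexConjugate

theorem i0_conj_aw (l : ℤ) {n : O} (hn : n ≠ 0) :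
    conj (aw (decide (0 ≤ l)) n ^ l.natAbs) = al n ^ l := by
  rcases le_or_gt 0 l with hl | hl
  · obtain ⟨m, rfl⟩ := Int.eq_ofNat_of_zero_le hl
    simp [aw, D.pw]
  · obtain ⟨m, rfl⟩ := Int.exists_eq_neg_ofNat hl.le
    have hd : decide (0 ≤ -(m : ℤ)) = false := decide_eq_false (not_le.2 hl)
    have hi : conj (al n) = (al n)⁻¹ := by
      rw [Complex.inv_def, Complex.normSq_eq_norm_sq, norm_al hn]; simp
    rw [hd]
    simp [aw, D.pw, hi]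

/-- conjugate `I0_core` with `b = decide (0 ≤ l)`, `j = l.natAbs` -/
theorem stI0 : StI0 := by
  classical
  intro l ε hε
  obtain ⟨C, h⟩ := I0_core (decide (0 ≤ l)) l.natAbs hε
  refine ⟨C, fun Z a Y r hZ ha ha1 hY hYZ hr hrZ => ?_⟩
  refine le_trans (le_of_eq ?_) (h Z a Y r hZ ha ha1 hY hYZ hr hrZ)
  rw [← Complex.norm_conj, map_sub, Complex.conj_tsum]
  congr 2
  · refine tsum_congr fun n => ?_
    split_ifs
    · rw [← i0_conj_aw l (Prim.ne_zero n.2), map_mul, map_mul, Complex.conj_ofReal, Complex.conj_conj,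
        LN_zero, TC, Complex.conj_conj]
      rfl
    · simp
  · simp only [Int.natAbs_eq_zero]
    split_ifs
    · rw [map_mul, Complex.conj_ofReal, LNt, map_mul, Complex.conj_ofReal, ← Complex.exp_conj]
      congr 3
      simp only [map_div₀, map_mul, map_pow, Complex.conj_ofReal, map_ofNat]
    · simp

end Crest.Agent.R12
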