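import Crest.Agent.R12.TH.VDefs

/-! Row 12, block TH: the mean value of Dirichlet polynomials. -/

set_option autoImplicit false

namespace Crest.Agent.R12.TH

open Crest.Agent.R17 Crest.Agent.R17.D
open Complex MeasureTheory Filter Set
open scoped Real Topology ComplexConjugate UpperHalfPlane MatrixGroups

theorem MVa_LW_pos (a y x : ℝ) : 0 < LW a y x := Real.exp_pos _

theorem MVa_LW_le_one (a y x : ℝ) : LW a y x ≤ 1 :=
  Real.exp_le_one_iff.2 (neg_nonpos.2 (by positivity))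

theorem MVa_LW_symm (a y x : ℝ) : LW a y x = LW a x y := by
  rw [LW, LW, ← inv_div x y, Real.log_inv, neg_sq]

theorem MVa_gauss {a : ℝ} (ha : 0 < a) (ξ : ℝ) :
    Integrable (fun t : ℝ => (a : ℂ) * cexp (-((a ^ 2 / 2 : ℝ) : ℂ) * t ^ 2 + (I * ξ) * t + 0)) ∧
    ∫ t : ℝ, (a : ℂ) * cexp (-((a ^ 2 / 2 : ℝ) : ℂ) * t ^ 2 + (I * ξ) * t + 0) =
      ((√(2 * π) * Real.exp (-(ξ ^ 2 / (2 * a ^ 2))) : ℝ) : ℂ) := by
  obtain ⟨h1, h2⟩ := lnb_gauss (r := a ^ 2 / 2) (by positivity) (I * ξ) 0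
  refine ⟨h1.const_mul _, ?_⟩
  have ha' : (a : ℂ) ≠ 0 := ofReal_ne_zero.2 ha.ne'
  have e1 : a * √(π / (a ^ 2 / 2)) = √(2 * π) := by
    rw [show π / (a ^ 2 / 2) = 2 * π / a ^ 2 by field_simp, Real.sqrt_div' _ (sq_nonneg a),
      Real.sqrt_sq ha.le]
    field_simp
  have e2 : (0 : ℂ) + (I * ξ) ^ 2 / (4 * ((a ^ 2 / 2 : ℝ) : ℂ)) = ((-(ξ ^ 2 / (2 * a ^ 2)) : ℝ) : ℂ) := by
    rw [mul_pow, I_sq]
    push_cast
    field_simp
    ring
  rw [integral_const_mul, h2, ← mul_assoc, ← ofReal_mul, e1, e2, ofReal_mul, ofReal_exp]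

/-- expand the square, `∫ a exp (-a² t²/2) exp (i t ξ) dt = √(2π) exp (-ξ²/(2a²))` (`lnb_gauss`),
`2 ‖x‖ ‖y‖ ≤ ‖x‖² + ‖y‖²` -/
theorem mean_value {a : ℝ} (ha : 0 < a) (S : Finset O) (hS : ∀ k ∈ S, k ≠ 0) (x : O → ℂ) :
    Integrable (fun t : ℝ => a * Real.exp (-(a ^ 2 / 2) * t ^ 2) *
      ‖∑ k ∈ S, x k * (nm k : ℂ) ^ (-(t * I))‖ ^ 2) ∧
    ∫ t : ℝ, a * Real.exp (-(a ^ 2 / 2) * t ^ 2) * ‖∑ k ∈ S, x k * (nm k : ℂ) ^ (-(t * I))‖ ^ 2 ≤
      √(2 * π) * ∑ k ∈ S, ‖x k‖ ^ 2 * ∑ m ∈ S, LW a (nm k) (nm m) := by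
  set F : ℝ → ℝ := fun t => a * Real.exp (-(a ^ 2 / 2) * t ^ 2) *
      ‖∑ k ∈ S, x k * (nm k : ℂ) ^ (-(t * I))‖ ^ 2 with hF
  set g : O → O → ℝ → ℂ := fun k m t => (x k * conj (x m)) * ((a : ℂ) *
    cexp (-((a ^ 2 / 2 : ℝ) : ℂ) * t ^ 2 + (I * (Real.log (nm m / nm k) : ℝ)) * t + 0)) with hg
  have hid : ∀ t, ((F t : ℝ) : ℂ) = ∑ k ∈ S, ∑ m ∈ S, g k m t := by
    intro t
    simp only [hF, hg]
    rw [ofReal_mul, ofReal_pow, ← Complex.mul_conj', map_sum, Finset.sum_mul_sum, Finset.mul_sum]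
    refine Finset.sum_congr rfl fun k hk => ?_
    rw [Finset.mul_sum]
    refine Finset.sum_congr rfl fun m hm => ?_
    have h1 := nm_pos (hS k hk)
    have h2 := nm_pos (hS m hm)
    rw [lnb_cpow h1, lnb_cpow h2, map_mul, ← Complex.exp_conj, Real.log_div h2.ne' h1.ne']
    have e : -((a ^ 2 / 2 : ℝ) : ℂ) * t ^ 2 +
        I * ((Real.log (nm m) - Real.log (nm k) : ℝ) : ℂ) * t + 0 =
        ((-(a ^ 2 / 2) * t ^ 2 : ℝ) : ℂ) + (Real.log (nm k) : ℂ) * -(t * I) +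
          conj ((Real.log (nm m) : ℂ) * -(t * I)) := by
      simp only [map_mul, map_neg, conj_ofReal, conj_I, ofReal_sub, ofReal_mul, ofReal_neg,
        ofReal_pow]
      ring
    rw [e, Complex.exp_add, Complex.exp_add, ofReal_mul, ofReal_exp]
    ring
  have hgi : ∀ k m, Integrable (g k m) := fun k m =>
    ((MVa_gauss ha _).1).const_mul _
  have hint : Integrable fun t => ((F t : ℝ) : ℂ) := by
    simp only [hid]
    exact integrable_finsetSum _ fun k _ => integrable_finsetSum _ fun m _ => hgi k m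
  refine ⟨hint.re.congr (ae_of_all _ fun t => ofReal_re _), ?_⟩
  have hI : ((∫ t, F t : ℝ) : ℂ) =
      ∑ k ∈ S, ∑ m ∈ S, (x k * conj (x m)) * ((√(2 * π) * LW a (nm k) (nm m) : ℝ) : ℂ) := by
    rw [← integral_complex_ofReal]
    simp only [hid]
    rw [integral_finsetSum _ fun k _ => integrable_finsetSum _ fun m _ => hgi k m]
    refine Finset.sum_congr rfl fun k _ => ?_
    rw [integral_finsetSum _ fun m _ => hgi k m]
    refine Finset.sum_congr rfl fun m _ => ?_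
    simp only [hg]
    rw [integral_const_mul, (MVa_gauss ha _).2, LW]
  have hR := congrArg Complex.re hI
  rw [ofReal_re, re_sum] at hR
  have hsym : ∑ k ∈ S, ∑ m ∈ S, ‖x m‖ ^ 2 * LW a (nm k) (nm m) =
      ∑ k ∈ S, ∑ m ∈ S, ‖x k‖ ^ 2 * LW a (nm k) (nm m) := by
    rw [Finset.sum_comm]
    refine Finset.sum_congr rfl fun k _ => Finset.sum_congr rfl fun m _ => ?_
    rw [MVa_LW_symm]
  calc ∫ t, F t ≤ ∑ k ∈ S, ∑ m ∈ S, (√(2 * π) / 2 * (‖x k‖ ^ 2 * LW a (nm k) (nm m)) +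
        √(2 * π) / 2 * (‖x m‖ ^ 2 * LW a (nm k) (nm m))) := by
        rw [hR]
        refine Finset.sum_le_sum fun k _ => ?_
        rw [re_sum]
        refine Finset.sum_le_sum fun m _ => ?_
        rw [re_mul_ofReal]
        have h1 : (x k * conj (x m)).re ≤ ‖x k‖ * ‖x m‖ := by
          simpa using re_le_norm (x k * conj (x m))
        have h2 : (x k * conj (x m)).re ≤ (‖x k‖ ^ 2 + ‖x m‖ ^ 2) / 2 := by
          nlinarith [sq_nonneg (‖x k‖ - ‖x m‖)]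
        have h3 : 0 ≤ √(2 * π) * LW a (nm k) (nm m) := by
          have := MVa_LW_pos a (nm k) (nm m)
          positivity
        refine (mul_le_mul_of_nonneg_right h2 h3).trans_eq ?_
        ring
    _ = _ := by
        simp only [Finset.sum_add_distrib, ← Finset.mul_sum]
        simp only [Finset.mul_sum S _ (‖x _‖ ^ 2)]
        rw [hsym]
        ring

theorem MVa_mono (a : ℝ) {y u v : ℝ} (hu : 0 < u) (huv : u ≤ v) (hv : v ≤ y) :
    LW a y u ≤ LW a y v := by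
  have hy : 0 < y := hu.trans_le (huv.trans hv)
  have h1 : Real.log (u / y) ≤ Real.log (v / y) := Real.log_le_log (by positivity) (by gcongr)
  have h2 : Real.log (v / y) ≤ 0 :=
    Real.log_nonpos (div_nonneg (hu.le.trans huv) hy.le) ((div_le_one hy).2 hv)
  have h3 : Real.log (v / y) ^ 2 ≤ Real.log (u / y) ^ 2 := by nlinarith
  unfold LW
  gcongr

theorem MVa_anti (a : ℝ) {y u v : ℝ} (hy : 0 < y) (hu : y ≤ u) (huv : u ≤ v) :
    LW a y v ≤ LW a y u := by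
  have h0 : 0 < u := hy.trans_le hu
  have h1 : Real.log (u / y) ≤ Real.log (v / y) := Real.log_le_log (by positivity) (by gcongr)
  have h2 : 0 ≤ Real.log (u / y) := Real.log_nonneg ((one_le_div hy).2 hu)
  unfold LW
  gcongr

theorem MVa_int {a y : ℝ} (ha : 0 < a) (ha1 : a ≤ 1) (hy : 0 < y) :
    IntegrableOn (LW a y) (Ioi 0) ∧ ∫ x in Ioi (0 : ℝ), LW a y x ≤ 5 * (a * y) := by
  obtain ⟨h1, h2⟩ := mellin_LN ha hy 0 1
  simp only [sub_self, cpow_zero, one_mul, LN_zero, cpow_one, ofReal_zero, mul_zero, add_zero] at h1 h2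
  refine ⟨h1.re.congr (ae_of_all _ fun t => ofReal_re _), ?_⟩
  rw [integral_complex_ofReal] at h2
  have h3 := congrArg norm h2
  rw [norm_mul, norm_LNt ha.le, norm_real, norm_real, Real.norm_of_nonneg hy.le] at h3
  simp only [one_re, one_im, one_pow, mul_one, ne_eq, OfNat.ofNat_ne_zero, not_false_eq_true,
    zero_pow, mul_zero, Real.exp_zero] at h3
  have h4 : √(2 * π) ≤ 3 := Real.sqrt_le_iff.2 ⟨by norm_num, by linarith [Real.pi_le_four]⟩
  have h5 : Real.exp (a ^ 2 / 2) ≤ 5 / 3 := by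
    have e : Real.exp (a ^ 2 / 2) * Real.exp (a ^ 2 / 2) ≤ Real.exp 1 := by
      rw [← Real.exp_add]
      exact Real.exp_le_exp.2 (by nlinarith)
    have := Real.exp_one_lt_d9
    by_contra h
    nlinarith
  refine (Real.le_norm_self _).trans (h3.trans_le ?_)
  calc y * (√(2 * π) * a * Real.exp (a ^ 2 / 2)) ≤ y * (3 * a * (5 / 3)) := by gcongr
    _ = _ := by ring

/-- a unimodal function: the sum is at most twice the maximum plus the integral
(`AntitoneOn.sum_le_integral`, `MonotoneOn.sum_le_integral`, `mellin_LN` at `s = 1`) -/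
theorem sum_LW_nat {a y : ℝ} (ha : 0 < a) (ha1 : a ≤ 1) (hy : 0 < y) (S : Finset ℕ)
    (hS : ∀ n ∈ S, n ≠ 0) : ∑ n ∈ S, LW a y n ≤ 5 * (1 + a * y) := by
  obtain ⟨hi, hI⟩ := MVa_int ha ha1 hy
  set k := ⌊y⌋₊ with hk
  have hk1 : (k : ℝ) ≤ y := Nat.floor_le hy.le
  have hk2 : y < (k + 1 : ℕ) := by simpa using Nat.lt_floor_add_one y
  set N := S.sup id + k + 1 with hN
  have hsub : S ⊆ Finset.Ico 1 (N + 1) := by
    intro n hn
    have h1 : n ≤ S.sup id := Finset.le_sup (f := id) hn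
    have h2 := hS n hn
    rw [Finset.mem_Ico]
    omega
  have h0 : (0 : ℝ) ≤ (k + 1 : ℕ) := Nat.cast_nonneg _
  have hA : ∑ n ∈ Finset.Ico 1 (k + 1 + 1), LW a y (n : ℕ) ≤
      2 + ∫ x in Ioc (0 : ℝ) (k + 1 : ℕ), LW a y x := by
    have hp : 0 ≤ ∫ x in Ioc (0 : ℝ) (k + 1 : ℕ), LW a y x :=
      integral_nonneg fun x => (MVa_LW_pos a y x).le
    rcases Nat.eq_zero_or_pos k with h | h
    · have := MVa_LW_le_one a y (1 : ℕ)
      rw [h, Finset.sum_Ico_succ_top le_rfl, Finset.Ico_self, Finset.sum_empty]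
      rw [h] at hp
      linarith
    · rw [Finset.sum_Ico_succ_top (by omega), Finset.sum_Ico_succ_top h]
      have h1 := MVa_LW_le_one a y k
      have h2 := MVa_LW_le_one a y (k + 1 : ℕ)
      have hm : MonotoneOn (LW a y) (Icc ((1 : ℕ) : ℝ) k) := fun u hu v hv huv =>
        MVa_mono a (lt_of_lt_of_le (by simp) hu.1) huv (hv.2.trans hk1)
      have h3 := hm.sum_le_integral_Ico h
      rw [intervalIntegral.integral_of_le (by exact_mod_cast h)] at h3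
      have h4 : ∫ x in Ioc ((1 : ℕ) : ℝ) k, LW a y x ≤ ∫ x in Ioc (0 : ℝ) (k + 1 : ℕ), LW a y x :=
        setIntegral_mono_set (hi.mono_set Ioc_subset_Ioi_self)
          (ae_of_all _ fun x => (MVa_LW_pos a y x).le)
          (Ioc_subset_Ioc (by simp) (by simp)).eventuallyLE
      linarith
  have hB : ∑ n ∈ Finset.Ico (k + 1) N, LW a y (n + 1 : ℕ) ≤
      ∫ x in Ioi ((k + 1 : ℕ) : ℝ), LW a y x :=
    AntitoneOn.sum_Ico_le_integral (fun u hu v _ huv => MVa_anti a hy (hk2.le.trans hu.1) huv)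
      (hi.mono_set (Ioi_subset_Ioi h0)) fun x _ => (MVa_LW_pos a y x).le
  have hC := setIntegral_union (f := LW a y) (μ := volume) (Ioc_disjoint_Ioi_same (a := (0 : ℝ))
    (b := ((k + 1 : ℕ) : ℝ))) measurableSet_Ioi (hi.mono_set Ioc_subset_Ioi_self)
    (hi.mono_set (Ioi_subset_Ioi h0))
  rw [Ioc_union_Ioi_eq_Ioi h0] at hC
  have hD := Finset.sum_le_sum_of_subset_of_nonneg (f := fun n : ℕ => LW a y n) hsub
    fun n _ _ => (MVa_LW_pos a y n).le
  rw [← Finset.sum_Ico_consecutive _ (show 1 ≤ k + 1 + 1 by omega) (show k + 1 + 1 ≤ N + 1 by omega),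
    ← Finset.sum_Ico_add' (fun n : ℕ => LW a y n) (k + 1) N 1] at hD
  linarith

/-- elements of norm `n` divide `n` (`dvd_nN`, `card_divisors_le`) -/
theorem sum_LW_O {ε : ℝ} (hε : 0 < ε) : ∃ C : ℝ, 0 < C ∧ ∀ (a y V : ℝ) (S : Finset O), 0 < a → a ≤ 1 →
    0 < y → 1 ≤ V → (∀ k ∈ S, k ≠ 0 ∧ nm k ≤ V) →
    ∑ m ∈ S, LW a y (nm m) ≤ C * V ^ ε * (1 + a * y) := by
  classical
  obtain ⟨C, hC, h⟩ := card_divisors_le (half_pos hε)
  refine ⟨5 * C, by positivity, fun a y V S ha ha1 hy hV hS => ?_⟩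
  have hne : ∀ n ∈ S.image nN, n ≠ 0 := by
    intro n hn
    obtain ⟨k, hk, rfl⟩ := Finset.mem_image.1 hn
    exact fun h0 => (hS k hk).1 (nN_eq_zero.1 h0)
  have h1 := sum_LW_nat ha ha1 hy _ hne
  have h2 : ∑ m ∈ S, LW a y (nm m) ≤ ∑ n ∈ S.image nN, C * V ^ ε * LW a y n := by
    refine (Finset.sum_comp (fun n : ℕ => LW a y n) nN).trans_le (Finset.sum_le_sum fun n hn => ?_)
    rw [nsmul_eq_mul]
    refine mul_le_mul_of_nonneg_right ?_ (MVa_LW_pos a y n).le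
    have hn0 := hne n hn
    obtain ⟨k, hk, hkn⟩ := Finset.mem_image.1 hn
    have hnV : (n : ℝ) ≤ V := hkn ▸ (hS k hk).2
    refine (h (n : O) _ (Nat.cast_ne_zero.2 hn0) fun d hd => ?_).trans ?_
    · rw [← (Finset.mem_filter.1 hd).2]
      exact dvd_nN d
    · rw [nm_natCast, ← Real.rpow_natCast, ← Real.rpow_mul (Nat.cast_nonneg n)]
      rw [show ((2 : ℕ) : ℝ) * (ε / 2) = ε by push_cast; ring]
      gcongr
  rw [← Finset.mul_sum] at h2
  refine h2.trans ((mul_le_mul_of_nonneg_left h1 (by positivity)).trans_eq (by ring))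

/-- domination through a cover of the support -/
theorem mvb_cover {α β : Type*} [Nonempty β] {g : α → ℝ} {G : β → ℝ} (φ : β → α) (hg : ∀ a, 0 ≤ g a)
    (hG0 : ∀ b, 0 ≤ G b) (hG : Summable G) (h : ∀ a, g a ≠ 0 → ∃ b, φ b = a ∧ g a ≤ G b) :
    Summable g := by
  classical
  choose! ψ h1 h2 using h
  refine summable_of_sum_le (c := ∑' b, G b) hg fun s => ?_
  rw [← Finset.sum_filter_ne_zero]
  calc ∑ a ∈ s with g a ≠ 0, g a ≤ ∑ a ∈ s with g a ≠ 0, G (ψ a) :=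
        Finset.sum_le_sum fun a ha => h2 a (Finset.mem_filter.1 ha).2
    _ = ∑ b ∈ (s.filter fun a => g a ≠ 0).image ψ, G b := by
        rw [Finset.sum_image]
        intro a ha a' ha' e
        rw [← h1 a (Finset.mem_filter.1 ha).2, ← h1 a' (Finset.mem_filter.1 ha').2, e]
    _ ≤ _ := hG.sum_le_tsum _ fun b _ => hG0 b

/-- `n = c b³`, `‖tau0 n‖² = N b` (bound finite partial sums by a product, or `tsum_powFree`) -/
theorem summable_tau0_sq {δ : ℝ} (hδ : 0 < δ) :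
    Summable fun n : Pr => ‖tau0 n‖ ^ 2 * nm n ^ (-(1 + δ)) := by
  have hs : Summable fun n : Pr => nm n ^ (-(1 + δ)) :=
    (summable_nm_rpow (σ := 1 + δ) (by linarith)).subtype _
  have h0 : ∀ n : O, 0 ≤ nm n ^ (-(1 + δ)) := fun n => Real.rpow_nonneg (nm_nonneg n) _
  refine mvb_cover (G := fun p : Pr × Pr => nm p.1 ^ (-(1 + δ)) * nm p.2 ^ (-(1 + δ)))
    (fun p => p.1 * p.2 ^ 3) (fun n => mul_nonneg (sq_nonneg _) (h0 _))
    (fun p => mul_nonneg (h0 _) (h0 _)) (hs.mul_of_nonneg hs (fun _ => h0 _) fun _ => h0 _)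
    fun n hn => ?_
  have h1 : tau0 n ≠ 0 := fun h => hn (by simp [h])
  obtain ⟨c, b, hc, hb, hsq, e⟩ := exists_of_tau0_ne_zero h1
  refine ⟨(⟨c, hc⟩, ⟨b, hb⟩), Subtype.ext e.symm, ?_⟩
  have b1 : 1 ≤ nm b := one_le_nm hb.ne_zero
  have b0 : 0 < nm b := by linarith
  simp only
  rw [e, norm_tau0 hc hb hsq, Real.sq_sqrt b0.le, nm_mul, nm_pow,
    Real.mul_rpow (nm_nonneg c) (by positivity), mul_left_comm]
  refine mul_le_mul_of_nonneg_left ?_ (h0 c)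
  rw [← Real.rpow_natCast, ← Real.rpow_mul b0.le, ← Real.rpow_one_add' b0.le
    (by push_cast; linarith)]
  exact Real.rpow_le_rpow_of_exponent_le b1 (by push_cast; linarith)

/-- `k = ζ λ^i n`, `tau_shape`, `tau_bound` for `ζ λ^i` -/
theorem summable_tau_sq {δ : ℝ} (hδ : 0 < δ) :
    Summable fun k : O => ‖tau k‖ ^ 2 * nm k ^ (-(1 + δ)) := by
  obtain ⟨C, hC⟩ := tau_bound
  have h0 : ∀ n : O, 0 ≤ nm n ^ (-(1 + δ)) := fun n => Real.rpow_nonneg (nm_nonneg n) _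
  have hr0 : 0 ≤ (3 : ℝ) ^ (-(2 / 3) : ℝ) := by positivity
  have hr1 : (3 : ℝ) ^ (-(2 / 3) : ℝ) < 1 :=
    Real.rpow_lt_one_of_one_lt_of_neg (by norm_num) (by norm_num)
  have s1 : Summable fun _ : Fin 6 => C ^ 2 := Summable.of_finite
  have s2 := (summable_geometric_of_lt_one hr0 hr1).mul_of_nonneg (summable_tau0_sq hδ)
    (fun i => pow_nonneg hr0 i) fun n => mul_nonneg (sq_nonneg _) (h0 _)
  refine mvb_cover (G := fun p : Fin 6 × ℕ × Pr => C ^ 2 * (((3 : ℝ) ^ (-(2 / 3) : ℝ)) ^ p.2.1 *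
      (‖tau0 p.2.2‖ ^ 2 * nm p.2.2 ^ (-(1 + δ)))))
    (fun p => zt ^ (p.1 : ℕ) * lam ^ p.2.1 * p.2.2) (fun n => mul_nonneg (sq_nonneg _) (h0 _))
    (fun p => mul_nonneg (sq_nonneg _) (mul_nonneg (pow_nonneg hr0 _)
      (mul_nonneg (sq_nonneg _) (h0 _))))
    (s1.mul_of_nonneg s2 (fun _ => sq_nonneg _) fun p => mul_nonneg (pow_nonneg hr0 _)
      (mul_nonneg (sq_nonneg _) (h0 _))) fun k hk => ?_
  have hk0 : k ≠ 0 := by
    rintro rfl
    exact hk (by simp [D.tau_zero])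
  obtain ⟨ζ, i, m, hζ, hm, rfl⟩ := exists_decomp hk0
  obtain ⟨j, hj, rfl⟩ := isUnit_iff.1 hζ
  refine ⟨(⟨j, hj⟩, i, ⟨m, hm⟩), rfl, ?_⟩
  have e1 : nm (zt ^ j * lam ^ i) = 3 ^ i := by rw [nm_mul, nm_unit hζ, one_mul, nm_pow, nm_lam]
  have h3 : (1 : ℝ) ≤ 3 ^ i := one_le_pow₀ (by norm_num)
  have h1 : ‖tau (zt ^ j * lam ^ i) * cb (zt ^ j * lam ^ (i + 1)) m‖ ≤ C * (3 ^ i) ^ (1 / 6 : ℝ) := by
    rw [norm_mul, ← e1]
    exact (mul_le_of_le_one_right (norm_nonneg _) (norm_cb_le _ _)).trans (hC _)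
  have h2 : (C * (3 ^ i) ^ (1 / 6 : ℝ)) ^ 2 * ((3 : ℝ) ^ i) ^ (-(1 + δ)) ≤
      C ^ 2 * ((3 : ℝ) ^ (-(2 / 3) : ℝ)) ^ i := by
    rw [mul_pow, mul_assoc, Real.rpow_pow_comm (by norm_num) (-(2 / 3)),
      ← Real.rpow_mul_natCast (by positivity), ← Real.rpow_add (by positivity)]
    exact mul_le_mul_of_nonneg_left
      (Real.rpow_le_rpow_of_exponent_le h3 (by push_cast; linarith)) (sq_nonneg _)
  simp only
  rw [tau_shape hζ i hm, norm_mul, mul_pow, nm_mul, e1, Real.mul_rpow (by positivity) (nm_nonneg _),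
    mul_mul_mul_comm, ← mul_assoc (C ^ 2)]
  refine mul_le_mul_of_nonneg_right (le_trans ?_ h2) (mul_nonneg (sq_nonneg _) (h0 _))
  exact mul_le_mul_of_nonneg_right (pow_le_pow_left₀ (norm_nonneg _) h1 2) (by positivity)

theorem summable_tau9_sq {δ : ℝ} (hδ : 0 < δ) :
    Summable fun k : O => ‖tau (9 * k)‖ ^ 2 * nm k ^ (-(1 + δ)) := by
  have h9 : (9 : O) ≠ 0 := by norm_num
  have h1 := ((summable_tau_sq hδ).comp_injective (mul_right_injective₀ h9)).mul_left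
    (nm 9 ^ (1 + δ))
  refine h1.congr fun k => ?_
  have h2 := nm_pos h9
  simp only [Function.comp_apply]
  rw [nm_mul, Real.mul_rpow h2.le (nm_nonneg k), Real.rpow_neg h2.le]
  field_simp

end Crest.Agent.R12.TH
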