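import Crest.Agent.R12.TH.I0

/-! Row 12, block TH: `Crest.Agent.R12.stI0 : StI0` is in `R12/TH/I0.lean`. -/
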