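import Crest.Agent.R12.TH.CDefs

/-! Row 12, block TH: the triplication formula. -/

set_option autoImplicit false

namespace Crest.Agent.R12.TH

open Crest.Agent.R17 Crest.Agent.R17.D
open Complex MeasureTheory Filter Set
open scoped Real Topology ComplexConjugate UpperHalfPlane MatrixGroups

theorem trp_conv {c : ℝ} (hc : 0 ≤ c) :
    ConvexOn ℝ (Ioi (0 : ℝ)) fun s => Real.log (Real.Gamma (s / 3 + c)) := by
  refine ⟨convex_Ioi _, fun x hx y hy a b ha hb hab => ?_⟩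
  have hx' : 0 < x := hx
  have hy' : 0 < y := hy
  have h := Real.convexOn_log_Gamma.2 (x := x / 3 + c) (mem_Ioi.2 (by positivity)) (y := y / 3 + c)
    (mem_Ioi.2 (by positivity)) ha hb hab
  have e : a • (x / 3 + c) + b • (y / 3 + c) = (a • x + b • y) / 3 + c := by
    simp only [smul_eq_mul]
    linear_combination c * hab
  rw [e] at h
  exact h

theorem trp_eq {s : ℝ} (hs : 0 < s) : Real.Gamma (s / 3) * Real.Gamma (s / 3 + 1 / 3) *
    Real.Gamma (s / 3 + 2 / 3) * 3 ^ (s - 1 / 2) / (2 * π) = Real.Gamma s := by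
  have hπ := Real.pi_pos
  refine Real.eq_Gamma_of_log_convex (f := fun s : ℝ => Real.Gamma (s / 3) *
    Real.Gamma (s / 3 + 1 / 3) * Real.Gamma (s / 3 + 2 / 3) * 3 ^ (s - 1 / 2) / (2 * π))
    ?_ (fun {y} hy => ?_) (fun {y} hy => ?_) ?_ hs
  · have h3 : ConvexOn ℝ (Ioi (0 : ℝ)) fun s : ℝ => Real.log 3 • s :=
      (convexOn_id (convex_Ioi (0 : ℝ))).smul (Real.log_nonneg (by norm_num))
    refine (((((trp_conv le_rfl).add (trp_conv (c := 1 / 3) (by norm_num))).add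
      (trp_conv (c := 2 / 3) (by norm_num))).add h3).add_const
        (-(Real.log 3 / 2) - Real.log (2 * π))).congr fun y hy => ?_
    have hy' : 0 < y := hy
    have g1 := Real.Gamma_pos_of_pos (s := y / 3) (by positivity)
    have g2 := Real.Gamma_pos_of_pos (s := y / 3 + 1 / 3) (by positivity)
    have g3 := Real.Gamma_pos_of_pos (s := y / 3 + 2 / 3) (by positivity)
    simp only [Pi.add_apply, Function.comp_apply, add_zero, smul_eq_mul]
    rw [Real.log_div (by positivity) (by positivity),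
      Real.log_mul (mul_pos (mul_pos g1 g2) g3).ne' (by positivity),
      Real.log_mul (mul_pos g1 g2).ne' g3.ne', Real.log_mul g1.ne' g2.ne',
      Real.log_rpow (by norm_num)]
    ring
  · rw [show (y + 1) / 3 + 2 / 3 = y / 3 + 1 by ring, show (y + 1) / 3 + 1 / 3 = y / 3 + 2 / 3 by ring,
      show (y + 1) / 3 = y / 3 + 1 / 3 by ring, show y + 1 - 1 / 2 = y - 1 / 2 + 1 by ring,
      Real.Gamma_add_one (by positivity), Real.rpow_add (by norm_num), Real.rpow_one]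
    ring
  · have g1 := Real.Gamma_pos_of_pos (s := y / 3) (by positivity)
    have g2 := Real.Gamma_pos_of_pos (s := y / 3 + 1 / 3) (by positivity)
    have g3 := Real.Gamma_pos_of_pos (s := y / 3 + 2 / 3) (by positivity)
    positivity
  · have h := Real.Gamma_mul_Gamma_one_sub (1 / 3)
    rw [show π * (1 / 3) = π / 3 by ring, Real.sin_pi_div_three] at h
    rw [show (1 : ℝ) / 3 + 2 / 3 = 1 by norm_num, show (1 : ℝ) / 3 + 1 / 3 = 1 - 1 / 3 by norm_num,
      show (1 : ℝ) - 1 / 2 = 1 / 2 by norm_num, h, Real.Gamma_one, ← Real.sqrt_eq_rpow]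
    field_simp

/-- Bohr–Mollerup (`Real.eq_Gamma_of_log_convex`, copy `Real.doublingGamma`) -/
theorem Gamma_trip {s : ℝ} (hs : 0 < s) :
    Real.Gamma s * Real.Gamma (s + 1 / 3) * Real.Gamma (s + 2 / 3) =
      2 * π * 3 ^ (1 / 2 - 3 * s) * Real.Gamma (3 * s) := by
  have hπ := Real.pi_pos
  rw [← trp_eq (s := 3 * s) (by positivity), show 3 * s / 3 = s by ring,
    show 1 / 2 - 3 * s = -(3 * s - 1 / 2) by ring, Real.rpow_neg (by norm_num)]
  field_simp

/-- duplication and triplication -/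
theorem Gamma_fac {s : ℝ} (hs : 1 < s) :
    2 * (π ^ (-s) * Real.Gamma s) * ((2 * √bt)⁻¹ * ((27 / (4 * π ^ 2)) ^ ((s - 1) / 2) *
      Real.Gamma ((s - 1) / 2 + 1 / 3) * Real.Gamma ((s - 1) / 2 + 2 / 3))) * 2 =
      6 * (π ^ (-s / 2) * Real.Gamma (s / 2)) * (π ^ (-(3 * s - 1) / 2) * Real.Gamma ((3 * s - 1) / 2)) := by
  obtain ⟨u, rfl⟩ : ∃ u, s = 2 * u + 1 := ⟨(s - 1) / 2, by ring⟩
  have hu : 0 < u := by linarith
  have hπ := Real.pi_pos
  have g0 := Real.Gamma_pos_of_pos hu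
  have h2 := Real.Gamma_mul_Gamma_add_half_of_pos hu
  have h3 := Gamma_trip hu
  have hp : 0 < π ^ u := by positivity
  have ht : 0 < (2 : ℝ) ^ u := by positivity
  have hh : 0 < (3 : ℝ) ^ u := by positivity
  have hr : 0 < √π := by positivity
  have hq : 0 < √3 := by positivity
  have hq2 : √3 * √3 = 3 := Real.mul_self_sqrt (by norm_num)
  have pw : ∀ (x : ℝ) (n : ℕ), 0 < x → x ^ ((n : ℝ) * u) = (x ^ u) ^ n := fun x n hx => by
    rw [mul_comm, Real.rpow_mul_natCast hx.le]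
  have e1 : π ^ (-(2 * u + 1)) = ((π ^ u) ^ 2 * π)⁻¹ := by
    rw [Real.rpow_neg hπ.le, Real.rpow_add hπ, Real.rpow_one, ← pw π 2 hπ, Nat.cast_ofNat]
  have e2 : (27 / (4 * π ^ 2)) ^ u = (3 ^ u) ^ 3 / ((2 ^ u) ^ 2 * (π ^ u) ^ 2) := by
    rw [Real.div_rpow (by norm_num) (by positivity), Real.mul_rpow (by norm_num) (by positivity),
      show (27 : ℝ) = 3 ^ 3 by norm_num, show (4 : ℝ) = 2 ^ 2 by norm_num,
      ← Real.rpow_pow_comm (by norm_num), ← Real.rpow_pow_comm (by norm_num),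
      ← Real.rpow_pow_comm hπ.le]
  have e3 : π ^ (-(2 * u + 1) / 2) = (π ^ u * √π)⁻¹ := by
    rw [show -(2 * u + 1) / 2 = -(u + 1 / 2) by ring, Real.rpow_neg hπ.le, Real.rpow_add hπ,
      Real.sqrt_eq_rpow]
  have e4 : π ^ (-(3 * (2 * u + 1) - 1) / 2) = ((π ^ u) ^ 3 * π)⁻¹ := by
    rw [show -(3 * (2 * u + 1) - 1) / 2 = -(3 * u + 1) by ring, Real.rpow_neg hπ.le,
      Real.rpow_add hπ, Real.rpow_one, ← pw π 3 hπ, Nat.cast_ofNat]
  have e5 : (3 : ℝ) ^ (1 / 2 - 3 * u) = √3 / (3 ^ u) ^ 3 := by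
    rw [Real.rpow_sub (by norm_num), Real.sqrt_eq_rpow, ← pw 3 3 (by norm_num), Nat.cast_ofNat]
  have e6 : (2 : ℝ) ^ (1 - 2 * u) = 2 / (2 ^ u) ^ 2 := by
    rw [Real.rpow_sub (by norm_num), Real.rpow_one, ← pw 2 2 (by norm_num), Nat.cast_ofNat]
  have e7 : √bt = 2 * π / (3 * √3) := by
    rw [Real.sqrt_eq_iff_mul_self_eq (by unfold bt; positivity) (by positivity), bt,
      div_mul_div_comm, mul_mul_mul_comm 3, hq2]
    ring
  rw [show (2 * u + 1 - 1) / 2 = u by ring, show (2 * u + 1) / 2 = u + 1 / 2 by ring,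
    show (3 * (2 * u + 1) - 1) / 2 = 3 * u + 1 by ring, e1, e2, e3, e4, e7,
    Real.Gamma_add_one (s := 2 * u) (by positivity), Real.Gamma_add_one (s := 3 * u) (by positivity)]
  rw [e5] at h3
  rw [e6] at h2
  have k2 : Real.Gamma (u + 1 / 2) = Real.Gamma (2 * u) * (2 / (2 ^ u) ^ 2) * √π / Real.Gamma u := by
    rw [← h2]
    field_simp
  have k3 : Real.Gamma (u + 1 / 3) * Real.Gamma (u + 2 / 3) =
      2 * π * (√3 / (3 ^ u) ^ 3) * Real.Gamma (3 * u) / Real.Gamma u := by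
    rw [← h3]
    field_simp
  rw [k2, mul_assoc _ (Real.Gamma (u + 1 / 3)), k3]
  field_simp
  rw [Real.sq_sqrt (by norm_num)]
  norm_num

end Crest.Agent.R12.TH
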