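import Crest.Agent.R12.TH.Per
import Crest.Agent.R12.TH.Trip

/-! Row 12, block TH: Mellin transform of the period. -/

set_option autoImplicit false

namespace Crest.Agent.R12.TH

open Crest.Agent.R17 Crest.Agent.R17.D
open Complex MeasureTheory Filter Set
open scoped Real Topology ComplexConjugate UpperHalfPlane MatrixGroups

/-- `M₁ = mellin (1_{t > 1} A)` is entire, `M₀ s = M₁ s + M₁ (1 - s)` -/
theorem mel_sym {A : ℝ → ℂ} (hA : AEStronglyMeasurable A (volume.restrict (Ioi 0)))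
    (hb : ∀ r : ℝ, 3 ≤ r → ∃ C : ℝ, ∀ t : ℝ, 0 < t → ‖A t‖ ≤ C * t ^ (-r)) {α β : ℂ}
    (h : ∀ t : ℝ, 0 < t → A t = (t : ℂ)⁻¹ * A t⁻¹ +
      α * (((t ^ (-(1 / 3) : ℝ) - t ^ (-(2 / 3) : ℝ) : ℝ)) : ℂ) + β * ((t : ℂ)⁻¹ - 1)) :
    ∃ M : ℂ → ℂ, Differentiable ℂ M ∧ (∀ s, M (1 - s) = M s) ∧ ∀ s : ℂ, 1 < s.re →
      mellin A s = M s + α / (s - 1 / 3) - α / (s - 2 / 3) + β / (s - 1) - β / s := by
  set B : ℝ → ℂ := (Ioi (1 : ℝ)).indicator A with hB
  have hloc : LocallyIntegrableOn B (Ioi 0) := by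
    obtain ⟨C, hC⟩ := hb 3 le_rfl
    have h1 : IntegrableOn A (Ioi 1) := by
      refine Integrable.mono' ((integrableOn_Ioi_rpow_of_lt (a := -3) (by norm_num)
        one_pos).const_mul C) (hA.mono_set (Ioi_subset_Ioi zero_le_one)) ?_
      exact (ae_restrict_iff' measurableSet_Ioi).2 (Eventually.of_forall fun t ht =>
        hC t (lt_trans one_pos ht))
    exact (h1.integrable_indicator measurableSet_Ioi).integrableOn.locallyIntegrableOn
  have htop : ∀ s : ℂ, B =O[atTop] (· ^ (-(max 3 (s.re + 1)))) := fun s => by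
    obtain ⟨C, hC⟩ := hb _ (le_max_left 3 (s.re + 1))
    refine Asymptotics.IsBigO.of_bound C ?_
    filter_upwards [eventually_gt_atTop 1] with t ht
    rw [hB, indicator_of_mem (mem_Ioi.2 ht),
      Real.norm_of_nonneg (Real.rpow_nonneg (by linarith) _)]
    exact hC t (by linarith)
  have hbot : ∀ s : ℂ, B =O[𝓝[>] 0] (· ^ (-(s.re - 1))) := fun s => by
    refine Asymptotics.IsBigO.of_bound 0 ?_
    filter_upwards [Ioo_mem_nhdsGT one_pos] with t ht
    rw [hB, indicator_of_notMem (show t ∉ Ioi (1 : ℝ) from fun h' => lt_asymm ht.2 h'), norm_zero,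
      zero_mul]
  have hlt : ∀ s : ℂ, s.re < max 3 (s.re + 1) := fun s => lt_max_of_lt_right (lt_add_one _)
  have hconv : ∀ s, MellinConvergent B s := fun s =>
    mellinConvergent_of_isBigO_rpow hloc (htop s) (hlt s) (hbot s) (sub_one_lt _)
  have hdiff : Differentiable ℂ (mellin B) := fun s =>
    mellin_differentiableAt_of_isBigO_rpow hloc (htop s) (hlt s) (hbot s) (sub_one_lt _)
  refine ⟨fun s => mellin B s + mellin B (1 - s),
    hdiff.add (hdiff.comp (differentiable_id.const_sub 1)),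
    fun s => by simp only [sub_sub_cancel, add_comm], fun s hs => ?_⟩
  have m1 : HasMellin (fun t : ℝ => (t : ℂ) ^ (-1 : ℂ) • B t⁻¹) s (mellin B (1 - s)) := by
    constructor
    · rw [MellinConvergent.cpow_smul]
      simp_rw [← Real.rpow_neg_one]
      exact (MellinConvergent.comp_rpow (by norm_num)).2 (hconv _)
    · rw [mellin_cpow_smul, mellin_comp_inv]
      congr 1
      ring
  have m2 := hasMellin_cpow_Ioc (-(1 / 3)) (s := s) (by norm_num; linarith)
  have m3 := hasMellin_cpow_Ioc (-(2 / 3)) (s := s) (by norm_num; linarith)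
  have m4 := hasMellin_cpow_Ioc (-1) (s := s) (by norm_num; linarith)
  have m5 := hasMellin_one_Ioc (s := s) (by linarith)
  have n1 := hasMellin_add (hconv s) m1.1
  have n2 := hasMellin_const_smul (hasMellin_sub m2.1 m3.1).1 α
  have n3 := hasMellin_const_smul (hasMellin_sub m4.1 m5.1).1 β
  have n4 := hasMellin_add n1.1 n2.1
  have n5 := (hasMellin_add n4.1 n3.1).2
  rw [n4.2, n1.2, n2.2, n3.2, (hasMellin_sub m2.1 m3.1).2, (hasMellin_sub m4.1 m5.1).2, m1.2, m2.2,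
    m3.2, m4.2, m5.2] at n5
  refine Eq.trans ?_ (n5.trans ?_)
  · refine setIntegral_congr_ae measurableSet_Ioi ?_
    filter_upwards [Measure.ae_ne volume (1 : ℝ)] with t ht1 ht0
    congr 1
    have ht0' : 0 < t := ht0
    rcases lt_or_gt_of_ne ht1 with ht | ht
    · have i1 : t ∈ Ioc (0 : ℝ) 1 := ⟨ht0', ht.le⟩
      have i2 : t⁻¹ ∈ Ioi (1 : ℝ) := (one_lt_inv₀ ht0').2 ht
      simp only [hB, indicator_of_mem i1, indicator_of_mem i2,
        indicator_of_notMem (show t ∉ Ioi (1 : ℝ) from fun h' => lt_asymm ht h'), smul_eq_mul,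
        cpow_neg_one, zero_add]
      rw [h t ht0', ofReal_sub, ofReal_cpow ht0'.le, ofReal_cpow ht0'.le]
      push_cast
      rfl
    · have i1 : t ∉ Ioc (0 : ℝ) 1 := fun h' => not_le.2 ht h'.2
      have i2 : t⁻¹ ∉ Ioi (1 : ℝ) := fun h' => lt_asymm ht ((one_lt_inv₀ ht0').1 h')
      simp only [hB, indicator_of_notMem i1, indicator_of_notMem i2,
        indicator_of_mem (mem_Ioi.2 ht), smul_zero, sub_self, add_zero]
  · simp only [smul_eq_mul, ← sub_eq_add_neg]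
    ring

theorem aesm_AT : AEStronglyMeasurable AT (volume.restrict (Ioi 0)) := by
  refine AEStronglyMeasurable.integral_prod_right' (ν := volume.restrict (Ioi (0 : ℝ)))
    (f := fun p : ℝ × ℝ => bq p.2 * (ps (p.1 / p.2) : ℝ) / (p.2 : ℂ) ^ 2) ?_
  rw [Measure.prod_restrict]
  refine ContinuousOn.aestronglyMeasurable ?_ (measurableSet_Ioi.prod measurableSet_Ioi)
  refine ContinuousOn.div (ContinuousOn.mul
    (continuousOn_bq.comp continuousOn_snd fun p hp => hp.2)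
    (continuous_ofReal.comp_continuousOn (continuousOn_ps.comp
      (continuousOn_fst.div continuousOn_snd fun p hp => ne_of_gt hp.2)
      fun p hp => mem_Ioi.2 (div_pos (mem_Ioi.1 hp.1) (mem_Ioi.1 hp.2))))) (by fun_prop) fun p hp => ?_
  exact pow_ne_zero _ (ofReal_ne_zero.2 (ne_of_gt hp.2))

/-- `norm_bq_le`, `int_div` -/
theorem norm_AT_le {r : ℝ} (hr : 3 ≤ r) : ∃ C : ℝ, ∀ t : ℝ, 0 < t → ‖AT t‖ ≤ C * t ^ (-r) := by
  obtain ⟨C, hC⟩ := norm_bq_le hr
  have hC0 : 0 ≤ C := by simpa using (norm_nonneg _).trans (hC 1 one_pos)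
  refine ⟨C * ‖mellin (fun y => (ps y : ℂ)) r‖, fun t ht => ?_⟩
  obtain ⟨h1, h2⟩ := int_div (mellin_ps (s := r) (by rw [ofReal_re]; linarith)).1 ht
  have e : ∀ v ∈ Ioi (0 : ℝ), (v : ℂ) ^ (-(r : ℂ) - 1) * (ps (t / v) : ℂ) =
      ((v ^ (-r - 1) * ps (t / v) : ℝ) : ℂ) := fun v hv => by
    rw [ofReal_mul, ofReal_cpow (le_of_lt hv)]
    push_cast
    rfl
  rw [setIntegral_congr_fun measurableSet_Ioi e, integral_complex_ofReal] at h2
  have h3 : IntegrableOn (fun v : ℝ => v ^ (-r - 1) * ps (t / v)) (Ioi 0) := by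
    have := (h1.congr_fun e measurableSet_Ioi).re
    simpa [IntegrableOn] using this
  have h4 : ∫ v in Ioi (0 : ℝ), v ^ (-r - 1) * ps (t / v) ≤
      t ^ (-r) * ‖mellin (fun y => (ps y : ℂ)) r‖ := by
    have := congrArg norm h2
    rw [norm_mul, norm_cpow_eq_rpow_re_of_pos ht, neg_re, ofReal_re] at this
    rw [← this]
    exact (le_abs_self _).trans (le_of_eq (by simp))
  refine (norm_integral_le_of_norm_le (h3.const_mul C) ?_).trans ?_
  · refine (ae_restrict_iff' measurableSet_Ioi).2 (Eventually.of_forall fun v hv => ?_)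
    have hv' : 0 < v := hv
    have hp := ps_nonneg (div_pos ht hv')
    rw [norm_div, norm_mul, norm_pow, norm_real, norm_real, Real.norm_of_nonneg hp,
      Real.norm_of_nonneg hv'.le, div_le_iff₀ (by positivity)]
    refine (mul_le_mul_of_nonneg_right (hC v hv') hp).trans (le_of_eq ?_)
    rw [show 1 - r = -r - 1 + 2 by ring, Real.rpow_add hv', Real.rpow_two]
    ring
  · rw [integral_const_mul, mul_assoc, mul_comm _ (t ^ (-r))]
    exact mul_le_mul_of_nonneg_left h4 hC0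

theorem melb_fub {H K : ℝ → ℂ} (cH : ContinuousOn H (Ioi 0)) (cK : ContinuousOn K (Ioi 0))
    (hH : IntegrableOn H (Ioi 0)) (hK : IntegrableOn K (Ioi 0)) :
    ∫ t in Ioi (0 : ℝ), ∫ v in Ioi (0 : ℝ), K v * (v⁻¹ • H (v⁻¹ * t)) =
      (∫ t in Ioi (0 : ℝ), H t) * ∫ v in Ioi (0 : ℝ), K v := by
  have hm : AEStronglyMeasurable (Function.uncurry fun t v : ℝ => K v * (v⁻¹ • H (v⁻¹ * t)))
      ((volume.restrict (Ioi 0)).prod (volume.restrict (Ioi 0))) := by
    rw [Measure.prod_restrict]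
    refine ContinuousOn.aestronglyMeasurable ?_ (measurableSet_Ioi.prod measurableSet_Ioi)
    have hi : ContinuousOn (fun p : ℝ × ℝ => p.2⁻¹) (Ioi 0 ×ˢ Ioi 0) :=
      continuousOn_snd.inv₀ fun p hp => (mem_Ioi.1 hp.2).ne'
    exact (cK.comp continuousOn_snd fun p hp => hp.2).mul (hi.smul (cH.comp (hi.mul continuousOn_fst)
      fun p hp => mul_pos (inv_pos.2 (mem_Ioi.1 hp.2)) (mem_Ioi.1 hp.1)))
  rw [integral_integral_swap ((integrable_prod_iff' hm).2 ⟨?_, ?_⟩), mul_comm, ← integral_mul_const]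
  · refine setIntegral_congr_fun measurableSet_Ioi fun v hv => ?_
    rw [integral_const_mul, integral_smul, integral_comp_mul_left_Ioi' H 0 (inv_pos.2 hv), mul_zero]
  · filter_upwards [ae_restrict_mem measurableSet_Ioi] with v hv
    have h1 := (integrableOn_Ioi_comp_mul_left_iff H 0 (inv_pos.2 hv)).2 (by rwa [mul_zero])
    exact (h1.smul v⁻¹).const_mul (K v)
  · refine (hK.norm.mul_const (∫ t in Ioi (0 : ℝ), ‖H t‖)).congr ?_
    filter_upwards [ae_restrict_mem measurableSet_Ioi] with v hv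
    have hv' : 0 < v⁻¹ := inv_pos.2 hv
    simp only [Function.uncurry_apply_pair, norm_mul, norm_smul, Real.norm_of_nonneg hv'.le]
    rw [integral_const_mul, integral_const_mul, ← smul_eq_mul v⁻¹,
      integral_comp_mul_left_Ioi' (fun t => ‖H t‖) 0 hv', mul_zero]

theorem melb_cont (a : ℂ) : ContinuousOn (fun t : ℝ => (t : ℂ) ^ a) (Ioi 0) := fun _ ht =>
  (continuousAt_ofReal_cpow_const _ _ (Or.inr (mem_Ioi.1 ht).ne')).continuousWithinAt

theorem melb_bq {s : ℝ} (hs : 5 < s) : MellinConvergent bq (s - 1) := by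
  obtain ⟨C, hC⟩ := norm_bq_le (A := s + 1) (by linarith)
  obtain ⟨C', hC'⟩ := norm_bq_le (A := 3) le_rfl
  refine mellinConvergent_of_isBigO_rpow (a := s) (b := 2)
    (continuousOn_bq.locallyIntegrableOn measurableSet_Ioi) (.of_bound C ?_) (by simp)
    (.of_bound C' ?_) (by simp; linarith)
  · filter_upwards [eventually_gt_atTop 0] with v hv
    rw [Real.norm_of_nonneg (Real.rpow_nonneg hv.le _)]
    exact (hC v hv).trans (le_of_eq (by congr 2; ring))
  · filter_upwards [self_mem_nhdsWithin] with v hv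
    rw [Real.norm_of_nonneg (Real.rpow_nonneg (mem_Ioi.1 hv).le _)]
    exact (hC' v hv).trans (le_of_eq (by congr 2; norm_num))

/-- Fubini -/
theorem mellin_AT {s : ℝ} (hs : 5 < s) :
    mellin AT s = mellin (fun y => (ps y : ℂ)) s * mellin bq (s - 1) := by
  have h1 := (mellin_ps (s := s) (by simp; linarith)).1
  have h := melb_fub ((melb_cont _).smul (continuous_ofReal.comp_continuousOn continuousOn_ps))
    ((melb_cont _).smul continuousOn_bq) h1 (melb_bq hs)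
  refine Eq.trans (setIntegral_congr_fun measurableSet_Ioi fun t ht => ?_) h
  simp only [AT, smul_eq_mul]
  rw [← integral_const_mul]
  refine setIntegral_congr_fun measurableSet_Ioi fun v hv => ?_
  have hv' : (0 : ℝ) < v := hv
  have hv0 : (v : ℂ) ≠ 0 := ofReal_ne_zero.2 hv'.ne'
  have h2 : (v : ℂ) ^ ((s : ℂ) - 1) ≠ 0 := by simp [hv0]
  simp only [Pi.mul_apply, Function.comp_apply, real_smul]
  rw [ofReal_mul, mul_cpow_ofReal_nonneg (inv_pos.2 hv').le (mem_Ioi.1 ht).le, ofReal_inv,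
    inv_cpow _ _ (by rw [arg_ofReal_of_nonneg hv'.le]; exact Real.pi_pos.ne),
    cpow_sub ((s : ℂ) - 1) 1 hv0, cpow_one, div_eq_inv_mul t v]
  field_simp

theorem melb_tq0 : tq 0 = 0 := by
  rw [tq, D.tau_zero, ite_self]

theorem melb_tq : ∃ C : ℝ, ∀ h : O, ‖tq h‖ ≤ C * nm h := by
  obtain ⟨C, hC⟩ := tau_bound
  refine ⟨|C|, fun h => ?_⟩
  rcases eq_or_ne h 0 with rfl | hh
  · rw [melb_tq0, norm_zero, nm_zero, mul_zero]
  have h1 : ‖tq h‖ ≤ ‖tau h‖ := by
    unfold tq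
    split_ifs
    · exact le_rfl
    · rw [norm_zero]
      exact norm_nonneg _
  refine h1.trans ((hC h).trans (mul_le_mul (le_abs_self C) ?_
    (Real.rpow_nonneg (nm_nonneg h) _) (abs_nonneg C)))
  exact Real.rpow_le_self_of_one_le (one_le_nm hh) (by norm_num)

theorem melb_mellin {s : ℝ} (hs : 5 < s) : mellin bq (s - 1) =
    (2 * √bt : ℝ)⁻¹ * gth (((s - 1) / 2 : ℝ) : ℂ) * (2 * PP3 ((3 : ℝ) ^ (-s)) * ZZ tau0 s) := by
  obtain ⟨C, hC⟩ := melb_tq
  have h := ser_mellin melb_tq0 hC (s := ((s - 1) / 2 : ℝ)) (by rw [ofReal_re]; linarith)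
  rw [show (2 * ((s - 1) / 2 : ℝ) : ℂ) = s - 1 by push_cast; ring] at h
  rw [← sum_tq (by linarith)]
  refine h.trans (congrArg _ (tsum_congr fun n => ?_))
  rcases eq_or_ne n 0 with rfl | hn
  · rw [melb_tq0, zero_mul, zero_mul, zero_mul]
  have hn' := nm_pos hn
  rw [mul_assoc, ← ofReal_neg, ← ofReal_cpow hn'.le, ← ofReal_inv, ← ofReal_mul, Real.sqrt_eq_rpow,
    ← Real.rpow_neg hn'.le, ← Real.rpow_add hn', ← Real.rpow_mul hn'.le]
  congr 3
  ring

theorem melb_Lam {s : ℝ} (hs : 0 < s) :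
    completedRiemannZeta s = (π ^ (-s / 2) * Real.Gamma (s / 2) : ℝ) * riemannZeta s := by
  have h0 : (s : ℂ) ≠ 0 := ofReal_ne_zero.2 hs.ne'
  have h1 := Gammaℝ_ne_zero_of_re_pos (s := s) (by simpa using hs)
  rw [riemannZeta_def_of_ne_zero h0, ofReal_mul, ofReal_cpow Real.pi_pos.le, ← Gamma_ofReal]
  push_cast
  rw [← Gammaℝ_def]
  field_simp

/-- `mellin_ps`, `ser_mellin`, `sum_tq`, `ZZ_*`, `Gamma_fac` -/
theorem mellin_AT_eq {s : ℝ} (hs : 5 < s) :
    mellin AT s * (1 + (((3 : ℝ) ^ (-s) : ℝ) : ℂ)) =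
      6 * completedRiemannZeta s * completedRiemannZeta (3 * s - 1) *
        (PP3 ((3 : ℝ) ^ (-s)) * (1 - 3 * (((3 : ℝ) ^ (-s) : ℝ) : ℂ) ^ 3)) := by
  classical
  have h3 : (0 : ℝ) < 3 := by norm_num
  have hG := congrArg (fun x : ℝ => (x : ℂ)) (Gamma_fac (s := s) (by linarith))
  have hg : gth (((s - 1) / 2 : ℝ) : ℂ) = ((27 / (4 * π ^ 2)) ^ ((s - 1) / 2) *
      Real.Gamma ((s - 1) / 2 + 1 / 3) * Real.Gamma ((s - 1) / 2 + 2 / 3) : ℝ) := by
    rw [gth, ofReal_mul, ofReal_mul, ofReal_cpow (by positivity), ← Gamma_ofReal, ← Gamma_ofReal]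
    push_cast
    rfl
  have L1 := melb_Lam (s := s) (by linarith)
  have L2 := melb_Lam (s := 2 * s) (by linarith)
  have L3 := melb_Lam (s := 3 * s - 1) (by linarith)
  have Z1 := ZZ_zeta (s := s) (by linarith)
  have Z2 := ZZ_zeta (s := 2 * s) (by linarith)
  have Z3 := ZZ_zeta (s := 3 * s - 1) (by linarith)
  have Z4 := ZZ_one (s := s) (by linarith)
  have e2 : (3 : ℝ) ^ (-(2 * s)) = ((3 : ℝ) ^ (-s)) ^ 2 := by
    rw [← Real.rpow_natCast, ← Real.rpow_mul h3.le]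
    congr 1
    push_cast
    ring
  have e3 : (3 : ℝ) ^ (-(3 * s - 1)) = 3 * ((3 : ℝ) ^ (-s)) ^ 3 := by
    rw [← Real.rpow_natCast, ← Real.rpow_mul h3.le,
      show -(3 * s - 1) = 1 + -s * ((3 : ℕ) : ℝ) by push_cast; ring, Real.rpow_add h3, Real.rpow_one]
  have hX : (1 : ℂ) - ((3 : ℝ) ^ (-s) : ℝ) ≠ 0 := by
    rw [← ofReal_one, ← ofReal_sub, ofReal_ne_zero]
    exact (sub_pos.2 (Real.rpow_lt_one_of_one_lt_of_neg (by norm_num) (by linarith))).ne'
  rw [show -(2 * s) / 2 = -s by ring, show 2 * s / 2 = s by ring] at L2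
  rw [e2] at Z2
  rw [e3] at Z3
  rw [Z1, Z2] at Z4
  rw [mellin_AT hs, (mellin_ps (by simp; linarith)).2, melb_mellin hs, ZZ_tau0 (by linarith), Z3, hg]
  rw [show (2 * (s : ℂ)) = ((2 * s : ℝ) : ℂ) by push_cast; rfl,
    show (3 * (s : ℂ) - 1) = ((3 * s - 1 : ℝ) : ℂ) by push_cast; rfl, L1, L2, L3]
  refine mul_left_cancel₀ hX ?_
  generalize (3 : ℝ) ^ (-s) = X at *
  generalize ZZ (fun c => if Squarefree c then 1 else 0) s = S at *
  generalize riemannZeta ((2 * s : ℝ) : ℂ) = z2 at *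
  generalize riemannZeta ((3 * s - 1 : ℝ) : ℂ) = z3 at *
  generalize π ^ (-s) * Real.Gamma s = g2 at *
  generalize π ^ (-s / 2) * Real.Gamma (s / 2) = g1 at *
  generalize π ^ (-(3 * s - 1) / 2) * Real.Gamma ((3 * s - 1) / 2) = g3 at *
  generalize (27 / (4 * π ^ 2)) ^ ((s - 1) / 2) * Real.Gamma ((s - 1) / 2 + 1 / 3) *
    Real.Gamma ((s - 1) / 2 + 2 / 3) = g4 at *
  generalize (2 * √bt)⁻¹ = b at *
  push_cast at hG Z4 ⊢
  linear_combination (PP3 X * (1 - 3 * (X : ℂ) ^ 3) * z3 * z2 * S * (1 - (X : ℂ) ^ 2)) * hG -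
    (6 * g1 * g3 * z3 * PP3 X * (1 - 3 * (X : ℂ) ^ 3)) * Z4

end Crest.Agent.R12.TH
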