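import Crest.Agent.R12.TH.CDefs

/-! Row 12, block TH: the theta coefficients on rational integers. -/

set_option autoImplicit false

namespace Crest.Agent.R12.TH

open Crest.Agent.R17 Crest.Agent.R17.D
open Complex MeasureTheory Filter Set
open scoped Real Topology ComplexConjugate UpperHalfPlane MatrixGroups

theorem cj_int (m : ℤ) : cj (m : O) = m := map_intCast cj m

theorem exists_int_of_cj {h : O} (hh : cj h = h) : ∃ m : ℤ, h = m := by
  obtain ⟨x, y, rfl⟩ := exists_coord h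
  have e : cj ((x : O) + y * om) = ((x - y : ℤ) : O) + ((-y : ℤ) : O) * om := by
    rw [map_add, map_mul, cj_int, cj_int, cj_om, om_sq]
    push_cast
    ring
  rw [e, coord_inj] at hh
  have hy : y = 0 := by omega
  exact ⟨x, by rw [hy]; simp⟩

theorem prim_int {m : ℤ} : Prim (m : O) ↔ 3 ∣ m - 1 := by
  have h := int_dvd_int (m := 3) (x := m - 1)
  push_cast at h
  exact h

theorem sqrt_nm_int (m : ℤ) : √(nm (m : O)) = |(m : ℝ)| := by
  rw [← norm_sg, map_intCast, Complex.norm_intCast]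

theorem rta_real {z : ℂ} (h3 : z ^ 3 = 1) (hc : conj z = z) : z = 1 := by
  obtain ⟨r, rfl⟩ := Complex.conj_eq_iff_real.1 hc
  have h : r ^ 3 = 1 := by exact_mod_cast h3
  have h1 : r = 1 := (pow_eq_one_iff_of_ne_zero three_ne_zero).1 h |>.resolve_right (by
    rintro ⟨-, h2⟩
    exact absurd h2 (by decide))
  rw [h1]
  simp

/-- real (`cb_cj`) and a cube root of unity -/
theorem cb_int {a b : ℤ} (h3 : IsCoprime (b : O) 3) (h : IsCoprime (a : O) b) :
    cb (a : O) (b : O) = 1 := by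
  refine rta_real ?_ ?_
  · rw [cb_pow_three, if_pos ⟨h3, h⟩]
  · rw [← cb_cj, cj_int, cj_int]

theorem rho_int {c d : ℤ} (h : IsCoprime c d) : rho (c : O) (d : O) = 1 := by
  have hO : IsCoprime (c : O) d := by simpa using h.map (Int.castRingHom O)
  by_cases h3 : (3 : O) ∣ c
  · rw [rhob_a (rt_int c) (rt_int d) h3]
    exact cb_int (hO.symm.of_isCoprime_of_dvd_right h3) hO
  · rw [rhob_b (rt_int c) (rt_int d) h3]
    exact cb_int (rhob_cop (rhob_pm (rt_int c) h3)) hO.symm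

theorem cb_lam_int {m : ℤ} (h : Prim (m : O)) : cb lam (m : O) = 1 := by
  refine rta_real ?_ ?_
  · rw [cb_pow_three, if_pos ⟨h.coprime_three,
      (h.coprime_three.of_isCoprime_of_dvd_right lam_dvd_three).symm⟩]
  · rw [← cb_cj, cj_int, cj_lam, cb_neg_left]

theorem g3_cj {c : O} (hc : c ≠ 0) : g3 (cj c) = conj (g3 c) := by
  unfold g3 FT
  rw [map_div₀, Complex.conj_ofReal, nm_cj, conj_rsum,
    ← rsum_cj hc ((per_cb (cj c)).mul (per_eQ 1 (cj c)))]
  congr 2
  funext y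
  rw [map_mul conj, ← cb_cj, ← eQ_cj, one_mul, one_mul]

/-- induction on the norm: a primary prime `p ∣ c` is either rational (`p = -r`, `r ≡ 2 mod 3`,
`prime_cases`) or `p · cj p ∣ c` -/
theorem mu_mul_al {c : O} (hc : Prim c) (hs : Squarefree c) (h : cj c = c) : mu c * al c = 1 := by
  induction hN : nN c using Nat.strong_induction_on generalizing c with
  | _ N ih =>
    by_cases h1 : c = 1
    · rw [h1]; simp
    obtain ⟨p, hp, hp', hd⟩ := hc.exists_prime_dvd h1
    rcases prime_cases hp with hn | ⟨r, hr, hr3, ha⟩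
    · have hne : p ≠ cj p := by
        intro e
        obtain ⟨k, rfl⟩ := exists_int_of_cj e.symm
        rw [nN_intCast] at hn
        exact Nat.Prime.not_prime_pow le_rfl hn
      have hco := hp'.coprime_of_ne hp'.cj hp (prime_cj hp) hne
      have hd' : cj p ∣ c := by rw [← h]; exact cj_dvd_cj.2 hd
      obtain ⟨m, hm, rfl⟩ := (hp'.mul hp'.cj).exists_mul hc (hco.mul_dvd hd hd')
      have hsm := squarefree_mul_iff.1 hs
      have hcm : cj m = m := by
        rw [map_mul, map_mul, cj_cj, mul_comm (cj p) p] at h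
        exact mul_left_cancel₀ (hp'.mul hp'.cj).ne_zero h
      have hlt : nN m < N := by
        have h2 := pra_nN_lt hp (mul_ne_zero hp'.cj.ne_zero hm.ne_zero) 0
        have h3 := pra_nN_lt (prime_cj hp) hm.ne_zero 0
        rw [zero_add, pow_one] at h2 h3
        rw [← hN, mul_assoc]
        exact h3.trans h2
      have e := ih _ hlt hm hsm.2.2 hcm rfl
      have e2 : al p * conj (al p) = 1 := by
        rw [Complex.mul_conj, Complex.normSq_eq_norm_sq, norm_al hp.ne_zero]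
        simp
      rw [mu_mul hsm.1.isCoprime, mu_mul hco, mu_prime hp, mu_prime (prime_cj hp), al_mul, al_mul,
        al_cj, e2]
      linear_combination e
    · have hpr : Prim (((-(r : ℤ) : ℤ)) : O) := prim_int.2 (by omega)
      have e : p = ((-(r : ℤ) : ℤ) : O) := by
        refine hp'.eq_of_associated hpr ?_
        push_cast
        exact ha.neg_right
      obtain ⟨m, hm, rfl⟩ := hp'.exists_mul hc hd
      have hsm := squarefree_mul_iff.1 hs
      have hcm : cj m = m := by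
        rw [map_mul, e, cj_int] at h
        exact mul_left_cancel₀ hpr.ne_zero h
      have hlt : nN m < N := by
        have h3 := pra_nN_lt hp hm.ne_zero 0
        rw [zero_add, pow_one] at h3
        rw [← hN]
        exact h3
      have e1 := ih _ hlt hm hsm.2.2 hcm rfl
      have e2 : al p = -1 := by
        have hr0 : (r : ℂ) ≠ 0 := Nat.cast_ne_zero.2 hr.ne_zero
        rw [e, al, map_intCast]
        push_cast
        rw [norm_neg, Complex.norm_natCast, Complex.ofReal_natCast, neg_div, div_self hr0]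
      rw [mu_mul hsm.1.isCoprime, mu_prime hp, al_mul, e2]
      linear_combination e1

/-- `g3_cj`, `norm_g3`, `g3_cube` -/
theorem g3_int {c : O} (hc : Prim c) (hs : Squarefree c) (h : cj c = c) : g3 c = 1 := by
  refine rta_real ?_ ?_
  · rw [g3_cube hc hs, mu_mul_al hc hs h]
  · rw [← g3_cj hc.ne_zero, h]

/-- a rational primary element has rational `k`-free and `k`-th power parts (`powFree_unique`
applied to the conjugate factorisation) -/
theorem exists_powFree_int {m : ℤ} (hm : Prim (m : O)) {k : ℕ} (hk : 0 < k) :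
    ∃ c b : ℤ, Prim (c : O) ∧ Prim (b : O) ∧ PowFree k (c : O) ∧ m = c * b ^ k := by
  obtain ⟨c, b, hc, hb, hf, e⟩ := hm.exists_powFree hk
  have hf' : PowFree k (cj c) := by
    intro p hp hd
    refine hf (cj p) (prime_cj hp) ?_
    have := cj_dvd_cj.2 hd
    rwa [map_pow, cj_cj] at this
  have e' : cj c * cj b ^ k = c * b ^ k := by
    rw [← map_pow, ← map_mul, ← e, cj_int]
  obtain ⟨h1, h2⟩ := powFree_unique hk hb.cj hb hf' hf e'
  obtain ⟨c, rfl⟩ := exists_int_of_cj h1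
  obtain ⟨b, rfl⟩ := exists_int_of_cj h2
  refine ⟨c, b, hc, hb, hf, ?_⟩
  exact_mod_cast e

theorem summable_ZZ {a : O → ℂ} {θ s : ℝ} (ha : ∀ m : ℤ, ‖a m‖ ≤ |(m : ℝ)| ^ θ) (hs : θ + 1 < s) :
    Summable fun m : ℤ => ‖if 3 ∣ m - 1 then a m * ((|(m : ℝ)| ^ (-s) : ℝ) : ℂ) else 0‖ := by
  refine (Real.summable_abs_int_rpow (b := s - θ) (by linarith)).of_nonneg_of_le
    (fun _ => norm_nonneg _) fun m => ?_
  split_ifs with h
  · have h0 : 0 < |(m : ℝ)| := abs_pos.2 (Int.cast_ne_zero.2 (by omega))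
    rw [norm_mul, Complex.norm_real, Real.norm_of_nonneg (Real.rpow_nonneg h0.le _), neg_sub,
      sub_eq_add_neg, Real.rpow_add h0]
    exact mul_le_mul_of_nonneg_right (ha m) (Real.rpow_nonneg h0.le _)
  · rw [norm_zero]
    positivity

theorem rtb_gen {a w : O → ℂ} {k : ℕ} (hk : 0 < k) {θ s s' : ℝ}
    (ha : ∀ m : ℤ, ‖a m‖ ≤ |(m : ℝ)| ^ θ) (hs : θ + 1 < s)
    (h : ∀ c b : ℤ, Prim (c : O) → Prim (b : O) → PowFree k (c : O) →
      a (c * b ^ k) * ((|(b : ℝ)| ^ (-(k * s)) : ℝ) : ℂ) = ((|(b : ℝ)| ^ (-s') : ℝ) : ℂ) * w c)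
    (hw : ∀ c : ℤ, Prim (c : O) → ¬ PowFree k (c : O) → w c = 0) :
    ZZ a s = ZZ (fun _ => 1) s' * ZZ w s := by
  classical
  rw [ZZ, prc_gen (fun b c : ℤ => Prim (b : O) ∧ Prim (c : O) ∧ PowFree k (c : O))
    (fun b c => c * b ^ k) (summable_ZZ ha hs).of_norm, ZZ, ZZ, ← tsum_mul_right]
  · refine tsum_congr fun b => ?_
    rw [← tsum_mul_left]
    refine tsum_congr fun c => ?_
    by_cases hb : Prim (b : O)
    · by_cases hc : Prim (c : O)
      · rw [if_pos (prim_int.1 hb), if_pos (prim_int.1 hc), one_mul, ← mul_assoc]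
        by_cases hp : PowFree k (c : O)
        · have h1 : Prim ((c * b ^ k : ℤ) : O) := by
            push_cast
            exact hc.mul (hb.pow k)
          rw [if_pos ⟨hb, hc, hp⟩, if_pos (prim_int.1 h1), ← h c b hc hb hp]
          push_cast
          rw [abs_mul, abs_pow, Real.mul_rpow (abs_nonneg _) (by positivity),
            ← Real.rpow_natCast_mul (abs_nonneg _), mul_neg]
          push_cast
          ring
        · rw [if_neg fun h1 => hp h1.2.2, hw c hc hp, mul_zero, zero_mul]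
      · rw [if_neg fun h1 => hc h1.2.1, if_neg fun h1 => hc (prim_int.2 h1), mul_zero]
    · rw [if_neg fun h1 => hb h1.1, if_neg fun h1 => hb (prim_int.2 h1), zero_mul]
  · rintro b c b' c' ⟨h1, -, h2⟩ ⟨h1', -, h2'⟩ h3
    obtain ⟨h4, h5⟩ := powFree_unique hk h1 h1' h2 h2' (by exact_mod_cast h3)
    exact ⟨Int.cast_injective h5, Int.cast_injective h4⟩
  · intro n hn
    obtain ⟨c, b, h1, h2, h3, h4⟩ :=
      exists_powFree_int (prim_int.2 (by_contra fun h0 => hn (if_neg h0))) hk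
    exact ⟨b, c, ⟨h2, h1, h3⟩, h4.symm⟩

open Classical in
/-- `prc_gen` with `m = c b³` -/
theorem ZZ_tau0 {s : ℝ} (hs : 2 < s) :
    ZZ tau0 s = ZZ (fun _ => 1) (3 * s - 1) * ZZ (fun c => if Squarefree c then 1 else 0) s := by
  refine rtb_gen (k := 3) (θ := 1 / 3) (by norm_num) (fun m => ?_) (by linarith)
    (fun c b hc hb hp => ?_) fun c hc hp => if_neg fun h => hp (tau_pf h)
  · refine (norm_tau0_le _).trans_eq ?_
    rw [← sqrt_nm_int, Real.sqrt_eq_rpow, ← Real.rpow_mul (nm_nonneg _)]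
    norm_num
  · have h0 : 0 < |(b : ℝ)| := abs_pos.2 (Int.cast_ne_zero.2 fun h => hb.ne_zero (by simp [h]))
    have e : |(b : ℝ)| ^ (-(3 * s - 1)) = |(b : ℝ)| * |(b : ℝ)| ^ (-((3 : ℕ) * s)) := by
      rw [← Real.rpow_one_add' h0.le (by push_cast; linarith)]
      congr 1
      push_cast
      ring
    rw [e, tau0_mul_cube _ hb, sqrt_nm_int]
    split_ifs with h
    · rw [tau0_sqfree hc h, g3_int hc h (cj_int c), map_one]
      push_cast
      ring
    · rw [tau_zero hp h]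
      simp

open Classical in
/-- `prc_gen` with `m = c b²` -/
theorem ZZ_one {s : ℝ} (hs : 1 < s) :
    ZZ (fun _ => 1) s = ZZ (fun _ => 1) (2 * s) * ZZ (fun c => if Squarefree c then 1 else 0) s := by
  refine rtb_gen (k := 2) (θ := 0) two_pos (fun m => by simp) (by linarith)
    (fun c b hc hb hp => ?_) fun c hc hp => if_neg fun h => hp ((powFree_two hc.ne_zero).2 h)
  rw [if_pos ((powFree_two hc.ne_zero).1 hp), one_mul, mul_one, Nat.cast_ofNat]

/-- `∑_{m ≡ 1} = ½ ∑_{3 ∤ m}` -/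
theorem ZZ_zeta {s : ℝ} (hs : 1 < s) :
    ZZ (fun _ => 1) s = (1 - ((3 : ℝ) ^ (-s) : ℝ)) * riemannZeta s := by
  let g : ℕ → ℂ := fun n => (((n : ℝ) ^ (-s) : ℝ) : ℂ)
  have hg : Summable g := by
    refine Complex.summable_ofReal.2 (Real.summable_nat_rpow.2 (by linarith))
  have hz : riemannZeta s = ∑' n, g n := by
    rw [zeta_eq_tsum_one_div_nat_cpow (by simpa using hs)]
    refine tsum_congr fun n => ?_
    simp only [g]
    rw [Complex.ofReal_cpow (Nat.cast_nonneg n), Complex.ofReal_neg, Complex.cpow_neg,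
      Complex.ofReal_natCast, one_div]
  have h3 : ∑' n, (if 3 ∣ n then g n else 0) = ((3 : ℝ) ^ (-s) : ℝ) * ∑' n, g n := by
    rw [← (mul_right_injective₀ (three_ne_zero' ℕ)).tsum_eq (f := fun n => if 3 ∣ n then g n else 0),
      ← tsum_mul_left]
    · refine tsum_congr fun m => ?_
      simp only [g]
      rw [if_pos (dvd_mul_right _ _), Nat.cast_mul,
        Real.mul_rpow (Nat.cast_nonneg _) (Nat.cast_nonneg _), Complex.ofReal_mul, Nat.cast_ofNat]
    · intro n hn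
      obtain ⟨m, rfl⟩ : 3 ∣ n := by_contra fun h => hn (if_neg h)
      exact ⟨m, rfl⟩
  have hg3 : Summable fun n => if 3 ∣ n then g n else 0 :=
    hg.norm.of_norm_bounded fun n => by split_ifs <;> simp
  have h4 := tsum_nat_add_neg (summable_ZZ (a := fun _ => 1) (θ := 0) (s := s) (fun m => by simp)
    (by linarith)).of_norm
  rw [if_neg (by norm_num), add_zero] at h4
  rw [hz, one_sub_mul, ← h3, ← hg.tsum_sub hg3, ZZ, ← h4]
  refine tsum_congr fun n => ?_
  simp only [g, Int.cast_neg, abs_neg, Int.cast_natCast, Nat.abs_cast, one_mul]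
  split_ifs <;> first | omega | simp

theorem ratc_summ {X : ℝ} (h0 : 0 ≤ X) (hX : X < 1 / 2) :
    Summable fun j : ℕ => ‖tau (3 ^ j) * (X : ℂ) ^ j‖ := by
  obtain ⟨C, hC⟩ := tau_bound
  have h9 : nm (3 : O) = 9 := by
    have := nm_natCast 3
    norm_num at this
    exact this
  have h2 : (9 : ℝ) ^ (1 / 6 : ℝ) ≤ 2 := by
    calc (9 : ℝ) ^ (1 / 6 : ℝ) ≤ ((2 : ℝ) ^ 6) ^ (1 / 6 : ℝ) :=
          Real.rpow_le_rpow (by norm_num) (by norm_num) (by norm_num)
      _ = 2 := by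
          rw [one_div]
          exact_mod_cast Real.pow_rpow_inv_natCast (by norm_num : (0 : ℝ) ≤ 2) (by norm_num : 6 ≠ 0)
  refine Summable.of_nonneg_of_le (fun _ => norm_nonneg _) (fun j => ?_)
    ((summable_geometric_of_lt_one (r := 2 * X) (by positivity) (by linarith)).mul_left |C|)
  have h3 : ‖tau (3 ^ j)‖ ≤ |C| * 2 ^ j := by
    refine (hC _).trans ?_
    rw [nm_pow, h9, ← Real.rpow_natCast, ← Real.rpow_mul (by norm_num), mul_comm (j : ℝ),
      Real.rpow_mul (by norm_num), Real.rpow_natCast]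
    exact mul_le_mul (le_abs_self C) (by gcongr) (by positivity) (abs_nonneg C)
  rw [norm_mul, norm_pow, Complex.norm_real, Real.norm_of_nonneg h0, mul_pow, ← mul_assoc]
  gcongr

theorem ratc_inj {b b' : Bool} {j j' : ℕ} {m m' : ℤ} (hm : 3 ∣ m - 1) (hm' : 3 ∣ m' - 1)
    (hj : j ≤ j') (h : (if b then 1 else -1) * (3 ^ j * m) = (if b' then 1 else -1) * (3 ^ j' * m')) :
    b = b' ∧ j = j' ∧ m = m' := by
  obtain ⟨d, rfl⟩ := Nat.exists_eq_add_of_le hj
  have h1 : (if b then 1 else -1) * m = (if b' then 1 else -1) * (3 ^ d * m') :=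
    mul_left_cancel₀ (a := (3 : ℤ) ^ j) (by positivity) (by rw [pow_add] at h; linear_combination h)
  rcases d with _ | d
  · cases b <;> cases b' <;> simp at h1 ⊢ <;> omega
  · exfalso
    rw [pow_succ, mul_right_comm] at h1
    generalize 3 ^ d * m' = x at h1
    cases b <;> cases b' <;> simp at h1 <;> omega

theorem ratc_tau (j : ℕ) {m : ℤ} (hm : 3 ∣ m - 1) :
    tau (3 ^ j * (m : O)) = tau (3 ^ j) * tau0 m := by
  have hp : Prim (m : O) := prim_int.2 hm
  have e : (3 : O) ^ j = (-1) ^ j * lam ^ (2 * j) := by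
    rw [pow_mul, lam_sq, ← mul_pow]
    norm_num
  have h1 := tau_shape (isUnit_one.neg.pow j) (2 * j) hp
  have h2 : cb ((3 ^ j : ℤ) : O) (m : O) = 1 :=
    cb_int hp.coprime_three (by push_cast; exact hp.coprime_three.symm.pow_left)
  push_cast at h2
  rw [pow_succ, ← mul_assoc, ← e, cb_mul_left, h2, cb_lam_int hp] at h1
  rw [h1, mul_one, mul_one]

/-- `m = ± 3^j m'`; `tau_neg`, `tau_shape` (`3 = -λ²`), `cb_lam_int`, `tau_bound` -/
theorem sum_tq {s : ℝ} (hs : 2 < s) :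
    ∑' h : O, tq h * ((√(nm h) ^ (-s) : ℝ) : ℂ) = 2 * PP3 ((3 : ℝ) ^ (-s)) * ZZ tau0 s := by
  classical
  let T := {m : ℤ // 3 ∣ m - 1}
  let φ : Bool × ℕ × T → O := fun x => (((if x.1 then 1 else -1) * (3 ^ x.2.1 * x.2.2.1) : ℤ) : O)
  have hφ : Function.Injective φ := by
    rintro ⟨b, j, m, hm⟩ ⟨b', j', m', hm'⟩ h
    have h1 := Int.cast_injective (α := O) h
    rcases le_total j j' with hj | hj
    · obtain ⟨rfl, rfl, rfl⟩ := ratc_inj hm hm' hj h1
      rfl
    · obtain ⟨rfl, rfl, rfl⟩ := ratc_inj hm' hm hj h1.symm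
      rfl
  have hX : (3 : ℝ) ^ (-s) < 1 / 2 := by
    calc (3 : ℝ) ^ (-s) ≤ (3 : ℝ) ^ (-1 : ℝ) :=
          Real.rpow_le_rpow_of_exponent_le (by norm_num) (by linarith)
      _ < 1 / 2 := by rw [Real.rpow_neg_one]; norm_num
  have su := ratc_summ (by positivity) hX
  have sv := (summable_ZZ (a := tau0) (θ := 1 / 3) (s := s) (fun m => by
    refine (norm_tau0_le _).trans_eq ?_
    rw [← sqrt_nm_int, Real.sqrt_eq_rpow, ← Real.rpow_mul (nm_nonneg _)]
    norm_num) (by linarith)).comp_injective (Subtype.val_injective (p := fun m : ℤ => 3 ∣ m - 1))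
  have sb : Summable fun _ : Bool => ‖(1 : ℂ)‖ := Summable.of_finite
  have e2 : (2 : ℂ) = ∑' _ : Bool, (1 : ℂ) := by simp
  rw [ZZ, ← (Subtype.val_injective (p := fun m : ℤ => 3 ∣ m - 1)).tsum_eq, PP3, mul_assoc,
    tsum_mul_tsum_of_summable_norm su sv, e2, tsum_mul_tsum_of_summable_norm sb (su.mul_norm sv),
    ← hφ.tsum_eq]
  · refine tsum_congr ?_
    rintro ⟨b, j, m, hm⟩
    have h1 : tau (φ (b, j, ⟨m, hm⟩)) = tau (3 ^ j) * tau0 m := by
      rw [← ratc_tau j hm]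
      cases b <;> simp [φ, tau_neg]
    have h2 : √(nm (φ (b, j, ⟨m, hm⟩))) = 3 ^ j * |(m : ℝ)| := by
      rw [sqrt_nm_int]
      cases b <;> simp [abs_mul]
    have h3 : ((3 : ℝ) ^ j) ^ (-s) = ((3 : ℝ) ^ (-s)) ^ j := by
      rw [← Real.rpow_natCast, ← Real.rpow_mul (by norm_num), mul_comm,
        Real.rpow_mul (by norm_num), Real.rpow_natCast]
    rw [tq, if_pos (cj_int _), h1, h2, Real.mul_rpow (by positivity) (abs_nonneg _), h3]
    simp only [if_pos hm]
    push_cast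
    ring
  · intro h hh
    have h1 : tq h ≠ 0 := left_ne_zero_of_mul hh
    have h2 : cj h = h := by
      by_contra h2
      exact h1 (if_neg h2)
    obtain ⟨n, rfl⟩ := exists_int_of_cj h2
    have hn : n ≠ 0 := by
      rintro rfl
      apply h1
      rw [tq, if_pos h2, Int.cast_zero, D.tau_zero]
    obtain ⟨m, hm, h3⟩ := (Int.finiteMultiplicity_iff.2
      ⟨by norm_num, hn⟩ : FiniteMultiplicity (3 : ℤ) n).exists_eq_pow_mul_and_not_dvd
    by_cases h4 : 3 ∣ m - 1
    · exact ⟨(true, multiplicity 3 n, ⟨m, h4⟩), congrArg Int.cast (by simpa using hm.symm)⟩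
    · exact ⟨(false, multiplicity 3 n, ⟨-m, by omega⟩), congrArg Int.cast (by simpa using hm.symm)⟩
  · intro m hm
    refine ⟨⟨m, ?_⟩, rfl⟩
    by_contra h
    exact hm (if_neg h)

theorem ratc_rec (j : ℕ) : tau (3 ^ (j + 8)) = 10 / 3 * tau (3 ^ (j + 5)) - tau (3 ^ (j + 2)) := by
  have e3 : (3 : O) = -lam ^ 2 := by rw [lam_sq, neg_neg]
  have hk : lam ^ 3 ∣ (3 : O) ^ (j + 2) := ⟨3 ^ j * lam, by
    rw [pow_add]
    linear_combination (3 ^ j * (3 - lam ^ 2)) * lam_sq⟩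
  set k : O := 3 ^ (j + 2) with hk0
  have h1 := tau_lam hk
  have h2 := tau_lam (hk.mul_right (lam ^ 3))
  have h3 := tau_lam (hk.mul_right (lam ^ 6))
  have e6 : k * lam ^ 6 = -3 ^ (j + 5) := by
    rw [show lam ^ 6 = (lam ^ 2) ^ 3 by ring, lam_sq, hk0]
    ring
  have e12 : k * lam ^ 6 * lam ^ 6 = 3 ^ (j + 8) := by
    rw [show lam ^ 6 = (lam ^ 2) ^ 3 by ring, lam_sq, hk0]
    ring
  rw [e12, mul_right_comm k (lam ^ 6), h2, mul_assoc k, ← pow_add] at h3
  have hs : ((√3 : ℝ) : ℂ) ^ 2 = 3 := by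
    rw [← Complex.ofReal_pow, Real.sq_sqrt (by norm_num)]
    norm_num
  have hs0 : ((√3 : ℝ) : ℂ) ≠ 0 := fun h => by
    rw [h] at hs
    norm_num at hs
  have hA : (((√3 : ℝ) : ℂ) + ((√3 : ℝ) : ℂ)⁻¹) ^ 2 = 16 / 3 := by
    rw [add_sq, mul_assoc, mul_inv_cancel₀ hs0, inv_pow, hs]
    norm_num
  rw [← tau_neg (3 ^ (j + 5)), ← e6]
  linear_combination h3 + h1 + tau (k * lam ^ 6) * hA

/-- `tau_lam` three times: `w (j+6) = (10/3) w (j+3) - w j` for `j ≥ 2`, `w j = tau (3^j)` -/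
theorem PP3_eq {X : ℝ} (h0 : 0 < X) (hX : X < 1 / 2) :
    PP3 X * (1 - 10 / 3 * (X : ℂ) ^ 3 + (X : ℂ) ^ 6) =
      tau 1 + tau 3 * X + tau (3 ^ 2) * X ^ 2 + (tau (3 ^ 3) - 10 / 3 * tau 1) * X ^ 3 +
        (tau (3 ^ 4) - 10 / 3 * tau 3) * X ^ 4 + (tau (3 ^ 5) - 10 / 3 * tau (3 ^ 2)) * X ^ 5 +
        (tau (3 ^ 6) - 10 / 3 * tau (3 ^ 3) + tau 1) * X ^ 6 +
        (tau (3 ^ 7) - 10 / 3 * tau (3 ^ 4) + tau 3) * X ^ 7 := by
  have su := (ratc_summ h0.le hX).of_norm
  have e8 := su.sum_add_tsum_nat_add 8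
  have e5 := su.sum_add_tsum_nat_add 5
  have e2 := su.sum_add_tsum_nat_add 2
  have er : ∑' j : ℕ, tau (3 ^ (j + 8)) * (X : ℂ) ^ (j + 8) =
      10 / 3 * (X : ℂ) ^ 3 * ∑' j : ℕ, tau (3 ^ (j + 5)) * (X : ℂ) ^ (j + 5) -
        (X : ℂ) ^ 6 * ∑' j : ℕ, tau (3 ^ (j + 2)) * (X : ℂ) ^ (j + 2) := by
    rw [← tsum_mul_left, ← tsum_mul_left, ← (((summable_nat_add_iff 5).2 su).mul_left _).tsum_sub
      (((summable_nat_add_iff 2).2 su).mul_left _)]
    refine tsum_congr fun j => ?_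
    rw [ratc_rec]
    ring
  simp only [Finset.sum_range_succ, Finset.range_zero, Finset.sum_empty, pow_zero, pow_one,
    zero_add] at e8 e5 e2
  rw [PP3]
  linear_combination -e8 + 10 / 3 * (X : ℂ) ^ 3 * e5 - (X : ℂ) ^ 6 * e2 + er

end Crest.Agent.R12.TH
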