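import Crest.Agent.R12.TH.Unf
import Crest.Agent.R12.TH.Rat

/-! Row 12, block TH: the period relation. -/

set_option autoImplicit false

namespace Crest.Agent.R12.TH

open Crest.Agent.R17 Crest.Agent.R17.D
open Complex MeasureTheory Filter Set
open scoped Real Topology ComplexConjugate UpperHalfPlane MatrixGroups

theorem Qf_real (z : ℍ) (x y : ℂ) :
    Qf (z.re : ℝ) z.im x y = (‖x * z + y‖ ^ 2 + ‖x * conj (z : ℂ) + y‖ ^ 2) / (2 * z.im) := by
  have h := parallelogram_law_with_norm ℝ (x * (z.re : ℝ) + y) (x * ((z.im : ℝ) * I))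
  have e1 : x * (z.re : ℝ) + y + x * ((z.im : ℝ) * I) = x * z + y := by
    conv_rhs => rw [← Complex.re_add_im (z : ℂ), UpperHalfPlane.coe_re, UpperHalfPlane.coe_im]
    ring
  have e2 : x * (z.re : ℝ) + y - x * ((z.im : ℝ) * I) = x * conj (z : ℂ) + y := by
    conv_rhs => rw [← Complex.re_add_im (conj (z : ℂ)), conj_re, conj_im, UpperHalfPlane.coe_re,
      UpperHalfPlane.coe_im]
    push_cast
    ring
  have hz := z.im_pos
  rw [e1, e2, norm_mul, norm_mul, norm_I, norm_real, Real.norm_of_nonneg hz.le, mul_one,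
    mul_pow] at h
  rw [h, Qf, mul_div_mul_left _ _ two_ne_zero]

theorem pera_Qf (γ : SL(2, ℤ)) (z : ℍ) (x y : ℂ) :
    Qf ((γ • z).re : ℝ) (γ • z).im x y =
      Qf (z.re : ℝ) z.im (x * (γ 0 0 : ℤ) + y * (γ 1 0 : ℤ)) (x * (γ 0 1 : ℤ) + y * (γ 1 1 : ℤ)) := by
  have hd : ((γ 1 0 : ℤ) : ℂ) * z + (γ 1 1 : ℤ) ≠ 0 := by
    have := UpperHalfPlane.denom_ne_zero γ z
    rwa [ModularGroup.denom_apply] at this
  have hd' : ((γ 1 0 : ℤ) : ℂ) * conj (z : ℂ) + (γ 1 1 : ℤ) ≠ 0 := by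
    simpa using (map_ne_zero (starRingEnd ℂ)).2 hd
  have hn : ‖((γ 1 0 : ℤ) : ℂ) * conj (z : ℂ) + (γ 1 1 : ℤ)‖ =
      ‖((γ 1 0 : ℤ) : ℂ) * z + (γ 1 1 : ℤ)‖ := by
    rw [← norm_conj]
    simp
  have hc : ((γ • z : ℍ) : ℂ) =
      (((γ 0 0 : ℤ) : ℂ) * z + (γ 0 1 : ℤ)) / (((γ 1 0 : ℤ) : ℂ) * z + (γ 1 1 : ℤ)) := by
    simpa using UpperHalfPlane.coe_specialLinearGroup_apply γ z
  have e1 : x * ((γ • z : ℍ) : ℂ) + y = ((x * (γ 0 0 : ℤ) + y * (γ 1 0 : ℤ)) * z +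
      (x * (γ 0 1 : ℤ) + y * (γ 1 1 : ℤ))) / (((γ 1 0 : ℤ) : ℂ) * z + (γ 1 1 : ℤ)) := by
    rw [hc, ← mul_div_assoc, div_add' _ _ _ hd]
    congr 1
    ring
  have e2 : x * conj ((γ • z : ℍ) : ℂ) + y = ((x * (γ 0 0 : ℤ) + y * (γ 1 0 : ℤ)) * conj (z : ℂ) +
      (x * (γ 0 1 : ℤ) + y * (γ 1 1 : ℤ))) / (((γ 1 0 : ℤ) : ℂ) * conj (z : ℂ) + (γ 1 1 : ℤ)) := by
    rw [hc]
    simp only [map_div₀, map_add, map_mul, map_intCast]
    rw [← mul_div_assoc, div_add' _ _ _ hd']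
    congr 1
    ring
  have hz := z.im_pos
  have hp := norm_pos_iff.2 hd
  rw [Qf_real, Qf_real, e1, e2, ModularGroup.im_smul_eq_div_normSq, ModularGroup.denom_apply,
    norm_div, norm_div, hn, normSq_eq_norm_sq]
  field_simp

/-- `Qf_real`, `TH_aut`, `rho_int` -/
theorem ph_smul (γ : SL(2, ℤ)) (z : ℍ) : ph (γ • z) = ph z := by
  have hdet : γ 0 0 * γ 1 1 - γ 0 1 * γ 1 0 = 1 := by
    have := γ.det_coe
    rwa [Matrix.det_fin_two] at this
  have hr : ∀ m : ℤ, Rt (m : O) := fun m => ⟨m, by simp⟩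
  have h := TH_aut (hr (γ 0 0)) (hr (γ 0 1)) (hr (γ 1 0)) (hr (γ 1 1))
    (by exact_mod_cast congrArg (Int.cast : ℤ → O) hdet) (Qf (z.re : ℝ) z.im)
  rw [rho_int ⟨-γ 0 1, γ 0 0, by linear_combination hdet⟩, map_one, one_mul] at h
  unfold ph theta
  rw [← h]
  congr 1
  funext x y
  simp only [map_intCast]
  exact pera_Qf γ z x y

/-- `tau_bound`, `JJ_decay`, `summable_nm_rpow` -/
theorem tau_JJ_le {A : ℝ} (hA : 3 ≤ A) : ∃ C : ℝ, ∀ v : ℝ, 0 < v →
    Summable (fun h : O => ‖tau h * JJ h v‖) ∧ ∑' h : O, ‖tau h * JJ h v‖ ≤ C * v ^ (1 - A) := by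
  obtain ⟨C₁, h₁⟩ := tau_bound
  obtain ⟨C₂, h₂⟩ := JJ_decay (A := A) (by linarith)
  have hs := summable_nm_rpow (σ := A / 2 - 1 / 6) (by linarith)
  refine ⟨C₁ * C₂ * ∑' n : O, nm n ^ (-(A / 2 - 1 / 6)), fun v hv => ⟨thb_summable hv, ?_⟩⟩
  refine ((thb_summable hv).tsum_le_tsum (fun h => ?_)
    (hs.mul_left (C₁ * C₂ * v ^ (1 - A)))).trans_eq (by rw [tsum_mul_left]; ring)
  by_cases hh : h = 0
  · rw [hh, D.tau_zero, zero_mul, norm_zero, nm_zero, Real.zero_rpow (by linarith), mul_zero]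
  · rw [norm_mul]
    refine (mul_le_mul (h₁ h) (h₂ h v hh hv) (norm_nonneg _)
      ((norm_nonneg _).trans (h₁ h))).trans_eq ?_
    rw [show -(A / 2 - 1 / 6) = 1 / 6 + -(A / 2) by ring, Real.rpow_add (nm_pos hh)]
    ring

theorem pera_tq (h : O) : ‖tq h‖ ≤ ‖tau h‖ := by
  unfold tq
  split_ifs
  · exact le_rfl
  · rw [norm_zero]
    exact norm_nonneg _

theorem norm_bq_le {A : ℝ} (hA : 3 ≤ A) : ∃ C : ℝ, ∀ v : ℝ, 0 < v → ‖bq v‖ ≤ C * v ^ (1 - A) := by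
  obtain ⟨C, hC⟩ := tau_JJ_le hA
  refine ⟨C, fun v hv => ?_⟩
  have h1 : ∀ h : O, ‖tq h * JJ h v‖ ≤ ‖tau h * JJ h v‖ := fun h => by
    rw [norm_mul, norm_mul]
    exact mul_le_mul_of_nonneg_right (pera_tq h) (norm_nonneg _)
  have h2 := Summable.of_nonneg_of_le (fun _ => norm_nonneg _) h1 (hC v hv).1
  exact (norm_tsum_le_tsum_norm h2).trans ((h2.tsum_le_tsum h1 (hC v hv).1).trans (hC v hv).2)

theorem continuousOn_bq : ContinuousOn bq (Ioi 0) := by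
  obtain ⟨C, hC⟩ := tau_bound
  have h0 : tq 0 = 0 := norm_le_zero_iff.1 (by simpa [D.tau_zero] using pera_tq 0)
  refine ser_continuousOn (C := |C|) h0 fun h => ?_
  by_cases hh : h = 0
  · rw [hh, h0, norm_zero, nm_zero, mul_zero]
  · refine (pera_tq h).trans ((hC h).trans (mul_le_mul (le_abs_self C) ?_
      (Real.rpow_nonneg (nm_nonneg h) _) (abs_nonneg C)))
    exact Real.rpow_le_self_of_one_le (one_le_nm hh) (by norm_num)

theorem pera_meas (h : O) : Measurable (JJ h) := by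
  have h1 := (measurable_KB (1 / 3)).comp
    (by fun_prop : Measurable fun v : ℝ => ((0 : ℝ), v * √(bt * nm h)))
  have h2 : Measurable fun v : ℝ => KB (1 / 3) (v * √(bt * nm h)) := by
    simpa [Function.comp_def] using h1
  exact measurable_ofReal.mul h2

theorem aesm_theta : AEStronglyMeasurable
    (Function.uncurry fun x v : ℝ => ∑' h : O, tau h * JJ h v * eC (sg h * (x : ℂ) / 3))
    (volume.prod (volume.restrict (Ioi (0 : ℝ)))) := by
  have : Countable O := crd.symm.injective.countable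
  refine (Measurable.tsum (f := fun (h : O) (p : ℝ × ℝ) =>
    tau h * JJ h p.2 * eC (sg h * (p.1 : ℂ) / 3)) fun h => ?_).aestronglyMeasurable
  exact (((pera_meas h).comp measurable_snd).const_mul _).mul
    (continuous_eC.comp (by fun_prop)).measurable

theorem pera_int (h : O) : tau h * ∫ x in Ico (0 : ℝ) 1, eC (sg h * (x : ℂ) / 3) = tq h := by
  by_cases hr : Rt h
  swap
  · rw [tau_eq_zero hr, zero_mul, eq_comm, ← norm_le_zero_iff]
    simpa [tau_eq_zero hr] using pera_tq h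
  obtain ⟨m, n, rfl⟩ := exists_coord h
  obtain ⟨j, hj⟩ := hr
  have h1 : ((3 : ℤ) : O) ∣ ((m - j : ℤ) : O) + n * om := by
    have e : ((m - j : ℤ) : O) + n * om = m + n * om - j := by
      push_cast
      ring
    rw [e, Int.cast_ofNat]
    exact hj
  obtain ⟨k, rfl⟩ := (int_dvd_coord.1 h1).2
  have h2 : ∀ x : ℝ, eC (sg ((m : O) + ((3 * k : ℤ) : O) * om) * (x : ℂ) / 3) =
      cexp (2 * π * I * k * x) := fun x => by
    have h3 := eC_coord (m * x / 3) (k * x)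
    rw [mul_assoc _ (k : ℂ)]
    push_cast at h3
    rw [← h3]
    congr 1
    simp only [map_add, map_mul, map_intCast, Int.cast_mul, Int.cast_ofNat, map_ofNat]
    ring
  simp only [h2]
  unfold tq
  by_cases hk : k = 0
  · subst hk
    rw [if_pos (by simp)]
    simp
  · rw [if_neg, integral_Ico_eq_integral_Ioc, ← intervalIntegral.integral_of_le zero_le_one,
      integral_exp_mul_complex (by simp [hk, Real.pi_ne_zero])]
    · have h4 := exp_int_mul_two_pi_mul_I k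
      rw [mul_comm] at h4
      simp [h4]
    · intro h3
      obtain ⟨m', hm'⟩ := exists_int_of_cj h3
      have h4 : (m : O) + ((3 * k : ℤ) : O) * om = (m' : O) + ((0 : ℤ) : O) * om := by
        rw [hm']
        simp
      have := (coord_inj.1 h4).2
      omega

/-- `h = m + 3 k ω` on the support of `tau`, `eC (sg h * x / 3) = exp (2 π i k x)` -/
theorem four_x {v : ℝ} (hv : 0 < v) :
    ∫ x in Ico (0 : ℝ) 1, ∑' h : O, tau h * JJ h v * eC (sg h * (x : ℂ) / 3) = bq v := by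
  have : Countable O := crd.symm.injective.countable
  rw [← integral_tsum_of_summable_integral_norm]
  · refine tsum_congr fun h => ?_
    rw [integral_const_mul, mul_right_comm, pera_int]
  · intro h
    have hc : Continuous fun x : ℝ => tau h * JJ h v * eC (sg h * (x : ℂ) / 3) :=
      continuous_const.mul (continuous_eC.comp (by fun_prop))
    exact (hc.integrableOn_Icc).mono_set Ico_subset_Icc_self
  · simpa using thb_summable hv

theorem perb_div {t : ℝ} (ht : 0 < t) {f : ℝ → ℝ} (hf : ContinuousOn f (Ioi 0)) :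
    AEStronglyMeasurable (fun v : ℝ => (f (t / v) : ℂ)) (volume.restrict (Ioi 0)) := by
  refine ContinuousOn.aestronglyMeasurable (continuous_ofReal.comp_continuousOn (hf.comp
    (continuousOn_const.div continuousOn_id fun v hv => ne_of_gt hv) fun v hv => ?_)) measurableSet_Ioi
  exact div_pos ht hv

/-- the series part -/
theorem perb_ser {t : ℝ} (ht : 0 < t) :
    Integrable (fun z : ℍ => st z *
      ((∑' h : O, tau h * JJ h z.im * eC (sg h * ((z.re : ℝ) : ℂ) / 3)) * (ps (t / z.im) : ℝ))) ∧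
    ∫ z : ℍ, st z *
      ((∑' h : O, tau h * JJ h z.im * eC (sg h * ((z.re : ℝ) : ℂ) / 3)) * (ps (t / z.im) : ℝ)) = AT t := by
  obtain ⟨C, hC⟩ := tau_JJ_le (A := 3) le_rfl
  have h1 := (int_div (mellin_ps (s := 3) (by norm_num)).1 ht).1
  have h := strip_int
    (F := fun x v => (∑' h : O, tau h * JJ h v * eC (sg h * (x : ℂ) / 3)) * (ps (t / v) : ℝ))
    (aesm_theta.mul (perb_div ht continuousOn_ps).comp_snd)
    (B := fun v => C * v ^ (1 - 3 : ℝ) * ps (t / v)) ?_ ?_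
  · refine ⟨h.1, h.2.trans (setIntegral_congr_fun measurableSet_Ioi fun v hv => ?_)⟩
    simp only [integral_mul_const, four_x hv]
  · refine (h1.norm.const_mul C).congr ((ae_restrict_iff' measurableSet_Ioi).2
      (Eventually.of_forall fun v hv => ?_))
    have hv : 0 < v := hv
    simp only [norm_mul, norm_cpow_eq_rpow_re_of_pos hv, norm_real,
      Real.norm_of_nonneg (ps_nonneg (div_pos ht hv))]
    have e : ((-3 : ℂ) - 1).re = (1 - 3 : ℝ) - (2 : ℕ) := by norm_num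
    rw [e, Real.rpow_sub_natCast hv.ne']
    ring
  · intro x v hv
    rw [norm_mul, norm_real, Real.norm_of_nonneg (ps_nonneg (div_pos ht hv))]
    refine mul_le_mul_of_nonneg_right ?_ (ps_nonneg (div_pos ht hv))
    refine le_trans (tsum_of_norm_bounded (hC v hv).1.hasSum fun h => ?_) (hC v hv).2
    rw [norm_mul, norm_eC, mul_one]

/-- the constant term -/
theorem perb_const {t : ℝ} (ht : 0 < t) :
    Integrable (fun z : ℍ => st z * (((z.im ^ (2 / 3 : ℝ) : ℝ) : ℂ) * (gg (t / z.im) : ℝ))) ∧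
    ∫ z : ℍ, st z * (((z.im ^ (2 / 3 : ℝ) : ℝ) : ℂ) * (gg (t / z.im) : ℝ)) =
      ((t ^ (-(1 / 3) : ℝ) : ℝ) : ℂ) * kap := by
  obtain ⟨h1, h2⟩ := int_div mellin_gg.1 ht
  have hr : ∀ a : ℝ, ContinuousOn (fun v : ℝ => v ^ a) (Ioi 0) := fun a =>
    continuousOn_id.rpow_const fun v hv => .inl (ne_of_gt hv)
  have e : ∀ v ∈ Ioi (0 : ℝ), (v : ℂ) ^ (-(1 / 3 : ℂ) - 1) * (gg (t / v) : ℝ) =
      ((v ^ (2 / 3 : ℝ) : ℝ) : ℂ) * (gg (t / v) : ℝ) / (v : ℂ) ^ 2 := fun v hv => by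
    have hv : 0 < v := hv
    have e1 : (-(1 / 3 : ℂ) - 1) = (((2 / 3 : ℝ) - (2 : ℕ) : ℝ) : ℂ) := by
      push_cast
      norm_num
    rw [e1, ← ofReal_cpow hv.le, Real.rpow_sub_natCast hv.ne']
    push_cast
    ring
  have h := strip_int (F := fun _ v => ((v ^ (2 / 3 : ℝ) : ℝ) : ℂ) * (gg (t / v) : ℝ))
    ((((continuous_ofReal.comp_continuousOn (hr _)).aestronglyMeasurable measurableSet_Ioi).mul
      (perb_div ht (continuousOn_ps.sub (hr _)))).comp_snd)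
    (B := fun v => ‖((v ^ (2 / 3 : ℝ) : ℝ) : ℂ) * (gg (t / v) : ℝ)‖) ?_ fun _ _ _ => le_rfl
  · refine ⟨h.1, h.2.trans ?_⟩
    have e2 : (-(1 / 3 : ℂ)) = ((-(1 / 3) : ℝ) : ℂ) := by
      push_cast
      rfl
    rw [ofReal_cpow ht.le, ← e2, kap, ← h2]
    refine setIntegral_congr_fun measurableSet_Ioi fun v hv => ?_
    simp only [e v hv]
    simp
  · refine h1.norm.congr ((ae_restrict_iff' measurableSet_Ioi).2 (Eventually.of_forall fun v hv => ?_))
    simp only [e v hv]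
    rw [norm_div, norm_pow, norm_real, Real.norm_of_nonneg (le_of_lt hv)]

theorem perb_lin {f1 f2 f3 f4 : ℍ → ℂ} (h1 : Integrable f1) (h2 : Integrable f2) (h3 : Integrable f3)
    (h4 : Integrable f4) (a b : ℂ) :
    Integrable (fun z => a * (f1 z - b * f2 z) + f3 z - b * f4 z) ∧
      ∫ z, a * (f1 z - b * f2 z) + f3 z - b * f4 z =
        a * ((∫ z, f1 z) - b * ∫ z, f2 z) + (∫ z, f3 z) - b * ∫ z, f4 z := by
  have i1 : Integrable fun z => a * (f1 z - b * f2 z) := (h1.sub (h2.const_mul b)).const_mul a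
  have i2 : Integrable fun z => a * (f1 z - b * f2 z) + f3 z := i1.add h3
  refine ⟨i2.sub (h4.const_mul b), ?_⟩
  rw [integral_sub i2 (h4.const_mul b), integral_add i1 h3, integral_const_mul,
    integral_sub h1 (h2.const_mul b), integral_const_mul, integral_const_mul]

/-- the integral of `st · ph · GT t (1/v)`: split `ph` by `theta_expand`; use `GT_eq` with the
constant term and the definition of `GT` with the series; `strip_int`, `int_div`. -/
theorem int_GT {t : ℝ} (ht : 0 < t) :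
    Integrable (fun z : ℍ => st z * (ph z * (GT t z.im⁻¹ : ℝ))) ∧
      ∫ z : ℍ, st z * (ph z * (GT t z.im⁻¹ : ℝ)) =
        -(2 / 3) * kap * (((t ^ (-(1 / 3) : ℝ) - t ^ (-(2 / 3) : ℝ) : ℝ)) : ℂ) + AT t -
          (t : ℂ)⁻¹ * AT t⁻¹ := by
  obtain ⟨a1, a2⟩ := perb_ser ht
  obtain ⟨b1, b2⟩ := perb_ser (inv_pos.2 ht)
  obtain ⟨c1, c2⟩ := perb_const ht
  obtain ⟨d1, d2⟩ := perb_const (inv_pos.2 ht)
  have e : (fun z : ℍ => st z * (ph z * (GT t z.im⁻¹ : ℝ))) = fun z : ℍ =>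
      -(2 / 3) * (st z * (((z.im ^ (2 / 3 : ℝ) : ℝ) : ℂ) * (gg (t / z.im) : ℝ)) -
        (t : ℂ)⁻¹ * (st z * (((z.im ^ (2 / 3 : ℝ) : ℝ) : ℂ) * (gg (t⁻¹ / z.im) : ℝ)))) +
      st z * ((∑' h : O, tau h * JJ h z.im * eC (sg h * ((z.re : ℝ) : ℂ) / 3)) * (ps (t / z.im) : ℝ)) -
      (t : ℂ)⁻¹ * (st z * ((∑' h : O, tau h * JJ h z.im * eC (sg h * ((z.re : ℝ) : ℂ) / 3)) *
        (ps (t⁻¹ / z.im) : ℝ))) := by
    funext z
    have e1 : t * z.im⁻¹ = t / z.im := (div_eq_mul_inv _ _).symm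
    have e2 : z.im⁻¹ / t = t⁻¹ / z.im := by ring
    have h1 := congrArg ((↑) : ℝ → ℂ) (GT_eq ht (inv_pos.2 z.im_pos))
    have h2 : ((GT t z.im⁻¹ : ℝ) : ℂ) = ((ps (t * z.im⁻¹) - t⁻¹ * ps (z.im⁻¹ / t) : ℝ) : ℂ) := rfl
    rw [e1, e2, ofReal_sub, ofReal_mul, ofReal_inv] at h1 h2
    rw [ph, theta_expand _ z.im_pos]
    generalize (∑' h : O, tau h * JJ h z.im * eC (sg h * ((z.re : ℝ) : ℂ) / 3)) = S
    linear_combination st z * (-(2 / 3) * ((z.im ^ (2 / 3 : ℝ) : ℝ) : ℂ)) * h1 + st z * S * h2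
  obtain ⟨i1, i2⟩ := perb_lin c1 d1 a1 b1 (-(2 / 3)) (t : ℂ)⁻¹
  rw [e]
  refine ⟨i1, ?_⟩
  rw [i2, a2, b2, c2, d2]
  have e3 : t ^ (-(2 / 3) : ℝ) = t⁻¹ * t⁻¹ ^ (-(1 / 3) : ℝ) := by
    rw [Real.inv_rpow ht.le, ← Real.rpow_neg ht.le, ← Real.rpow_neg_one, ← Real.rpow_add ht]
    norm_num
  rw [e3]
  push_cast
  ring

/-- `unfold_SL` for `u_t - (t⁻¹ - 1) u_{1/2}` -/
theorem period : ∃ β : ℂ, ∀ t : ℝ, 0 < t → AT t = (t : ℂ)⁻¹ * AT t⁻¹ +
    2 / 3 * kap * (((t ^ (-(1 / 3) : ℝ) - t ^ (-(2 / 3) : ℝ) : ℝ)) : ℂ) + β * ((t : ℂ)⁻¹ - 1) := by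
  classical
  have hs : ∀ t : ℝ, 0 < t → ∀ z : ℍ, HasSum (fun γ : SL(2, ℤ) =>
      st (γ • z) * (ph (γ • z) * (GT t (γ • z).im⁻¹ : ℝ))) (ph z * (2 * ((t : ℂ)⁻¹ - 1))) := by
    intro t ht z
    have h1 := (hasSum_ofReal.2 (hasSum_GT z ht)).mul_left (ph z)
    have h2 := hasSum_SL z (U := fun r => ph z * (GT t (QZ z r) : ℝ))
      (a := ph z * (2 * ((t : ℂ)⁻¹ - 1))) (by
        simpa only [apply_ite ((↑) : ℝ → ℂ), mul_ite, ofReal_zero, mul_zero, ofReal_mul, ofReal_sub,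
          ofReal_inv, ofReal_one, ofReal_ofNat] using h1)
    simpa only [ph_smul, inv_im_smul] using h2
  refine ⟨∫ z : ℍ, st z * (ph z * (GT (1 / 2) z.im⁻¹ : ℝ)), fun t ht => ?_⟩
  obtain ⟨a1, a2⟩ := int_GT ht
  have b1 := (int_GT (t := 1 / 2) one_half_pos).1
  have h := unfold_SL (a1.sub (b1.const_mul ((t : ℂ)⁻¹ - 1))) fun z => by
    have := (hs t ht z).sub ((hs _ one_half_pos z).mul_left ((t : ℂ)⁻¹ - 1))
    have e : ph z * (2 * ((t : ℂ)⁻¹ - 1)) -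
        ((t : ℂ)⁻¹ - 1) * (ph z * (2 * ((((1 / 2 : ℝ) : ℂ))⁻¹ - 1))) = 0 := by
      push_cast
      ring
    rw [e] at this
    exact this
  simp only [Pi.sub_apply] at h
  rw [integral_sub a1 (b1.const_mul _), integral_const_mul, a2] at h
  linear_combination h

end Crest.Agent.R12.TH
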