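import Crest.Agent.R12.TH.CDefs

/-! Row 12, block TH: the kernel `ps`. -/

set_option autoImplicit false

namespace Crest.Agent.R12.TH

open Crest.Agent.R17 Crest.Agent.R17.D
open Complex MeasureTheory Filter Set
open scoped Real Topology ComplexConjugate UpperHalfPlane MatrixGroups

theorem hasSum_ps {y : ℝ} (hy : 0 < y) :
    HasSum (fun k : ℤ => if k = 0 then 0 else Real.exp (-π * k ^ 2 * y)) (ps y) := by
  simpa [ps] using HurwitzZeta.hasSum_int_evenKernel₀ 0 hy

theorem ps_nonneg {y : ℝ} (hy : 0 < y) : 0 ≤ ps y :=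
  (hasSum_ps hy).nonneg fun k => by positivity

theorem continuousOn_ps : ContinuousOn ps (Ioi 0) :=
  (HurwitzZeta.continuousOn_evenKernel 0).sub continuousOn_const

/-- `(HurwitzZeta.hurwitzEvenFEPair 0).hasMellin` -/
theorem mellin_ps {s : ℂ} (hs : 1 / 2 < s.re) :
    MellinConvergent (fun y => (ps y : ℂ)) s ∧
      mellin (fun y => (ps y : ℂ)) s = 2 * completedRiemannZeta (2 * s) := by
  have h := (HurwitzZeta.hurwitzEvenFEPair 0).hasMellin (s := s) hs
  have e : (fun y => (HurwitzZeta.hurwitzEvenFEPair 0).f y - (HurwitzZeta.hurwitzEvenFEPair 0).f₀) =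
      fun y => (ps y : ℂ) := by
    funext y
    simp [ps, HurwitzZeta.hurwitzEvenFEPair]
  rw [e] at h
  refine ⟨h.1, ?_⟩
  rw [h.2, completedRiemannZeta, HurwitzZeta.completedHurwitzZetaEven,
    mul_div_cancel_left₀ s two_ne_zero]
  ring

/-- `evenKernel_functional_equation` -/
theorem gg_inv {y : ℝ} (hy : 0 < y) : gg y⁻¹ = y ^ (1 / 2 : ℝ) * gg y := by
  have h := HurwitzZeta.evenKernel_functional_equation 0 y
  have h1 : 0 < y ^ (1 / 2 : ℝ) := by positivity
  rw [← HurwitzZeta.evenKernel_eq_cosKernel_of_zero, one_div y] at h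
  rw [gg, gg, ps, ps, h, Real.inv_rpow hy.le, Real.rpow_neg hy.le, inv_inv]
  field_simp
  ring

/-- `y ≥ 1`: `exp (-x) ≤ 1/(2x)`, `hasSum_zeta_two`, `π/6 < 1`; `y < 1`: `gg_inv` -/
theorem gg_neg {y : ℝ} (hy : 0 < y) : gg y < 0 := by
  have key : ∀ y : ℝ, 1 ≤ y → gg y < 0 := fun y h1 => by
    have hy : 0 < y := by linarith
    have h2 : HasSum (fun k : ℤ => 1 / (k : ℝ) ^ 2) (π ^ 2 / 6 + π ^ 2 / 6 - 1 / ((0 : ℤ) : ℝ) ^ 2) :=
      HasSum.of_nat_of_neg (by simpa using hasSum_zeta_two) (by simpa using hasSum_zeta_two)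
    have h3 := hasSum_le (fun k => ?_) (hasSum_ps hy) (h2.mul_left (1 / (2 * π * y)))
    · have h4 : y⁻¹ ≤ y ^ (-(1 / 2) : ℝ) := by
        rw [← Real.rpow_neg_one]
        exact Real.rpow_le_rpow_of_exponent_le h1 (by norm_num)
      have h5 : 1 / (2 * π * y) * (π ^ 2 / 6 + π ^ 2 / 6 - 1 / ((0 : ℤ) : ℝ) ^ 2) = π / 6 * y⁻¹ := by
        simp only [Int.cast_zero, ne_eq, OfNat.ofNat_ne_zero, not_false_eq_true, zero_pow,
          div_zero, sub_zero]
        field_simp
        norm_num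
      rw [h5] at h3
      rw [gg]
      nlinarith [Real.pi_le_four, inv_pos.2 hy]
    · split_ifs with hk
      · positivity
      · have h4 : 0 < π * (k : ℝ) ^ 2 * y := by positivity
        have h5 := Real.quadratic_le_exp_of_nonneg h4.le
        rw [one_div_mul_one_div, neg_mul, neg_mul, Real.exp_neg, ← one_div]
        exact one_div_le_one_div_of_le (by positivity)
          (by nlinarith [sq_nonneg (π * (k : ℝ) ^ 2 * y - 1)])
  rcases le_total 1 y with h | h
  · exact key y h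
  · have h1 := key y⁻¹ ((one_le_inv₀ hy).2 h)
    rw [gg_inv hy] at h1
    exact neg_of_mul_neg_left (by rwa [mul_comm] at h1) (Real.rpow_pos_of_pos hy (1 / 2)).le

theorem psb_tail : HasMellin ((Ioi (1 : ℝ)).indicator fun x : ℝ => (x : ℂ) ^ (-(1 / 2) : ℂ))
    (1 / 3) 6 := by
  have hre : (-(7 / 6) : ℂ).re < -1 := by norm_num
  have e : ∀ y ∈ Ioi (1 : ℝ), (y : ℂ) ^ ((1 / 3 : ℂ) - 1) • (y : ℂ) ^ (-(1 / 2) : ℂ) =
      (y : ℂ) ^ (-(7 / 6) : ℂ) := by
    intro y (hy : 1 < y)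
    rw [smul_eq_mul, ← cpow_add _ _ (ofReal_ne_zero.2 (by linarith))]
    norm_num
  constructor
  · unfold MellinConvergent
    simp_rw [← indicator_smul]
    rw [IntegrableOn, integrable_indicator_iff measurableSet_Ioi, IntegrableOn,
      Measure.restrict_restrict measurableSet_Ioi, inter_eq_left.2 (Ioi_subset_Ioi zero_le_one)]
    exact (integrableOn_Ioi_cpow_of_lt hre one_pos).congr_fun (fun y hy => (e y hy).symm)
      measurableSet_Ioi
  · unfold mellin
    simp_rw [← indicator_smul]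
    rw [setIntegral_indicator measurableSet_Ioi, inter_eq_right.2 (Ioi_subset_Ioi zero_le_one),
      setIntegral_congr_fun measurableSet_Ioi e, integral_Ioi_cpow_of_lt hre one_pos]
    norm_num

/-- `gg = f_modif - 1_{(1,∞)} y^{-1/2} - 1_{(0,1)}` for `hurwitzEvenFEPair 0` -/
theorem mellin_gg : MellinConvergent (fun y => (gg y : ℂ)) (1 / 3) ∧
    kap = 2 * completedRiemannZeta (2 / 3) := by
  set P := HurwitzZeta.hurwitzEvenFEPair 0 with hP
  have h0 : HasMellin P.f_modif (1 / 3) (P.Λ₀ (1 / 3)) :=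
    ⟨(P.isStrongFEPair_toStrongFEPair.hasMellin (1 / 3)).1, rfl⟩
  have h1 := hasMellin_one_Ioc (s := 1 / 3) (by norm_num)
  have h2 := hasMellin_sub h0.1 h1.1
  have h3 := hasMellin_sub h2.1 psb_tail.1
  have hae : ∀ᵐ (y : ℝ) ∂(volume.restrict (Ioi (0 : ℝ))), (y : ℂ) ^ ((1 / 3 : ℂ) - 1) •
      (P.f_modif y - (Ioc (0 : ℝ) 1).indicator (fun _ => (1 : ℂ)) y -
        (Ioi (1 : ℝ)).indicator (fun x : ℝ => (x : ℂ) ^ (-(1 / 2) : ℂ)) y) =
      (y : ℂ) ^ ((1 / 3 : ℂ) - 1) • (gg y : ℂ) := by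
    refine (ae_restrict_iff' measurableSet_Ioi).2 ?_
    filter_upwards [compl_mem_ae_iff.2 (measure_singleton (1 : ℝ))] with y (hy1 : y ≠ 1)
      (hy : 0 < y)
    congr 1
    have e : (y : ℂ) ^ (-(1 / 2) : ℂ) = ((y ^ (-(1 / 2) : ℝ) : ℝ) : ℂ) := by
      rw [ofReal_cpow hy.le]; push_cast; rfl
    rcases lt_or_gt_of_ne hy1 with h | h
    · rw [WeakFEPair.f_modif, Pi.add_apply, indicator_of_notMem (notMem_Ioi.2 h.le),
        indicator_of_notMem (notMem_Ioi.2 h.le), indicator_of_mem (mem_Ioo.2 ⟨hy, h⟩),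
        indicator_of_mem (mem_Ioc.2 ⟨hy, h.le⟩)]
      simp only [hP, HurwitzZeta.hurwitzEvenFEPair, gg, ps, Function.comp]
      push_cast
      simp only [smul_eq_mul]
      ring
    · rw [WeakFEPair.f_modif, Pi.add_apply, indicator_of_mem (mem_Ioi.2 h),
        indicator_of_mem (mem_Ioi.2 h), indicator_of_notMem (notMem_Ioo_of_ge h.le),
        indicator_of_notMem (notMem_Ioc_of_gt h), e]
      simp only [hP, HurwitzZeta.hurwitzEvenFEPair, gg, ps, Function.comp]
      push_cast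
      simp
  refine ⟨h3.1.congr hae, ?_⟩
  have h4 : kap = _ := (integral_congr_ae hae).symm.trans h3.2
  rw [h4, h2.2, h0.2, h1.2, psb_tail.2, completedRiemannZeta, HurwitzZeta.completedHurwitzZetaEven,
    WeakFEPair.Λ, show (2 / 3 : ℂ) / 2 = 1 / 3 by norm_num, ← hP]
  simp only [hP, HurwitzZeta.hurwitzEvenFEPair, smul_eq_mul]
  norm_num
  ring

theorem kap_ne_zero : kap ≠ 0 := by
  intro h
  have e : ∀ y ∈ Ioi (0 : ℝ), (y : ℂ) ^ ((1 / 3 : ℂ) - 1) • (gg y : ℂ) =
      -((y ^ (-(2 / 3) : ℝ) * -gg y : ℝ) : ℂ) := by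
    intro y (hy : 0 < y)
    push_cast
    rw [ofReal_cpow hy.le, smul_eq_mul]
    norm_num
  have hi : IntegrableOn (fun y : ℝ => y ^ (-(2 / 3) : ℝ) * -gg y) (Ioi 0) := by
    have h1 := (IntegrableOn.congr_fun mellin_gg.1 e measurableSet_Ioi).neg.re
    simp only [Pi.neg_apply, neg_neg, RCLike.re_to_complex, ofReal_re] at h1
    exact h1
  rw [kap, mellin, setIntegral_congr_fun measurableSet_Ioi e, integral_neg, integral_complex_ofReal,
    neg_eq_zero] at h
  have hpos : ∀ y ∈ Ioi (0 : ℝ), 0 < y ^ (-(2 / 3) : ℝ) * -gg y := fun y hy =>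
    mul_pos (Real.rpow_pos_of_pos hy _) (neg_pos.2 (gg_neg hy))
  have h2 := (setIntegral_pos_iff_support_of_nonneg_ae
    ((ae_restrict_iff' measurableSet_Ioi).2 (Eventually.of_forall fun y hy => (hpos y hy).le))
    hi).2 (by
      rw [inter_eq_right.2 fun y hy => Function.mem_support.2 (hpos y hy).ne']
      simp)
  exact h2.ne' (by exact_mod_cast h)

theorem GT_eq {t Q : ℝ} (ht : 0 < t) (hQ : 0 < Q) : GT t Q = gg (t * Q) - t⁻¹ * gg (Q / t) := by
  have h : (t * Q) ^ (-(1 / 2) : ℝ) = t⁻¹ * (Q / t) ^ (-(1 / 2) : ℝ) := by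
    rw [show t * Q = t ^ (2 : ℝ) * (Q / t) by rw [Real.rpow_two]; field_simp,
      Real.mul_rpow (by positivity) (by positivity), ← Real.rpow_mul ht.le, ← Real.rpow_neg_one]
    norm_num
  rw [GT, gg, gg, h]
  ring

/-- substitution `y = t / v` (`mellin_comp_inv`, `mellin_comp_mul_left`) -/
theorem int_div {f : ℝ → ℂ} {s : ℂ} (hf : MellinConvergent f s) {t : ℝ} (ht : 0 < t) :
    IntegrableOn (fun v : ℝ => (v : ℂ) ^ (-s - 1) * f (t / v)) (Ioi 0) ∧
      ∫ v in Ioi (0 : ℝ), (v : ℂ) ^ (-s - 1) * f (t / v) = (t : ℂ) ^ (-s) * mellin f s := by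
  constructor
  · have h := (MellinConvergent.comp_rpow (f := fun v => f (t * v)) (s := -s) (a := -1)
      (by norm_num)).2 (by simpa using (MellinConvergent.comp_mul_left ht).2 hf)
    simpa only [MellinConvergent, smul_eq_mul, Real.rpow_neg_one, ← div_eq_mul_inv] using h
  · have h := mellin_comp_inv (fun v => f (t * v)) (-s)
    rw [neg_neg, mellin_comp_mul_left _ _ ht] at h
    simpa only [mellin, smul_eq_mul, ← div_eq_mul_inv] using h

theorem differentiable_xi1 : Differentiable ℂ xi1 := by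
  unfold xi1
  exact ((differentiable_id.mul (differentiable_id.sub_const 1)).mul
    differentiable_completedZeta₀).add_const 1

theorem xi1_one_sub (s : ℂ) : xi1 (1 - s) = xi1 s := by
  rw [xi1, xi1, completedRiemannZeta₀_one_sub]
  ring

theorem xi1_eq {s : ℂ} (h0 : s ≠ 0) (h1 : s ≠ 1) :
    xi1 s = s * (s - 1) * completedRiemannZeta s := by
  have h2 : (1 : ℂ) - s ≠ 0 := sub_ne_zero.2 h1.symm
  rw [xi1, completedRiemannZeta_eq]
  field_simp
  ring

theorem xi1_ne_zero {s : ℂ} (hs : 1 < s.re) : xi1 s ≠ 0 := by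
  have h0 : s ≠ 0 := by rintro rfl; norm_num at hs
  have h1 : s ≠ 1 := by rintro rfl; norm_num at hs
  rw [xi1_eq h0 h1]
  refine mul_ne_zero (mul_ne_zero h0 (sub_ne_zero.2 h1)) fun h => ?_
  refine riemannZeta_ne_zero_of_one_lt_re hs ?_
  rw [riemannZeta_def_of_ne_zero h0, h, zero_div]

end Crest.Agent.R12.TH
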