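import Crest.Agent.R12.TH.Arith

/-! Row 12, block TH: the reflection of the marked Bessel series. -/

set_option autoImplicit false

namespace Crest.Agent.R12.TH

open Crest.Agent.R17 Crest.Agent.R17.D
open Complex MeasureTheory Filter Set
open scoped Real Topology ComplexConjugate UpperHalfPlane MatrixGroups

theorem refla_pr (b : Bool) (z : ℂ) (v : ℝ) (x y : ℂ) :
    conj (pr b z v x y) = pr (!b) z v x y := by
  cases b <;> simp [pr, pw]

/-- `b = true`: apply `EG_reflect` to the inverse matrix `(d, -b; -c, a)` at `v' = (N c v)⁻¹` -/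
theorem EG_reflect' {a b c d : O} (ha : Rt a) (hb : Rt b) (hc : Rt c) (hd : Rt d)
    (h : a * d - b * c = 1) (hc0 : c ≠ 0) (M : ℂ → ℂ) (β : Bool) (l : ℕ) {v : ℝ} (hv : 0 < v) :
    EG rho M β l (sg a / sg c) (nm c * v)⁻¹ =
      conj (rho c d) * (-(pw (!β) (sg c) ^ 2 * v ^ 2)) ^ l * EG rho M (!β) l (-(sg d / sg c)) v := by
  have h' : sg a * sg d - sg b * sg c = 1 := by
    rw [← map_mul, ← map_mul, ← map_sub, h, map_one]
  have hc' : sg c ≠ 0 := fun h0 => hc0 (sg_eq_zero.1 h0)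
  rw [mul_right_comm, EG, EG, ← cocb_sum ha hb hc hd h fun x y =>
    pr (!β) (-(sg d / sg c)) v x y ^ l * FQ l M (Qf (-(sg d / sg c)) v x y), ← tsum_mul_right]
  refine tsum_congr fun r => ?_
  obtain ⟨e1, e2⟩ := cocb_pt h' hc' hv (sg r.1) (sg r.2)
  have e3 : pr β (sg a / sg c) (‖sg c‖ ^ 2 * v)⁻¹ (sg r.1) (sg r.2) =
      -(pw (!β) (sg c) ^ 2 * v ^ 2) * pr (!β) (-(sg d / sg c)) v (sg r.1 * sg a + sg r.2 * sg c)
        (sg r.1 * sg b + sg r.2 * sg d) := by
    cases β
    · exact e2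
    · have e4 := congrArg conj e2
      rw [map_mul, refla_pr, refla_pr, map_neg, map_mul, map_pow, map_pow, conj_ofReal] at e4
      exact e4
  rw [nm_eq, e1, e3, mul_pow]
  ring

/-- one cusp (see the first lines of `R17.D.theta_FE`) -/
theorem refl_cusp (b : Bool) (j : ℕ) {A D c : O} (hc : c ≠ 0) (h3 : (3 : O) ∣ c) (hA : Prim A)
    (h : 3 * c ∣ A * D - 1) {v : ℝ} (hv : 0 < v) :
    (if j = 0 then -(2 / 3) * ((((nm c * v)⁻¹ ^ (2 / 3 : ℝ) : ℝ)) : ℂ) else 0) +
        ∑' h : O, qw b h ^ j * tau h * JJ h (nm c * v)⁻¹ * eQ (h * A) (3 * c) =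
      cb c A * (-(pw (!b) (sg c) ^ 2 * v ^ 2)) ^ j *
        ((if j = 0 then -(2 / 3) * ((v ^ (2 / 3 : ℝ) : ℝ) : ℂ) else 0) +
          ∑' h : O, qw (!b) h ^ j * tau h * JJ h v * eQ (-h * D) (3 * c)) := by
  obtain ⟨k, hk⟩ := h
  have hd : Prim D := hA.of_mul ⟨c * k, by rw [hk]; ring⟩
  have hb : Rt (3 * k) := rt_of_dvd (dvd_mul_right _ _)
  have hdet : A * D - 3 * k * c = 1 := by linear_combination hk
  have hκ : conj (rho c D) = cb c A := by
    have h1 := rho_mul_conj (rt_of_dvd h3) (rt_of_prim hd) ⟨-(3 * k), A, by linear_combination hdet⟩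
    have h2 := rho_mul_right hA c D
    rw [show A * D = 1 + 3 * k * c by linear_combination hdet, rho_add hb,
      rho_eq_cb (rt_of_dvd h3) prim_one, cb_one_right] at h2
    linear_combination conj (rho c D) * h2 + cb c A * h1
  have h1 := EG_reflect' (rt_of_prim hA) hb (rt_of_dvd h3) (rt_of_prim hd) hdet hc (MM Ph0) b j hv
  rw [EG_theta _ _ _ (inv_pos.2 (mul_pos (nm_pos hc) hv)), EG_theta _ _ _ hv, hκ] at h1
  have e1 : ∀ h : O, sg h * (sg A / sg c) / 3 = sg (h * A) / sg (3 * c) := fun h => by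
    simp only [map_mul, map_ofNat]
    ring
  have e2 : ∀ h : O, sg h * -(sg D / sg c) / 3 = sg (-h * D) / sg (3 * c) := fun h => by
    simp only [map_neg, map_mul, map_ofNat]
    ring
  simp only [e1, e2] at h1
  exact h1

theorem rfb_cop {A d : O} (hA : Prim A) (h : IsCoprime A d) : IsCoprime A (27 * d) := by
  rw [show (27 : O) = 3 ^ 3 by norm_num]
  exact hA.coprime_three.pow_right.mul_right h

/-- the dual weight: `wL d A · cb (9 d) A = conj (cb 3 d) · 1[Prim D] · cb D d ^ 2`, `D = iv (27 d) A` -/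
theorem rsum_dual {d : O} (hd : Prim d) (h : O) :
    rsum (27 * d) (fun A => wL d A * cb (9 * d) A * eQ (h * iv (27 * d) A) (27 * d)) =
      conj (cb 3 d) * FT (27 * d) (fun D => by classical exact if Prim D then cb D d ^ 2 else 0) h := by
  classical
  have hQ : 27 * d ≠ 0 := mul_ne_zero (by norm_num) hd.ne_zero
  have h3 : (3 : O) ∣ 27 * d := ⟨9 * d, by ring⟩
  have hf : Per (27 * d) fun D => conj (cb 3 d) *
      ((if Prim D then cb D d ^ 2 else 0) * eQ (h * D) (27 * d)) := fun a b hab => by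
    have h1 : Prim a ↔ Prim b := ⟨fun h2 => h2.congr (h3.trans hab),
      fun h2 => h2.congr (h3.trans (dvd_sub_comm.1 hab))⟩
    simp only [h1, cb_congr ((dvd_mul_left d 27).trans hab), per_eQ h _ a b hab]
  rw [FT, ← rsum_mul_left]
  refine Eq.trans ?_ ((rsum_inv hQ hf).trans ?_)
  · congr 1
    funext A
    by_cases hA : IsCoprime A (27 * d)
    · have h1 := iv_spec hA
      have h2 : Prim (A * iv (27 * d) A) := h3.trans h1
      rw [if_pos hA, wL]
      by_cases hp : Prim A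
      · have h4 : cb A d * cb (iv (27 * d) A) d = 1 := by
          rw [← cb_mul_left, cb_congr ((dvd_mul_left d 27).trans h1), cub_one hd]
        have h5 : cb A d ^ 3 = 1 := cub_cube hd hA.of_mul_right_right
        have h6 : cb 3 A ^ 3 = 1 := cub_cube hp hp.coprime_three.symm
        have h7 : cb A d = cb (iv (27 * d) A) d ^ 2 := by
          linear_combination -(cb A d * (cb A d * cb (iv (27 * d) A) d + 1)) * h4 +
            cb (iv (27 * d) A) d ^ 2 * h5
        rw [if_pos ⟨hp, hA.of_mul_right_right⟩, if_pos (hp.of_mul h2), ← h7,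
          show (9 : O) * d = 3 * 3 * d by ring, cb_mul_left, cb_mul_left, cb_recip hd hp]
        linear_combination conj (cb 3 d) * cb A d * eQ (h * iv (27 * d) A) (27 * d) * h6
      · rw [if_neg fun h4 => hp h4.1, if_neg fun h4 => hp (h4.of_mul (by rwa [mul_comm]))]
        simp
    · rw [if_neg hA, wL, if_neg fun h4 => hA (rfb_cop h4.1 h4.2), zero_mul, zero_mul]
  · congr 1
    funext D
    split_ifs with h1 h2 h2
    · rfl
    · rfl
    · rw [cb_eq_zero_of_not_coprime (u := D) fun h4 => h1 (rfb_cop h2 h4)]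
      simp
    · simp

theorem rfb_sum {Q : O} (hQ : Q ≠ 0) {a : O → ℂ} (ha : Summable fun h => ‖a h‖) (w : O → ℂ)
    (x : ℂ) (y : O → O → O) (hy : ∀ A, y 0 A = 0) :
    rsum Q (fun A => w A * (x + ∑' h, a h * eQ (y h A) Q)) =
      x * rsum Q (fun A => w A * eQ (y 0 A) Q) + ∑' h, a h * rsum Q fun A => w A * eQ (y h A) Q := by
  simp only [rsum_eq_sum hQ, hy, eQ_zero, mul_one, mul_add, Finset.sum_add_distrib, Finset.mul_sum]
  rw [Summable.tsum_finsetSum fun A _ => .of_norm ((ha.mul_right ‖w A‖).congr fun h => by simp)]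
  congr 1 <;> refine Finset.sum_congr rfl fun A _ => ?_
  · ring
  · rw [← tsum_mul_left]
    exact tsum_congr fun h => by ring

open Classical in
/-- multiply `refl_cusp` (`c = 9 d`, `D = iv (27 d) A`) by `wL d A / 81` and sum over `A mod 27 d`
(`theta_summable`, `Summable.tsum_finsetSum`); constant terms: `FT_wL`, `FT_dual` at `h = 0`. -/
theorem refl_fun (b : Bool) (j : ℕ) {d : O} (hd : PSq d) {v : ℝ} (hv : 0 < v) :
    ∑' h : O, aL b j d h * JJ h (nm (9 * d) * v)⁻¹ =
      (-(pw (!b) (sg (9 * d)) ^ 2)) ^ j * (v : ℂ) ^ (2 * j) * ∑' h : O, aR b j d h * JJ h v +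
        (if j = 0 ∧ d = 1 then -(2 / 3) else 0) * ((v ^ (2 / 3 : ℝ) : ℝ) : ℂ) := by
  have hQ : 27 * d ≠ 0 := mul_ne_zero (by norm_num) hd.1.ne_zero
  have hc : 9 * d ≠ 0 := mul_ne_zero (by norm_num) hd.1.ne_zero
  have e : (3 : O) * (9 * d) = 27 * d := by ring
  have key : ∀ A, _ := fun A => if hA : Prim A ∧ IsCoprime A d then
    congrArg (wL d A * ·) (refl_cusp b j hc ⟨3 * d, by ring⟩ hA.1 (e ▸ iv_spec (rfb_cop hA.1 hA.2)) hv)
    else by simp only [wL, if_neg hA, zero_mul]
  have h1 := congrArg (rsum (27 * d)) (funext key)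
  simp only [e, ← mul_assoc] at h1
  simp only [mul_right_comm _ ((-(pw (!b) (sg (9 * d)) ^ 2 * (v : ℂ) ^ 2)) ^ j)] at h1
  rw [rsum_mul_right, rfb_sum hQ (theta_summable b j (inv_pos.2 (mul_pos (nm_pos hc) hv))) _ _
    (fun h A => h * A) fun A => by simp,
    rfb_sum hQ (theta_summable (!b) j hv) _ _ (fun h A => -h * iv (27 * d) A) fun A => by simp] at h1
  simp only [rsum_dual hd.1, FT_dual hd.1] at h1
  have h2 : rsum (27 * d) (fun A => wL d A * eQ (0 * A) (27 * d)) = 0 := by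
    refine (FT_wL hd.1 0).trans (if_neg ?_)
    rintro ⟨k, hk⟩
    exact prime_lam.not_dvd_one (lam_dvd_three.trans
      ⟨k, mul_left_cancel₀ (by norm_num : (3 : O) ≠ 0) (by linear_combination hk)⟩)
  have h3 : conj (cb 3 d) * gc 2 0 d = if d = 1 then 1 else 0 := by
    split_ifs with h4
    · rw [h4, cb_one_right, gc_unit _ _ isUnit_one, map_one, one_mul]
    · rw [gc_sqfree hd.2 (by norm_num), cb_eq_zero_of_not_coprime (u := 0) fun h5 =>
        h4 (hd.1.eq_one_of_isUnit (isCoprime_zero_left.1 h5))]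
      simp
  have h4 : ∑' h : O, qw b h ^ j * tau h * JJ h (nm (9 * d) * v)⁻¹ *
      rsum (27 * d) (fun A => wL d A * eQ (h * A) (27 * d)) =
        81 * ∑' h : O, aL b j d h * JJ h (nm (9 * d) * v)⁻¹ := by
    rw [← tsum_mul_left]
    refine tsum_congr fun h => ?_
    rw [aL, FT]
    ring
  have h5 : ∑' h : O, qw (!b) h ^ j * tau h * JJ h v * (conj (cb 3 d) *
      if (9 : O) ∣ -h then 81 * eQ (-h) 27 * gc 2 (-h) d else 0) =
        81 * ∑' h : O, aR b j d h * JJ h v := by
    rw [← tsum_mul_left]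
    refine tsum_congr fun h => ?_
    rw [aR, dvd_neg]
    split_ifs <;> ring
  rw [h2, h4, h5, neg_zero, if_pos (dvd_zero _), eQ_zero, mul_one, mul_left_comm (conj (cb 3 d)), h3,
    ← neg_mul, mul_pow, ← pow_mul] at h1
  by_cases hj : j = 0
  · subst hj
    by_cases h6 : d = 1
    · simp only [h6, if_true, and_self] at h1 ⊢
      linear_combination (1 / 81) * h1
    · simp only [h6, if_true, if_false, and_false] at h1 ⊢
      linear_combination (1 / 81) * h1
  · simp only [hj, if_false, false_and] at h1 ⊢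
    linear_combination (1 / 81) * h1

end Crest.Agent.R12.TH
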