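import Crest.Agent.R12.TH.Ps

/-! Row 12, block TH: the Gaussian theta series of `ℤ²`. -/

set_option autoImplicit false

namespace Crest.Agent.R12.TH

open Crest.Agent.R17 Crest.Agent.R17.D
open Complex MeasureTheory Filter Set
open scoped Real Topology ComplexConjugate UpperHalfPlane MatrixGroups

theorem QZ_eq (z : ℍ) (r : ℤ × ℤ) :
    QZ z r = (r.2 + r.1 * z.re) ^ 2 / z.im + r.1 ^ 2 * z.im := by
  have hv := z.im_pos.ne'
  unfold QZ
  rw [normSq_apply]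
  simp only [add_re, mul_re, intCast_re, intCast_im, UpperHalfPlane.coe_re, UpperHalfPlane.coe_im,
    add_im, mul_im, zero_mul, sub_zero, add_zero]
  field_simp
  ring

theorem QZ_pos (z : ℍ) {r : ℤ × ℤ} (hr : r ≠ 0) : 0 < QZ z r := by
  have hv := z.im_pos
  rw [QZ_eq]
  by_cases h1 : r.1 = 0
  · have h2 : (r.2 : ℝ) ≠ 0 := fun h => hr (Prod.ext h1 (by exact_mod_cast h))
    rw [h1]
    simp only [Int.cast_zero, zero_mul, add_zero, ne_eq, OfNat.ofNat_ne_zero, not_false_eq_true,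
      zero_pow]
    positivity
  · have h2 : (r.1 : ℝ) ≠ 0 := by exact_mod_cast h1
    positivity

theorem QZ_smul (z : ℍ) (k : ℤ) (r : ℤ × ℤ) : QZ z (k * r.1, k * r.2) = k ^ 2 * QZ z r := by
  rw [QZ_eq, QZ_eq]
  push_cast
  ring

theorem th2a_gauss {s : ℝ} (hs : 0 < s) : Summable fun n : ℤ => Real.exp (-π * n ^ 2 * s) := by
  simpa using (HurwitzZeta.hasSum_int_evenKernel 0 hs).summable

theorem summable_QZ (z : ℍ) {t : ℝ} (ht : 0 < t) :
    Summable fun r : ℤ × ℤ => Real.exp (-π * (t * QZ z r)) := by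
  have hv := z.im_pos
  set M : ℝ := 2 * z.im + (1 + 2 * z.re ^ 2) / z.im with hM
  have hM0 : 0 < M := by positivity
  have h := (th2a_gauss (div_pos ht hM0)).mul_of_nonneg (th2a_gauss (div_pos ht hM0))
    (fun _ => (Real.exp_pos _).le) (fun _ => (Real.exp_pos _).le)
  refine Summable.of_nonneg_of_le (fun _ => (Real.exp_pos _).le) (fun r => ?_) h
  rw [← Real.exp_add, Real.exp_le_exp]
  have h1 : (r.1 : ℝ) ^ 2 + (r.2 : ℝ) ^ 2 ≤ M * QZ z r := by
    rw [QZ_eq]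
    have e : M * ((r.2 + r.1 * z.re) ^ 2 / z.im + r.1 ^ 2 * z.im) =
        2 * (r.2 + r.1 * z.re) ^ 2 + (1 + 2 * z.re ^ 2) * r.1 ^ 2 + (2 * z.im ^ 2 * r.1 ^ 2 +
          (1 + 2 * z.re ^ 2) * (r.2 + r.1 * z.re) ^ 2 / z.im ^ 2) := by
      rw [hM]; field_simp; ring
    rw [e]
    have h2 : 0 ≤ 2 * z.im ^ 2 * r.1 ^ 2 +
      (1 + 2 * z.re ^ 2) * (r.2 + r.1 * z.re) ^ 2 / z.im ^ 2 := by positivity
    nlinarith [sq_nonneg (r.2 + 2 * r.1 * z.re)]
  have h3 : ((r.1 : ℝ) ^ 2 + (r.2 : ℝ) ^ 2) * (t / M) ≤ t * QZ z r := by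
    rw [← mul_div_assoc, div_le_iff₀ hM0]
    nlinarith
  nlinarith [Real.pi_pos]

theorem th2a_key (z : ℍ) {t : ℝ} (ht : 0 < t) :
    ((∑' r : ℤ × ℤ, Real.exp (-π * (t * QZ z r)) : ℝ) : ℂ) =
      ((1 / (t / z.im) ^ (1 / 2 : ℝ) : ℝ) : ℂ) * ∑' r : ℤ × ℤ,
        (Real.exp (-π * r.1 ^ 2 * (t * z.im)) : ℂ) *
          (cexp (2 * π * I * ((r.1 * z.re : ℝ) : ℂ) * r.2) *
            (Real.exp (-π * r.2 ^ 2 * (1 / (t / z.im))) : ℂ)) := by
  have hv := z.im_pos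
  have hy : 0 < t / z.im := div_pos ht hv
  have hs : Summable fun r : ℤ × ℤ => (Real.exp (-π * r.1 ^ 2 * (t * z.im)) : ℂ) *
      (cexp (2 * π * I * ((r.1 * z.re : ℝ) : ℂ) * r.2) *
        (Real.exp (-π * r.2 ^ 2 * (1 / (t / z.im))) : ℂ)) := by
    have h := (th2a_gauss (mul_pos ht hv)).mul_of_nonneg (th2a_gauss (one_div_pos.2 hy))
      (fun _ => (Real.exp_pos _).le) (fun _ => (Real.exp_pos _).le)
    refine Summable.of_norm_bounded h fun r => le_of_eq ?_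
    have e : 2 * π * I * ((r.1 * z.re : ℝ) : ℂ) * r.2 = ((2 * π * (r.1 * z.re) * r.2 : ℝ) : ℂ) * I := by
      push_cast; ring
    rw [norm_mul, norm_mul, e, norm_exp_ofReal_mul_I, one_mul,
      Complex.norm_of_nonneg (Real.exp_pos _).le, Complex.norm_of_nonneg (Real.exp_pos _).le]
  rw [(summable_QZ z ht).tsum_prod, hs.tsum_prod, ofReal_tsum, ← tsum_mul_left]
  refine tsum_congr fun c => ?_
  have h1 := (HurwitzZeta.hasSum_int_evenKernel (c * z.re) hy).mul_left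
    (Real.exp (-π * c ^ 2 * (t * z.im)))
  have h2 := (HurwitzZeta.hasSum_int_cosKernel (c * z.re) (one_div_pos.2 hy)).tsum_eq
  have h3 : ∑' d : ℤ, Real.exp (-π * (t * QZ z (c, d))) =
      Real.exp (-π * c ^ 2 * (t * z.im)) * HurwitzZeta.evenKernel (c * z.re : ℝ) (t / z.im) := by
    rw [← h1.tsum_eq]
    refine tsum_congr fun d => ?_
    rw [← Real.exp_add, QZ_eq]
    congr 1
    ring
  simp only
  rw [h3, tsum_mul_left, h2, HurwitzZeta.evenKernel_functional_equation, ofReal_mul, ofReal_mul]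
  ring

/-- Poisson in `d`: `hasSum_int_evenKernel`, `evenKernel_functional_equation`,
`hasSum_int_cosKernel` give `√(v/t) ∑_{c,m} exp (-π v (t c² + m²/t)) e(c m x)`; swap `c`, `m`. -/
theorem theta2_FE (z : ℍ) {t : ℝ} (ht : 0 < t) :
    ∑' r : ℤ × ℤ, Real.exp (-π * (t * QZ z r)) =
      t⁻¹ * ∑' r : ℤ × ℤ, Real.exp (-π * (t⁻¹ * QZ z r)) := by
  have hv := z.im_pos
  have h1 := th2a_key z ht
  have h2 := th2a_key z (inv_pos.2 ht)
  have h3 : (1 / (t / z.im) ^ (1 / 2 : ℝ) : ℝ) = t⁻¹ * (1 / (t⁻¹ / z.im) ^ (1 / 2 : ℝ)) := by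
    rw [← Real.sqrt_eq_rpow, ← Real.sqrt_eq_rpow, Real.sqrt_div ht.le,
      Real.sqrt_div (inv_pos.2 ht).le, Real.sqrt_inv]
    have h4 : 0 < √t := Real.sqrt_pos.2 ht
    have h5 : 0 < √z.im := Real.sqrt_pos.2 hv
    have h6 : t = √t * √t := (Real.mul_self_sqrt ht.le).symm
    generalize √t = s at *
    rw [h6]
    field_simp
  rw [← ofReal_inj, ofReal_mul, h1, h2, h3, ofReal_mul, mul_assoc]
  congr 2
  refine Eq.trans (tsum_congr fun r => ?_) ((Equiv.prodComm ℤ ℤ).tsum_eq _)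
  simp only [Equiv.prodComm_apply, Prod.fst_swap, Prod.snd_swap]
  have e1 : t⁻¹ * z.im = 1 / (t / z.im) := by field_simp
  have e2 : 1 / (t⁻¹ / z.im) = t * z.im := by field_simp
  have e3 : 2 * π * I * ((r.2 * z.re : ℝ) : ℂ) * r.1 = 2 * π * I * ((r.1 * z.re : ℝ) : ℂ) * r.2 := by
    push_cast; ring
  rw [e1, e2, e3]
  ring

open Classical in
theorem th2b_pos {f : ℤ × ℤ → ℝ} (hf : Summable f) :
    HasSum (fun p : (ℤ × ℤ) × ℤ => if IsCoprime p.1.1 p.1.2 ∧ 0 < p.2 then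
      f (p.2 * p.1.1, p.2 * p.1.2) else 0) (∑' r, f r - f 0) := by
  let A : Set ((ℤ × ℤ) × ℤ) := {p | IsCoprime p.1.1 p.1.2 ∧ 0 < p.2}
  let i : A → ℤ × ℤ := fun p => (p.1.2 * p.1.1.1, p.1.2 * p.1.1.2)
  have hi : Function.Injective i := by
    rintro ⟨⟨⟨a, b⟩, k⟩, h1, h2⟩ ⟨⟨⟨a', b'⟩, k'⟩, h1', h2'⟩ h
    simp only [i, Prod.mk.injEq] at h h1 h2 h1' h2'
    have h3 : Int.gcd (k * a) (k * b) = Int.gcd (k' * a') (k' * b') := by rw [h.1, h.2]
    rw [Int.gcd_mul_left, Int.gcd_mul_left, Int.isCoprime_iff_gcd_eq_one.1 h1,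
      Int.isCoprime_iff_gcd_eq_one.1 h1'] at h3
    obtain rfl : k = k' := by omega
    obtain rfl := mul_left_cancel₀ h2.ne' h.1
    obtain rfl := mul_left_cancel₀ h2.ne' h.2
    rfl
  have hr : ∀ r ∉ Set.range i, (if r = 0 then 0 else f r) = 0 := by
    rintro ⟨m, n⟩ hr
    refine if_pos ?_
    by_contra h0
    have hg : 0 < Int.gcd m n := by
      refine Nat.pos_of_ne_zero fun h => h0 ?_
      rw [Int.gcd_eq_zero_iff] at h
      rw [h.1, h.2]; rfl
    obtain ⟨m', n', h1, h2, h3⟩ := Int.exists_gcd_one hg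
    refine hr ⟨⟨((m', n'), Int.gcd m n), Int.isCoprime_iff_gcd_eq_one.2 h1, Int.natCast_pos.2 hg⟩, ?_⟩
    exact Prod.ext ((mul_comm _ _).trans h2.symm) ((mul_comm _ _).trans h3.symm)
  have h1 := (hi.hasSum_iff hr).2 (hasSum_ite_sub_hasSum hf.hasSum 0)
  have h2 : HasSum ((fun p : (ℤ × ℤ) × ℤ => f (p.2 * p.1.1, p.2 * p.1.2)) ∘ ((↑) : A → _))
      (∑' r, f r - f 0) := by
    convert h1 using 1
    funext p
    refine (if_neg fun h => ?_).symm
    have h3 := p.2.2.ne'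
    simp only [i, Prod.mk_eq_zero, mul_eq_zero, h3, false_or] at h
    have h4 := p.2.1
    rw [h.1, h.2] at h4
    exact not_isCoprime_zero_zero h4
  convert hasSum_subtype_iff_indicator.1 h2 using 1
  funext p
  simp only [Set.indicator_apply, A, Set.mem_ofPred_eq]

open Classical in
/-- `(k, r) ↦ k r` is two-to-one from `(ℤ ∖ 0) × coprime pairs` onto the non-zero pairs -/
theorem hasSum_coprime {f : ℤ × ℤ → ℝ} (hf : Summable f) :
    HasSum (fun p : (ℤ × ℤ) × ℤ => if IsCoprime p.1.1 p.1.2 ∧ p.2 ≠ 0 then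
      f (p.2 * p.1.1, p.2 * p.1.2) else 0) (2 * (∑' r, f r - f 0)) := by
  have h1 := th2b_pos hf
  have h2 := (Equiv.neg ((ℤ × ℤ) × ℤ)).hasSum_iff.2 h1
  rw [two_mul]
  convert h1.add h2 using 1
  funext ⟨⟨a, b⟩, k⟩
  simp only [Function.comp_apply, Equiv.neg_apply, Prod.neg_mk, IsCoprime.neg_neg_iff, mul_neg,
    neg_mul, neg_neg, Left.neg_pos_iff]
  rcases lt_trichotomy k 0 with h | h | h
  · simp [h, h.ne, h.not_gt]
  · simp [h]
  · simp [h, h.ne', h.not_gt]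

open Classical in
theorem hasSum_ps_QZ (z : ℍ) {t : ℝ} (ht : 0 < t) :
    HasSum (fun r : ℤ × ℤ => if IsCoprime r.1 r.2 then ps (t * QZ z r) else 0)
      (2 * (∑' r : ℤ × ℤ, Real.exp (-π * (t * QZ z r)) - 1)) := by
  have h := hasSum_coprime (summable_QZ z ht)
  have h0 : QZ z 0 = 0 := by simp [QZ]
  rw [h0, mul_zero, mul_zero, Real.exp_zero] at h
  refine h.prod_fiberwise fun r => ?_
  by_cases hr : IsCoprime r.1 r.2
  · have hr0 : r ≠ 0 := by
      rintro rfl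
      exact not_isCoprime_zero_zero hr
    rw [if_pos hr]
    convert hasSum_ps (mul_pos ht (QZ_pos z hr0)) using 2 with k
    by_cases hk : k = 0
    · simp [hk]
    · simp only [hr, hk, ne_eq, not_false_eq_true, and_self, if_true, if_false, QZ_smul]
      congr 1
      ring
  · simp only [hr, false_and, if_false]
    exact hasSum_zero

open Classical in
theorem hasSum_GT (z : ℍ) {t : ℝ} (ht : 0 < t) :
    HasSum (fun r : ℤ × ℤ => if IsCoprime r.1 r.2 then GT t (QZ z r) else 0) (2 * (t⁻¹ - 1)) := by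
  have h := (hasSum_ps_QZ z ht).sub ((hasSum_ps_QZ z (inv_pos.2 ht)).mul_left t⁻¹)
  rw [theta2_FE z ht] at h
  convert h using 1
  · rfl
  · funext r
    split_ifs
    · rw [GT, div_eq_inv_mul]
    · simp
  · ring

end Crest.Agent.R12.TH
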