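import Crest.Agent.R12.TH.Th2

/-! Row 12, block TH: unfolding for `SL₂(ℤ)`. -/

set_option autoImplicit false

namespace Crest.Agent.R12.TH

open Crest.Agent.R17 Crest.Agent.R17.D
open Complex MeasureTheory Filter Set
open scoped Real Topology ComplexConjugate UpperHalfPlane MatrixGroups

/-- ABSTRACT UNFOLDING (compare `R17.D.unfold`): `h = h₀ / ∑_γ h₀ (γ ·)` has orbit sums `1`, so
`∫ u = ∑_γ ∫ h(γ w) u(w) = ∑_γ ∫ h(w) u(γ⁻¹ w) = ∫ h · 0` (`integral_tsum` twice). -/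
theorem unfold0 {Γ X : Type} [Group Γ] [Countable Γ] [MeasurableSpace X] (μ : Measure X)
    [MulAction Γ X] (hmp : ∀ γ : Γ, MeasurePreserving (fun w : X => γ • w) μ μ) {h₀ : X → ℝ}
    (hm : Measurable h₀) (hp : ∀ w, 0 < h₀ w) (hs : ∀ w, Summable fun γ : Γ => h₀ (γ • w))
    {u : X → ℂ} (hu : Integrable u μ) (hN : ∀ w, HasSum (fun γ : Γ => u (γ • w)) 0) :
    ∫ w, u w ∂μ = 0 := by
  obtain ⟨H, hH⟩ : ∃ H : X → ℝ, H = fun w => ∑' γ : Γ, h₀ (γ • w) := ⟨_, rfl⟩
  have Hm : Measurable H := by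
    rw [hH]
    exact Measurable.tsum fun γ => hm.comp (hmp γ).measurable
  have Hp : ∀ w, 0 < H w := fun w => by
    rw [hH]
    exact (hs w).tsum_pos (fun γ => (hp _).le) 1 (hp _)
  have Hi : ∀ (δ : Γ) w, H (δ • w) = H w := fun δ w => by
    rw [hH]
    dsimp only
    simp only [← mul_smul]
    exact (Equiv.mulRight δ).tsum_eq fun γ : Γ => h₀ (γ • w)
  obtain ⟨h, hh⟩ : ∃ h : X → ℝ, h = fun w => h₀ w / H w := ⟨_, rfl⟩
  have hm' : Measurable h := by
    rw [hh]
    exact hm.div Hm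
  have hp' : ∀ w, 0 < h w := fun w => by
    rw [hh]
    exact div_pos (hp w) (Hp w)
  have hsum : ∀ w, HasSum (fun γ : Γ => h (γ • w)) 1 := fun w => by
    have e : HasSum (fun γ : Γ => h₀ (γ • w)) (H w) := by
      rw [hH]
      exact (hs w).hasSum
    have := e.div_const (H w)
    rw [div_self (Hp w).ne'] at this
    simpa only [hh, Hi] using this
  obtain ⟨f, hf⟩ : ∃ f : Γ → X → ℂ, f = fun γ w => (h (γ • w) : ℂ) * u w := ⟨_, rfl⟩
  have fm : ∀ γ, AEStronglyMeasurable (f γ) μ := fun γ => by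
    rw [hf]
    exact ((measurable_ofReal.comp (hm'.comp (hmp γ).measurable)).aestronglyMeasurable).mul hu.1
  have fs : ∀ w, HasSum (fun γ => f γ w) (u w) := fun w => by
    have := (Complex.hasSum_ofReal.2 (hsum w)).mul_right (u w)
    rw [ofReal_one, one_mul] at this
    simpa only [hf] using this
  have fe : ∀ w, ∑' γ, ‖f γ w‖ₑ = ‖u w‖ₑ := fun w => by
    have e1 : ∀ γ, ‖f γ w‖ₑ = ENNReal.ofReal (h (γ • w)) * ‖u w‖ₑ := fun γ => by
      rw [hf]
      dsimp only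
      rw [enorm_mul, ← ofReal_norm (h (γ • w) : ℂ), norm_real, Real.norm_of_nonneg (hp' _).le]
    simp only [e1]
    rw [ENNReal.tsum_mul_right, ← ENNReal.ofReal_tsum_of_nonneg (fun γ => (hp' _).le)
      (hsum w).summable, (hsum w).tsum_eq, ENNReal.ofReal_one, one_mul]
  have fl : ∑' γ, ∫⁻ w, ‖f γ w‖ₑ ∂μ ≠ ⊤ := by
    rw [← lintegral_tsum fun γ => (fm γ).enorm]
    simp only [fe]
    exact hu.2.ne
  obtain ⟨g, hg⟩ : ∃ g : Γ → X → ℂ, g = fun γ w => f γ (γ⁻¹ • w) := ⟨_, rfl⟩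
  have fm' : ∀ γ, AEStronglyMeasurable (f γ) (μ.map fun w : X => γ⁻¹ • w) := fun γ => by
    rw [(hmp γ⁻¹).map_eq]
    exact fm γ
  have gm : ∀ γ, AEStronglyMeasurable (g γ) μ := fun γ => by
    rw [hg]
    exact (fm' γ).comp_measurable (hmp γ⁻¹).measurable
  have gi : ∀ γ, ∫ w, g γ w ∂μ = ∫ w, f γ w ∂μ := fun γ => by
    rw [hg]
    dsimp only
    rw [← integral_map (hmp γ⁻¹).measurable.aemeasurable (fm' γ), (hmp γ⁻¹).map_eq]
  have gl : ∀ γ, ∫⁻ w, ‖g γ w‖ₑ ∂μ = ∫⁻ w, ‖f γ w‖ₑ ∂μ := fun γ => by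
    rw [hg]
    dsimp only
    rw [← lintegral_map' (fm' γ).enorm (hmp γ⁻¹).measurable.aemeasurable, (hmp γ⁻¹).map_eq]
  have gl' : ∑' γ, ∫⁻ w, ‖g γ w‖ₑ ∂μ ≠ ⊤ := by
    simp only [gl]
    exact fl
  have gs : ∀ w, ∑' γ, g γ w = 0 := fun w => by
    have e1 : HasSum (fun γ : Γ => u (γ⁻¹ • w)) 0 := (Equiv.inv Γ).hasSum_iff.2 (hN w)
    have e2 : ∀ γ, g γ w = (h w : ℂ) * u (γ⁻¹ • w) := fun γ => by
      rw [hg, hf]
      dsimp only
      rw [smul_inv_smul]
    simp only [e2]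
    rw [(e1.mul_left _).tsum_eq, mul_zero]
  have key := integral_tsum gm gl'
  simp only [gs, gi] at key
  rw [← integral_tsum fm fl, integral_zero] at key
  simpa only [(fs _).tsum_eq] using key.symm

theorem inv_im_smul (γ : SL(2, ℤ)) (z : ℍ) : ((γ • z).im)⁻¹ = QZ z (γ 1 0, γ 1 1) := by
  rw [ModularGroup.im_smul_eq_div_normSq, inv_div, ModularGroup.denom_apply, QZ]

/-- the form is transformed through the rows -/
theorem QZ_act (γ : SL(2, ℤ)) (z : ℍ) (r : ℤ × ℤ) :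
    QZ (γ • z) r = QZ z (r.1 * γ 0 0 + r.2 * γ 1 0, r.1 * γ 0 1 + r.2 * γ 1 1) := by
  have h0 : ((γ 1 0 : ℤ) : ℂ) * z + (γ 1 1 : ℤ) ≠ 0 := UpperHalfPlane.denom_ne_zero γ z
  rw [QZ, div_eq_mul_inv, inv_im_smul, QZ, QZ, ← mul_div_assoc, ← map_mul,
    UpperHalfPlane.coe_specialLinearGroup_apply]
  congr 2
  simp only [eq_intCast, ofReal_intCast, Int.cast_add, Int.cast_mul]
  rw [add_mul, mul_assoc, div_mul_cancel₀ _ h0]
  ring

/-- `unfold0` with `h₀ z = exp (-π QZ z (1,0)) exp (-π QZ z (0,1))` (`summable_QZ` twice) -/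
theorem unfold_SL {u : ℍ → ℂ} (hu : Integrable u)
    (hN : ∀ z, HasSum (fun γ : SL(2, ℤ) => u (γ • z)) 0) : ∫ z, u z = 0 := by
  have hi : Function.Injective fun γ : SL(2, ℤ) => ((γ 0 0, γ 0 1), (γ 1 0, γ 1 1)) := by
    intro γ δ h
    simp only [Prod.mk.injEq] at h
    ext i j
    fin_cases i <;> fin_cases j
    exacts [h.1.1, h.1.2, h.2.1, h.2.2]
  have : Countable SL(2, ℤ) := hi.countable
  have hc : ∀ r, Continuous fun z : ℍ => Real.exp (-π * (1 * QZ z r)) := fun r => by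
    have : Continuous fun z : ℍ => QZ z r :=
      (Complex.continuous_normSq.comp (by fun_prop)).div UpperHalfPlane.continuous_im
        fun z => z.im_ne_zero
    fun_prop
  refine unfold0 (Γ := SL(2, ℤ)) volume
    (fun γ => measurePreserving_smul (γ : GL (Fin 2) ℝ) volume)
    (h₀ := fun z => Real.exp (-π * (1 * QZ z (1, 0))) * Real.exp (-π * (1 * QZ z (0, 1))))
    ((hc _).mul (hc _)).measurable (fun z => by positivity) (fun z => ?_) hu hN
  have h1 := summable_QZ z one_pos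
  have h2 := (h1.mul_of_nonneg h1 (fun r => (Real.exp_pos _).le)
    fun r => (Real.exp_pos _).le).comp_injective hi
  refine h2.congr fun γ => ?_
  simp only [QZ_act, Function.comp, one_mul, zero_mul, add_zero, zero_add]

theorem unfb_row {γ γ' : SL(2, ℤ)} (h0 : γ 1 0 = γ' 1 0) (h1 : γ 1 1 = γ' 1 1) :
    ∃ n : ℤ, γ = ModularGroup.T ^ n * γ' := by
  have d := γ.det_coe
  have d' := γ'.det_coe
  rw [Matrix.det_fin_two] at d d'
  refine ⟨γ 0 1 * γ' 0 0 - γ 0 0 * γ' 0 1, ?_⟩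
  ext i j
  rw [Matrix.SpecialLinearGroup.coe_mul, ModularGroup.coe_T_zpow]
  fin_cases i <;> fin_cases j <;> simp [Matrix.mul_apply, Fin.sum_univ_two, h0, h1]
  · linear_combination -γ 0 0 * d' + γ' 0 0 * d - γ 0 0 * γ' 0 0 * h1 + γ 0 1 * γ' 0 0 * h0
  · linear_combination -γ 0 1 * d' + γ' 0 1 * d - γ 0 0 * γ' 0 1 * h1 + γ 0 1 * γ' 0 1 * h0

open Classical in
/-- `γ ↦ (c, d)` is a bijection from `{γ | re (γ z) ∈ [0, 1)}` onto the coprime pairs -/
theorem hasSum_SL (z : ℍ) {U : ℤ × ℤ → ℂ} {a : ℂ}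
    (hU : HasSum (fun r : ℤ × ℤ => if IsCoprime r.1 r.2 then U r else 0) a) :
    HasSum (fun γ : SL(2, ℤ) => st (γ • z) * U (γ 1 0, γ 1 1)) a := by
  have hs : ∀ {γ : SL(2, ℤ)}, st (γ • z) * U (γ 1 0, γ 1 1) ≠ 0 → (γ • z).re ∈ Ico (0 : ℝ) 1 :=
    fun h => by
      by_contra h'
      exact left_ne_zero_of_mul h (indicator_of_notMem h' _)
  refine (hasSum_iff_hasSum_of_ne_zero_bij
    (g := fun γ : SL(2, ℤ) => st (γ • z) * U (γ 1 0, γ 1 1))
    (fun γ => (γ.1 1 0, γ.1 1 1)) ?_ ?_ ?_).1 hU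
  · rintro ⟨γ, h⟩ ⟨γ', h'⟩ e
    obtain ⟨n, hn⟩ := unfb_row (γ := γ) (γ' := γ') (congrArg Prod.fst e) (congrArg Prod.snd e)
    obtain ⟨h1, h2⟩ := hs h
    obtain ⟨h3, h4⟩ := hs h'
    rw [hn, mul_smul, ModularGroup.re_T_zpow_smul] at h1 h2
    have h5 : n < 1 := by exact_mod_cast (by linarith : (n : ℝ) < 1)
    have h6 : -1 < n := by exact_mod_cast (by linarith : (-1 : ℝ) < n)
    obtain rfl : n = 0 := by omega
    exact Subtype.ext (by simpa using hn)
  · rintro ⟨c, d⟩ hr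
    have hc : IsCoprime c d := by
      by_contra h'
      exact hr (if_neg h')
    obtain ⟨g, -, hg⟩ := ModularGroup.bottom_row_surj (R := ℤ) (show ![c, d] ∈ _ from hc)
    have e : ((ModularGroup.T ^ (-⌊(g • z).re⌋) * g) 1 0, (ModularGroup.T ^ (-⌊(g • z).re⌋) * g) 1 1) =
        (c, d) := by
      rw [ModularGroup.T_pow_mul_apply_one]
      exact Prod.ext (congrFun hg 0) (congrFun hg 1)
    refine ⟨⟨ModularGroup.T ^ (-⌊(g • z).re⌋) * g, ?_⟩, e⟩
    rw [Function.mem_support, e, st, indicator_of_mem, one_mul]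
    · exact fun h => hr ((if_pos hc).trans h)
    · rw [mul_smul, ModularGroup.re_T_zpow_smul, Int.cast_neg, ← sub_eq_add_neg]
      exact ⟨Int.fract_nonneg _, Int.fract_lt_one _⟩
  · rintro ⟨γ, h⟩
    simp only
    rw [if_pos (ModularGroup.bottom_row_coprime γ), st, indicator_of_mem (hs h), one_mul]

theorem unfb_emb : MeasurableEmbedding fun z : ℍ => (z.re, z.im) :=
  measurableEquivRealProd.measurableEmbedding.comp UpperHalfPlane.measurableEmbedding_coe

theorem unfb_mp : MeasurePreserving (fun z : ℍ => (z.re, z.im)) (volume.comap UpperHalfPlane.coe)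
    (volume.prod (volume.restrict (Ioi (0 : ℝ)))) := by
  have h1 : MeasurePreserving UpperHalfPlane.coe (volume.comap UpperHalfPlane.coe)
      (volume.restrict (range UpperHalfPlane.coe)) :=
    ⟨UpperHalfPlane.measurable_coe, UpperHalfPlane.measurableEmbedding_coe.map_comap _⟩
  have h2 := volume_preserving_equiv_real_prod.restrict_preimage
    (MeasurableSet.univ.prod (measurableSet_Ioi (a := (0 : ℝ))))
  rw [Measure.volume_eq_prod, ← Measure.prod_restrict, Measure.restrict_univ,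
    show measurableEquivRealProd ⁻¹' (univ ×ˢ Ioi (0 : ℝ)) = range UpperHalfPlane.coe from
      Set.ext fun w => ⟨fun h => ⟨⟨w, h.2⟩, rfl⟩, fun ⟨z, h⟩ => h ▸ ⟨trivial, z.im_pos⟩⟩] at h2
  exact h2.comp h1

/-- integrals over the strip (`UpperHalfPlane.volume_def`, `Complex.volume_preserving_equiv_real_prod`) -/
theorem strip_int {F : ℝ → ℝ → ℂ}
    (hm : AEStronglyMeasurable (Function.uncurry F) (volume.prod (volume.restrict (Ioi (0 : ℝ)))))
    {B : ℝ → ℝ} (hB : IntegrableOn (fun v => B v / v ^ 2) (Ioi 0))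
    (hF : ∀ x v, 0 < v → ‖F x v‖ ≤ B v) :
    Integrable (fun z : ℍ => st z * F z.re z.im) ∧
      ∫ z : ℍ, st z * F z.re z.im =
        ∫ v in Ioi (0 : ℝ), (∫ x in Ico (0 : ℝ) 1, F x v) / (v : ℂ) ^ 2 := by
  let G : ℝ × ℝ → ℂ := fun p =>
    (Ico (0 : ℝ) 1).indicator (fun _ => (1 : ℂ)) p.1 * F p.1 p.2 / (p.2 : ℂ) ^ 2
  have hi : Integrable ((Ico (0 : ℝ) 1).indicator fun _ => (1 : ℝ)) :=
    (integrable_indicator_iff measurableSet_Ico).2 (integrableOn_const (by simp))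
  have hG : Integrable G (volume.prod (volume.restrict (Ioi (0 : ℝ)))) := by
    refine (hi.mul_prod hB).mono' ?_ ?_
    · refine ((((measurable_const.indicator measurableSet_Ico).comp
        measurable_fst).aestronglyMeasurable.mul hm).aemeasurable.div ?_).aestronglyMeasurable
      fun_prop
    · filter_upwards [Measure.quasiMeasurePreserving_snd.ae (ae_restrict_mem measurableSet_Ioi)]
        with p hp
      by_cases h : p.1 ∈ Ico (0 : ℝ) 1
      · simp only [G, indicator_of_mem h, one_mul, norm_div, norm_pow, norm_real, Real.norm_eq_abs,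
          sq_abs]
        exact div_le_div_of_nonneg_right (hF _ _ hp) (sq_nonneg _)
      · simp [G, indicator_of_notMem h]
  have hd0 : Measurable fun z : ℍ => NNReal.mk z.im z.im_pos.le :=
    UpperHalfPlane.continuous_im.measurable.subtype_mk
  have hd : Measurable fun z : ℍ => (1 / NNReal.mk z.im z.im_pos.le) ^ 2 :=
    (measurable_const.div hd0).pow_const 2
  have e : (fun z : ℍ => ((1 / NNReal.mk z.im z.im_pos.le) ^ 2) • (st z * F z.re z.im)) =
      G ∘ fun z : ℍ => (z.re, z.im) := funext fun z => by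
    simp [G, st, NNReal.smul_def, div_eq_inv_mul]
  rw [UpperHalfPlane.volume_def, integrable_withDensity_iff_integrable_smul hd,
    integral_withDensity_eq_integral_smul hd, e]
  refine ⟨unfb_mp.integrable_comp_of_integrable hG, ?_⟩
  refine (unfb_mp.integral_comp unfb_emb G).trans ((integral_prod_symm G hG).trans ?_)
  refine integral_congr_ae (Eventually.of_forall fun v => ?_)
  simp only [G]
  rw [integral_div, ← integral_indicator measurableSet_Ico]
  congr 2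
  funext x
  by_cases h : x ∈ Ico (0 : ℝ) 1 <;> simp [h]

end Crest.Agent.R12.TH
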