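import Crest.Agent.R17.D.Main
import Crest.Agent.R12.Iface

/-! Row 12, block TH (owner helper14): definitions for the Voronoi formula with marks.
For primary `n`: `Tb n = conj (TC n) = tau (3 n) · e(-n/9) / tau 3`.  A mark `r ∣ n` is a sum of Ramanujan
sums `gc 3 n d`, `d ∣ r`; the cusps are `A / (9 d)`, `A` primary modulo `27 d`.
Files: `Arith` (finite Fourier transforms), `Refl` (identity of Bessel series), `Ser` (Mellin),
`FE` (functional equation, Voronoi), `MV` (mean value), `Dual` (the dual integral), `I0`. -/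

set_option autoImplicit false

namespace Crest.Agent.R12.TH

open Crest.Agent.R17 Crest.Agent.R17.D
open Complex MeasureTheory Filter Set
open scoped Real Topology ComplexConjugate UpperHalfPlane MatrixGroups

/-- the conjugate theta coefficient -/
noncomputable def Tb (n : O) : ℂ := cb lam n * tau0 n

/-- `al n` for `b = false`, `conj (al n)` for `b = true` -/
noncomputable def aw (b : Bool) (n : O) : ℂ := pw (!b) (al n)

/-- a sign -/
noncomputable def sgn (b : Bool) : ℂ := if b then -1 else 1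

open Classical in
/-- an inverse modulo `Q` -/
noncomputable def iv (Q A : O) : O := if h : ∃ D, Q ∣ A * D - 1 then h.choose else 0

open Classical in
/-- the weight of the cusp `A / (9 d)` -/
noncomputable def wL (d A : O) : ℂ := if Prim A ∧ IsCoprime A d then cb 3 A * conj (cb 3 d) else 0

/-- coefficients of the Bessel series before the reflection -/
noncomputable def aL (b : Bool) (j : ℕ) (d h : O) : ℂ :=
  qw b h ^ j * tau h * (FT (27 * d) (wL d) h / 81)

open Classical in
/-- coefficients of the Bessel series after the reflection -/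
noncomputable def aR (b : Bool) (j : ℕ) (d h : O) : ℂ :=
  qw (!b) h ^ j * tau h * (if (9 : O) ∣ h then eQ (-h) 27 * conj (cb 3 d) * gc 2 (-h) d else 0)

/-- coefficients of the Dirichlet series -/
noncomputable def cL (b : Bool) (j : ℕ) (d : O) (n : Pr) : ℂ := Tb n * aw b n ^ j * gc 3 n d

/-- coefficients of the dual Dirichlet series -/
noncomputable def cR (b : Bool) (j : ℕ) (d k : O) : ℂ :=
  tau (9 * k) * eQ k 3 * cb k d * aw (!b) k ^ j

/-- the Gauss sum in the functional equation -/
noncomputable def UU (d : O) : ℂ := cb 3 d * conj (g3 d) * (√(nm d) : ℝ)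

/-- Gamma factor -/
noncomputable def G2 (j : ℕ) (s : ℂ) : ℂ :=
  Gamma (s + ((j : ℝ) / 2 + 1 / 6 : ℝ)) * Gamma (s + ((j : ℝ) / 2 - 1 / 6 : ℝ))

/-- `G2 j s / G2 j (1 - s)` -/
noncomputable def RR (j : ℕ) (s : ℂ) : ℂ :=
  Gamma (s + ((j : ℝ) / 2 + 1 / 6 : ℝ)) * (Gamma (1 - s + ((j : ℝ) / 2 + 1 / 6 : ℝ)))⁻¹ *
    (Gamma (s + ((j : ℝ) / 2 - 1 / 6 : ℝ)) * (Gamma (1 - s + ((j : ℝ) / 2 - 1 / 6 : ℝ)))⁻¹)

/-- the conductor -/
noncomputable def QQ (d : O) : ℝ := 3 * nm d / bt

/-- the dual integral -/
noncomputable def DI (R : ℂ → ℂ) (a L σ : ℝ) (c : O → ℂ) : ℂ :=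
  VI σ fun s => LNt a (1 - s) * R s * (L : ℂ) ^ s * DD c nm s

end Crest.Agent.R12.TH
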